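import Vale.Agent.P002.Frames.Main
import Vale.Agent.P002.Twisted.Basic

/-! From the parametrisation to one-field density for matrix tuples. -/

open Matrix Filter Topology

namespace Vale.Agent.P002.Frames

open Vale.Agent.P002.Surface (Mat mul_adj adj_mul det_adj)
open Vale.Agent.P002.Twisted (IntMat)

variable {r g s k n : ℕ}

/-- Tuples of matrices. -/
abbrev MT (g s r : ℕ) : Type := (Fin g → Mat r × Mat r) × (Fin s → Mat r)

/-- Representations with prescribed classes. -/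
def HomM (g : ℕ) (J : Fin s → Mat r) : Set (MT g s r) :=
  {p | (∀ i, (p.1 i).1.det = 1 ∧ (p.1 i).2.det = 1) ∧
    (∀ i, ∃ k : Mat r, k.det = 1 ∧ p.2 i = k * J i * k.adjugate) ∧
    (List.ofFn fun i => (p.1 i).1 * (p.1 i).2 * (p.1 i).1.adjugate * (p.1 i).2.adjugate).prod *
      (List.ofFn p.2).prod = 1}

/-- Indices of entries. -/
abbrev MC (g s r : ℕ) : Type := (Fin g × Bool × Fin r × Fin r) ⊕ (Fin s × Fin r × Fin r)

/-- Entries. -/
def ent (p : MT g s r) : MC g s r → ℂ :=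
  Sum.elim (fun q => (if q.2.1 then (p.1 q.1).2 else (p.1 q.1).1) q.2.2.1 q.2.2.2)
    fun q => p.2 q.1 q.2.1 q.2.2

/-- The algebra generated by all the matrices of a tuple. -/
def algOf (p : MT g s r) : Subalgebra ℂ (Mat r) :=
  Algebra.adjoin ℂ (Set.range (fun i => (p.1 i).1) ∪ Set.range (fun i => (p.1 i).2) ∪
    Set.range p.2)

/-- One-field density of irreducible integral points in an open piece. -/
def Concl (g : ℕ) (J : Fin s → Mat r) : Prop :=
  ∃ L : IntermediateField ℚ ℂ, FiniteDimensional ℚ L ∧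
    ∃ p ∈ HomM g J, algOf p = ⊤ ∧
      ∃ U : Set (MT g s r), IsOpen U ∧ p ∈ U ∧
        (∀ x ∈ U ∩ HomM g J, ∀ f : MvPolynomial (MC g s r) ℂ,
          (∀ y ∈ HomM g J, algOf y = ⊤ → (∀ q, ent y q ∈ L ∧ IsIntegral ℤ (ent y q)) →
            MvPolynomial.eval (ent y) f = 0) →
            MvPolynomial.eval (ent x) f = 0) ∧
        ∀ f₁ f₂ : MvPolynomial (MC g s r) ℂ,
          (∀ x ∈ U ∩ HomM g J, MvPolynomial.eval (ent x) (f₁ * f₂) = 0) →
            (∀ x ∈ U ∩ HomM g J, MvPolynomial.eval (ent x) f₁ = 0) ∨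
              (∀ x ∈ U ∩ HomM g J, MvPolynomial.eval (ent x) f₂ = 0)

lemma eigen_data {J : Mat (n + 1)} (hJ : J.det = 1)
    (hroot : ∀ x : ℂ, J.charpoly.IsRoot x → ∃ N > 0, x ^ N = 1) :
    ∃ μ : Fin (n + 1) → ℂ, Grouped μ ∧ J.charpoly = ∏ i, (Polynomial.X - Polynomial.C (μ i)) ∧
      (∀ i, ∃ N > 0, μ i ^ N = 1) ∧ ∏ i, μ i = 1 ∧
      (J.charpoly.roots.Nodup → ∀ a : Fin n, μ a.castSucc ≠ μ a.succ) := by
  obtain ⟨μ, hg, hc⟩ := exists_grouped J
  have hr : J.charpoly.roots = Finset.univ.val.map μ := by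
    rw [hc, Finset.prod_eq_multiset_prod,
      show Finset.univ.val.map (fun i => Polynomial.X - Polynomial.C (μ i)) =
        (Finset.univ.val.map μ).map (fun x => Polynomial.X - Polynomial.C x) by
        rw [Multiset.map_map]; rfl,
      Polynomial.roots_multiset_prod_X_sub_C]
  refine ⟨μ, hg, hc, fun i => hroot _ ?_, ?_, fun hn a => ?_⟩
  · rw [hc, Polynomial.IsRoot.def, Polynomial.eval_prod]
    exact Finset.prod_eq_zero (Finset.mem_univ i) (by simp)
  · have h := det_eq_prod_roots_charpoly J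
    rw [hJ, hr] at h
    exact h.symm
  · rw [hr] at hn
    exact fun e => Fin.castSucc_lt_succ.ne
      ((Multiset.nodup_map_iff_inj_on Finset.univ.nodup).1 hn _ (Finset.mem_univ_val _) _
        (Finset.mem_univ_val _) e)

lemma cyclic_of_span {T : Mat r} (h : ∃ v : Fin r → ℂ,
    Submodule.span ℂ (Set.range fun j : Fin r => (T ^ (j : ℕ)) *ᵥ v) = ⊤) : Cyclic T := by
  obtain ⟨v, hv⟩ := h
  refine ⟨v, ?_⟩
  have hu : IsUnit (Matrix.of fun i j : Fin r => (T ^ (j : ℕ) *ᵥ v) i) := by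
    refine Matrix.linearIndependent_cols_iff_isUnit.1 ?_
    exact linearIndependent_of_top_le_span_of_card_eq_finrank hv.ge (by simp)
  exact (isUnit_iff_ne_zero.1 ((Matrix.isUnit_iff_isUnit_det _).1 hu))

/-- The matrices of a tuple of elements of `SL`. -/
def toMat (X : XS n g k) : MT g (k + 1) (n + 1) :=
  (fun i => ((X.1 i).1.1, (X.1 i).2.1), Fin.snoc (fun i => (X.2.1 i).1) X.2.2.1)

lemma ofFn_snoc_prod {M : Type*} [Monoid M] (c : Fin k → M) (F : M) :
    (List.ofFn (Fin.snoc c F : Fin (k + 1) → M)).prod = (List.ofFn c).prod * F := by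
  rw [List.ofFn_succ', List.concat_eq_append, List.prod_append, List.prod_cons, List.prod_nil,
    mul_one]
  simp

lemma list_val (l : List (SL (n + 1) ℂ)) :
    l.prod.1 = (l.map fun A : SL (n + 1) ℂ => A.1).prod := by
  induction l with
  | nil => rfl
  | cons a l ih => rw [List.prod_cons, mul_val, ih, List.map_cons, List.prod_cons]

lemma rel_toMat (X : XS n g k) :
    (List.ofFn fun i => ((toMat X).1 i).1 * ((toMat X).1 i).2 * ((toMat X).1 i).1.adjugate *
      ((toMat X).1 i).2.adjugate).prod * (List.ofFn (toMat X).2).prod =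
    ((List.ofFn fun i => (X.1 i).1 * (X.1 i).2 * (X.1 i).1⁻¹ * (X.1 i).2⁻¹).prod *
      (List.ofFn X.2.1).prod * X.2.2).1 := by
  rw [mul_val, mul_val, list_val, list_val, List.map_ofFn, List.map_ofFn]
  simp only [toMat, ofFn_snoc_prod, mul_assoc, Function.comp_def, mul_val, inv_apply]

/-- A matrix of determinant one. -/
def toSL (M : Mat (n + 1)) (h : M.det = 1) : SL (n + 1) ℂ := ⟨M, h⟩

lemma toSL_val (M : Mat (n + 1)) (h : M.det = 1) : (toSL M h).1 = M := rfl

lemma toMat_mem {J : Fin (k + 1) → Mat (n + 1)} (hJ : ∀ i, (J i).det = 1) {X : XS n g k} :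
    toMat X ∈ HomM g J ↔ InHom (fun i => toSL (J i) (hJ i)) X := by
  have key : ∀ (i : Fin (k + 1)) (c : SL (n + 1) ℂ),
      (∃ κ : Mat (n + 1), κ.det = 1 ∧ c.1 = κ * J i * κ.adjugate) ↔
        ∃ κ, c = κ * toSL (J i) (hJ i) * κ⁻¹ := by
    intro i c
    constructor
    · rintro ⟨κ, hκ, e⟩
      refine ⟨toSL κ hκ, Subtype.ext ?_⟩
      rw [mul_val, mul_val, inv_apply, toSL_val, toSL_val]
      exact e
    · rintro ⟨κ, rfl⟩
      exact ⟨κ.1, κ.2, by rw [mul_val, mul_val, inv_apply, toSL_val]⟩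
  constructor
  · rintro ⟨-, hc, hr⟩
    refine ⟨fun i => (key _ _).1 ?_, (key _ _).1 ?_, Subtype.ext ?_⟩
    · have h := hc i.castSucc
      simp only [toMat, Fin.snoc_castSucc] at h
      exact h
    · have h := hc (Fin.last k)
      simp only [toMat, Fin.snoc_last] at h
      exact h
    · rw [← rel_toMat, hr, one_val]
  · rintro ⟨hc, hF, hr⟩
    refine ⟨fun i => ⟨(X.1 i).1.2, (X.1 i).2.2⟩, fun i => ?_, ?_⟩
    · refine Fin.lastCases ?_ (fun i => ?_) i
      · simp only [toMat, Fin.snoc_last]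
        exact (key _ _).2 hF
      · simp only [toMat, Fin.snoc_castSucc]
        exact (key _ _).2 (hc i)
    · rw [rel_toMat, hr, one_val]

lemma exists_toMat {J : Fin (k + 1) → Mat (n + 1)} (hJ : ∀ i, (J i).det = 1)
    {x : MT g (k + 1) (n + 1)} (hx : x ∈ HomM g J) : ∃ X : XS n g k, toMat X = x := by
  have hd : ∀ i, (x.2 i).det = 1 := fun i => by
    obtain ⟨κ, hκ, e⟩ := hx.2.1 i
    rw [e, det_mul, det_mul, det_adj hκ, hκ, hJ i, one_mul, one_mul]
  refine ⟨(fun i => (⟨(x.1 i).1, (hx.1 i).1⟩, ⟨(x.1 i).2, (hx.1 i).2⟩),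
    fun i => ⟨x.2 i.castSucc, hd _⟩, ⟨x.2 (Fin.last k), hd _⟩), Prod.ext rfl ?_⟩
  funext i
  refine Fin.lastCases ?_ (fun i => ?_) i <;> simp [toMat]

lemma algOf_toMat (X : XS n g k) : algOf (toMat X) = Algebra.adjoin ℂ (Set.range (gens X)) := by
  refine le_antisymm (Algebra.adjoin_mono ?_) (Algebra.adjoin_mono ?_)
  · rintro y ((⟨i, rfl⟩ | ⟨i, rfl⟩) | ⟨i, rfl⟩)
    · exact ⟨Sum.inl i, rfl⟩
    · exact ⟨Sum.inr (Sum.inl i), rfl⟩
    · refine Fin.lastCases ?_ (fun i => ?_) i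
      · exact ⟨Sum.inr (Sum.inr (Sum.inr ())), by simp [gens, toMat]⟩
      · exact ⟨Sum.inr (Sum.inr (Sum.inl i)), by simp [gens, toMat]⟩
  · rintro y ⟨a, rfl⟩
    rcases a with i | i | i | i
    · exact Or.inl (Or.inl ⟨i, rfl⟩)
    · exact Or.inl (Or.inr ⟨i, rfl⟩)
    · exact Or.inr ⟨i.castSucc, by simp [gens, toMat]⟩
    · exact Or.inr ⟨Fin.last k, by simp [gens, toMat]⟩

/-- A unit of infinite order in a quadratic field. -/
lemma exists_unit : ∃ e : ℂ, IsIntegral ℤ e ∧ e * (e - 2) = 1 ∧ ∀ N > 0, e ^ N ≠ 1 := by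
  have hs : ((Real.sqrt 2 : ℝ) : ℂ) * (Real.sqrt 2 : ℝ) = 2 := by
    rw [← Complex.ofReal_mul, Real.mul_self_sqrt (by norm_num)]; norm_num
  refine ⟨((1 + Real.sqrt 2 : ℝ) : ℂ), ?_, ?_, fun N hN h => ?_⟩
  · refine ⟨Polynomial.X ^ 2 - 2 * Polynomial.X - 1, ?_, ?_⟩
    · monicity!
    · simp only [Polynomial.eval₂_sub, Polynomial.eval₂_mul, Polynomial.eval₂_pow,
        Polynomial.eval₂_X, Polynomial.eval₂_ofNat, Polynomial.eval₂_one]
      push_cast
      linear_combination hs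
  · push_cast
    linear_combination hs
  · have h' : (1 + Real.sqrt 2) ^ N = 1 := by exact_mod_cast h
    have : (1 : ℝ) < 1 + Real.sqrt 2 := by simp
    exact (one_lt_pow₀ this hN.ne').ne' h'

/-- The parametrised piece, and the reach of polynomials vanishing on it. -/
theorem main_core (J : Fin (k + 1) → Mat (n + 1)) (hχ : 3 ≤ 2 * g + k)
    (hdet : ∀ i, (J i).det = 1)
    (hcyc : ∀ i, ∃ v : Fin (n + 1) → ℂ,
      Submodule.span ℂ (Set.range fun j : Fin (n + 1) => (J i ^ (j : ℕ)) *ᵥ v) = ⊤)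
    (μ : Fin (k + 1) → Fin (n + 1) → ℂ) (hgr : ∀ i, Grouped (μ i))
    (hch : ∀ i, (J i).charpoly = ∏ l, (Polynomial.X - Polynomial.C (μ i l)))
    (hμN : ∀ i l, ∃ N > 0, μ i l ^ N = 1) (hprod : ∀ i, ∏ l, μ i l = 1)
    (lam : Fin k → Fin n → ℂˣ) (lamF : Fin n → ℂˣ)
    (hlam : ∀ i l, (lam i l : ℂ) = μ i.castSucc l.castSucc)
    (hlamF : ∀ l, (lamF l : ℂ) = μ (Fin.last k) l.castSucc)
    (hsuper : ∀ a : Fin n, μ (Fin.last k) a.castSucc = μ (Fin.last k) a.succ →
      ∃ p : Par n g k ℂ, p.Good lam lamF ∧ (p.R lam).1 a.castSucc a.succ ≠ 0) :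
    ∃ L : IntermediateField ℚ ℂ, FiniteDimensional ℚ L ∧
      ∃ p ∈ HomM g J, algOf p = ⊤ ∧
        ∃ U : Set (MT g (k + 1) (n + 1)), IsOpen U ∧ p ∈ U ∧
          (∀ x ∈ U ∩ HomM g J, ∀ f : MvPolynomial (MC g (k + 1) (n + 1)) ℂ,
            (∀ y ∈ HomM g J, algOf y = ⊤ → (∀ q, ent y q ∈ L ∧ IsIntegral ℤ (ent y q)) →
              MvPolynomial.eval (ent y) f = 0) →
              MvPolynomial.eval (ent x) f = 0) ∧
          (∀ f₁ f₂ : MvPolynomial (MC g (k + 1) (n + 1)) ℂ,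
            (∀ x ∈ U ∩ HomM g J, MvPolynomial.eval (ent x) (f₁ * f₂) = 0) →
              (∀ x ∈ U ∩ HomM g J, MvPolynomial.eval (ent x) f₁ = 0) ∨
                (∀ x ∈ U ∩ HomM g J, MvPolynomial.eval (ent x) f₂ = 0)) ∧
          ∀ f : MvPolynomial (MC g (k + 1) (n + 1)) ℂ,
            (∀ x ∈ U ∩ HomM g J, MvPolynomial.eval (ent x) f = 0) →
              ∀ p : Par n g k ℂ, p.Good lam lamF →
                MvPolynomial.eval (ent (toMat (p.outs lam))) f = 0 := by
  choose N hN hμ1 using hμN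
  obtain ⟨e, hei, hee, he⟩ := exists_unit
  let S0 : Set ℂ := Set.range (fun q : Fin (k + 1) × Fin (n + 1) => μ q.1 q.2) ∪ {e}
  let L : IntermediateField ℚ ℂ := IntermediateField.adjoin ℚ S0
  have hμi : ∀ i l, IsIntegral ℤ (μ i l) := fun i l => by
    exact IsIntegral.of_pow (hN i l) (hμ1 i l ▸ isIntegral_one)
  have hS0 : ∀ x ∈ S0, IsIntegral ℤ x := by
    rintro x (⟨q, rfl⟩ | rfl)
    exacts [hμi q.1 q.2, hei]
  have hfin : FiniteDimensional ℚ L := by
    have : Finite S0 := ((Set.finite_range _).union (Set.finite_singleton _)).to_subtype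
    exact IntermediateField.finiteDimensional_adjoin fun x hx => (hS0 x hx).tower_top
  let R : Subring ℂ := L.toSubring ⊓ (integralClosure ℤ ℂ).toSubring
  have hR : ∀ x ∈ S0, x ∈ R := fun x hx => ⟨IntermediateField.subset_adjoin ℚ S0 hx, hS0 x hx⟩
  have hμR : ∀ i l, μ i l ∈ R := fun i l => hR _ (Or.inl ⟨(i, l), rfl⟩)
  let μR : Fin (k + 1) → Fin (n + 1) → Rˣ := fun i l =>
    Units.mkOfMulEqOne ⟨μ i l, hμR i l⟩ ⟨μ i l ^ (N i l - 1), R.pow_mem (hμR i l) _⟩
      (Subtype.ext (show μ i l * μ i l ^ (N i l - 1) = 1 by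
        rw [← pow_succ', Nat.sub_add_cancel (hN i l)]; exact hμ1 i l))
  have hμv : ∀ i l, (cu (μR i l) : ℂ) = μ i l := fun _ _ => rfl
  have hlam' : cuLam (lamOf μR) = lam :=
    funext fun i => funext fun l => Units.ext (hlam i l).symm
  have hlamF' : (fun l => cu (lamLast μR l)) = lamF :=
    funext fun l => Units.ext (hlamF l).symm
  obtain ⟨G, z₀, hG, hG0, hin, hev⟩ := core (g := g) μR hχ hgr hprod
    (fun a h => by rw [hlam', hlamF']; exact hsuper a h) (T := fun i => toSL (J i) (hdet i))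
    (fun i => cyclic_of_span (hcyc i)) hch
  let P : Z n g k → MT g (k + 1) (n + 1) := fun z => toMat (Phi μR z)
  have hgood : ∀ z, G z ≠ 0 → P z ∈ HomM g J ∧ algOf (P z) = ⊤ := fun z hz =>
    ⟨(toMat_mem hdet).2 (hin z hz).1, by rw [algOf_toMat]; exact (hin z hz).2⟩
  have hentLI : ∀ q, (fun z => ent (P z) q) ∈ LI R (AIx n g) (UIx n g k) := by
    rintro (⟨i, b, a, c⟩ | ⟨i, a, c⟩)
    · cases b
      · exact gens_LP μR (Sum.inl i) a c
      · exact gens_LP μR (Sum.inr (Sum.inl i)) a c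
    · refine Fin.lastCases ?_ (fun i => ?_) i
      · have h := gens_LP (g := g) μR (Sum.inr (Sum.inr (Sum.inr ()))) a c
        simpa [P, ent, toMat, gens] using h
      · have h := gens_LP (g := g) μR (Sum.inr (Sum.inr (Sum.inl i))) a c
        simpa [P, ent, toMat, gens] using h
  have hevLP : ∀ f : MvPolynomial (MC g (k + 1) (n + 1)) ℂ,
      (fun z => MvPolynomial.eval (ent (P z)) f) ∈ LP (AIx n g) (UIx n g k) := by
    intro f
    induction f using MvPolynomial.induction_on with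
    | C c =>
      simp only [MvPolynomial.eval_C]
      exact (constLI (R := (⊤ : Subring ℂ)) (ι := AIx n g) (κ := UIx n g k) ⟨c, trivial⟩).2
    | add p q hp hq =>
      simp only [map_add]
      exact Subring.add_mem _ hp hq
    | mul_X p q hp =>
      simp only [map_mul, MvPolynomial.eval_X]
      exact Subring.mul_mem _ hp (LI_le_LP (hentLI q))
  -- a neighbourhood
  let ιv : XS n g k → (Fin g → Mat (n + 1) × Mat (n + 1)) × (Fin k → Mat (n + 1)) × Mat (n + 1) :=
    fun X => (fun i => ((X.1 i).1.1, (X.1 i).2.1), fun i => (X.2.1 i).1, X.2.2.1)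
  have hind : IsInducing ιv := by
    have hv : IsInducing (fun A : SL (n + 1) ℂ => A.1) := ⟨rfl⟩
    exact (IsInducing.piMap fun _ : Fin g => hv.prodMap hv).prodMap
      ((IsInducing.piMap fun _ : Fin k => hv).prodMap hv)
  rw [hind.nhds_eq_comap, eventually_comap] at hev
  let ψ : MT g (k + 1) (n + 1) →
      (Fin g → Mat (n + 1) × Mat (n + 1)) × (Fin k → Mat (n + 1)) × Mat (n + 1) :=
    fun x => (x.1, fun i => x.2 i.castSucc, x.2 (Fin.last k))
  have hψc : Continuous ψ := continuous_fst.prodMk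
    ((continuous_pi fun i => (continuous_apply _).comp continuous_snd).prodMk
      ((continuous_apply _).comp continuous_snd))
  have hψ : ∀ X, ψ (toMat X) = ιv X := fun X => by
    simp only [ψ, toMat, ιv, Fin.snoc_castSucc, Fin.snoc_last]
  rw [← hψ] at hev
  obtain ⟨U, hU, hUo, hpU⟩ := eventually_nhds_iff.1 (hψc.continuousAt.eventually hev)
  have hcov : ∀ x ∈ U ∩ HomM g J, ∃ z, P z = x := by
    rintro x ⟨hxU, hxH⟩
    obtain ⟨X, rfl⟩ := exists_toMat hdet hxH
    obtain ⟨z, hz⟩ := hU _ hxU X (hψ X).symm ((toMat_mem hdet).1 hxH)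
    exact ⟨z, by simp only [P, hz]⟩
  obtain ⟨hp, hpA⟩ := hgood z₀ hG0
  have hPc : Continuous P := by
    refine Continuous.prodMk (continuous_pi fun i => ?_) (continuous_pi fun i => ?_)
    · refine Continuous.prodMk ?_ ?_
      · exact continuous_matrix fun a c => continuous_LP (LI_le_LP (hentLI (Sum.inl (i, false, a, c))))
      · exact continuous_matrix fun a c => continuous_LP (LI_le_LP (hentLI (Sum.inl (i, true, a, c))))
    · exact continuous_matrix fun a c => continuous_LP (LI_le_LP (hentLI (Sum.inr (i, a, c))))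
  have hall : ∀ f : MvPolynomial (MC g (k + 1) (n + 1)) ℂ,
      (∀ x ∈ U ∩ HomM g J, MvPolynomial.eval (ent x) f = 0) →
      ∀ w, MvPolynomial.eval (ent (P w)) f = 0 := by
    intro f hf
    refine eq_zero_of_nhds (hevLP _) (z₀ := z₀) ?_
    filter_upwards [hPc.continuousAt.preimage_mem_nhds (hUo.mem_nhds hpU),
      (continuous_LP hG).continuousAt.eventually_ne hG0] with w hw hGw
    exact hf _ ⟨hw, (hgood w hGw).1⟩
  refine ⟨L, hfin, P z₀, hp, hpA, U, hUo, hpU, ?_, ?_, fun f hf p hp => ?_⟩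
  · intro x hx f hf
    obtain ⟨z, rfl⟩ := hcov x hx
    have h0 : ∀ w, MvPolynomial.eval (ent (P w)) f * G w = 0 := by
      have heε : e ∈ R := hR _ (Or.inr rfl)
      refine eq_zero_of_int (R := R) (Subring.mul_mem _ (hevLP f) hG)
        (ε := Units.mkOfMulEqOne e (e - 2) hee) ?_ heε ?_ fun w hw => ?_
      · rw [isOfFinOrder_iff_pow_eq_one]
        rintro ⟨m, hm, h⟩
        exact he m hm (by simpa using congrArg Units.val h)
      · show e - 2 ∈ R
        exact R.sub_mem heε (natCast_mem R 2)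
      · show MvPolynomial.eval (ent (P w)) f * G w = 0
        by_cases hGw : G w = 0
        · rw [hGw, mul_zero]
        · obtain ⟨h1, h2⟩ := hgood w hGw
          rw [hf _ h1 h2 fun q => ?_, zero_mul]
          have := evLI_mem (R := R) hw ⟨_, hentLI q⟩
          exact ⟨this.1, this.2⟩
    rcases prime_LP (hevLP f) hG h0 with h | h
    · exact h z
    · exact absurd (h z₀) hG0
  · intro f₁ f₂ h12
    have h0 : ∀ w, MvPolynomial.eval (ent (P w)) (f₁ * f₂) = 0 := hall _ h12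
    rcases prime_LP (hevLP f₁) (hevLP f₂) (fun w => by rw [← map_mul]; exact h0 w) with h | h
    · exact Or.inl fun x hx => by obtain ⟨z, rfl⟩ := hcov x hx; exact h z
    · exact Or.inr fun x hx => by obtain ⟨z, rfl⟩ := hcov x hx; exact h z
  · obtain ⟨z, hz⟩ := parAt_surj p
    have h := hall f hf z
    have e : fixAt (lamOf μR) (lamLast μR) (g + k - 1) z = p := by
      show (parAt z).fix (cuLam (lamOf μR)) (fun l => cu (lamLast μR l)) _ = p
      rw [hz, hlam', hlamF']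
      exact p.fix_self lam (by omega) lamF _ (by omega) hp
    simp only [P, Phi] at h
    rwa [e, hlam'] at h

/-- Density when the last class is the special one. -/
theorem main_last (J : Fin (k + 1) → Mat (n + 1)) (hχ : 3 ≤ 2 * g + k)
    (hdet : ∀ i, (J i).det = 1)
    (hroot : ∀ i, ∀ x : ℂ, (J i).charpoly.IsRoot x → ∃ N > 0, x ^ N = 1)
    (hcyc : ∀ i, ∃ v : Fin (n + 1) → ℂ,
      Submodule.span ℂ (Set.range fun j : Fin (n + 1) => (J i ^ (j : ℕ)) *ᵥ v) = ⊤)
    (hlast : (J (Fin.last k)).charpoly.roots.Nodup ∨ (Even n ∧ 1 ≤ k)) :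
    Concl g J := by
  choose μ hgr hch hμN hprod hnd using fun i => eigen_data (hdet i) (hroot i)
  have h0 : ∀ i l, μ i l ≠ 0 := fun i l h => by
    obtain ⟨N, hN, e⟩ := hμN i l
    rw [h, zero_pow hN.ne'] at e
    exact zero_ne_one e
  let lam : Fin k → Fin n → ℂˣ := fun i l => Units.mk0 _ (h0 i.castSucc l.castSucc)
  let lamF : Fin n → ℂˣ := fun l => Units.mk0 _ (h0 (Fin.last k) l.castSucc)
  obtain ⟨L, hL, p, hp, hpA, U, hUo, hpU, hcl, hprime, -⟩ := main_core J hχ hdet hcyc μ hgr hch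
    hμN hprod lam lamF (fun _ _ => rfl) (fun _ => rfl) fun a ha => by
      rcases hlast with h | ⟨hev, hk⟩
      · exact absurd ha (hnd _ h a)
      · exact Par.exists_good_super_R (by omega) hk hev lam lamF a
  exact ⟨L, hL, p, hp, hpA, U, hUo, hpU, hcl, hprime⟩

end Vale.Agent.P002.Frames
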