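import Vale.Agent.P002.Frames.Maps

/-! The two kinds of blocks: a puncture element and a handle. -/

open Matrix

namespace Vale.Agent.P002.Frames

variable {n : ℕ} {K L : Type*} [CommRing K] [CommRing L] (f : K →+* L)

/-- The diagonal of a matrix in `SL`. -/
def dg (A : SL (n + 1) K) (i : Fin (n + 1)) : K := A.1 i i

lemma dg_mul {A B : SL (n + 1) K} (hA : Up A) (hB : Up B) (i : Fin (n + 1)) :
    dg (A * B) i = dg A i * dg B i := hA.mul_diag hB i

lemma dg_inv_mul {A : SL (n + 1) K} (hA : Up A) (i : Fin (n + 1)) : dg A i * dg A⁻¹ i = 1 :=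
  hA.inv_diag i

/-- The normalised puncture element with eigenvalues `lam`. -/
noncomputable def tElt (lam : Fin n → Kˣ) (x : XP n K) : SL (n + 1) K :=
  (Vmat n x)⁻¹ * diOf lam * (bOf x)⁻¹ * Vmat n x

/-- The triangular part of a normalised puncture element. -/
noncomputable def tZ (lam : Fin n → Kˣ) (x : XP n K) : SL (n + 1) K :=
  cw' ((Vmat n x)⁻¹ * diOf lam) * betaOf x

lemma tZ_up (lam : Fin n → Kˣ) (x : XP n K) : Up (tZ lam x) :=
  ((Vmat_lo n x).1.inv.mul (diOf_lo lam)).cw'.mul (betaOf_up x)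

lemma tElt_eq (lam : Fin n → Kˣ) (x : XP n K) : tElt lam x = wl (n + 1) * tZ lam x := by
  simp only [tElt, tZ, chart_eq, cw']
  group

lemma mp_tElt (lam : Fin n → Kˣ) (x : XP n K) :
    mp f (tElt lam x) = tElt (fun i => Units.map (f : K →* L) (lam i)) (mpX f x) := by
  simp only [tElt, map_mul, map_inv, mp_Vmat, mp_diOf, (mp_chart f x).1]

lemma mp_tZ (lam : Fin n → Kˣ) (x : XP n K) :
    mp f (tZ lam x) = tZ (fun i => Units.map (f : K →* L) (lam i)) (mpX f x) := by
  simp only [tZ, map_mul, map_inv, mp_cw', mp_Vmat, mp_diOf, (mp_chart f x).2]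

lemma tZ_diag (lam : Fin n → Kˣ) (x : XP n K) (i : Fin n) :
    dg (tZ lam x) i.castSucc = dg (diOf lam) i.castSucc.rev * dia n x i := by
  rw [tZ, dg_mul ((Vmat_lo n x).1.inv.mul (diOf_lo lam)).cw' (betaOf_up x)]
  show (cw' ((Vmat n x)⁻¹ * diOf lam)).1 _ _ * (betaOf x).1 _ _ = _
  rw [cw'_diag, betaOf_diag, (Vmat_lo n x).1.inv.mul_diag (diOf_lo lam),
    ((Vmat_lo n x).2.inv_lo (Vmat_lo n x).1), one_mul]
  rfl

/-- Parameters of a handle. -/
structure HPar (n : ℕ) (K : Type*) [CommRing K] where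
  /-- diagonal of the first right factor -/
  d : Fin n → Kˣ
  /-- entries of the first right factor -/
  u : Fin (n + 1) → Fin (n + 1) → K
  /-- first joint -/
  j1 : Jt n K
  /-- second joint -/
  j2 : Jt n K
  /-- third joint -/
  j3 : Jt n K

/-- Map handle parameters. -/
def mpH (h : HPar n K) : HPar n L :=
  ⟨fun i => Units.map (f : K →* L) (h.d i), fun i j => f (h.u i j), mpJ f h.j1, mpJ f h.j2,
    mpJ f h.j3⟩

namespace HPar

variable (h : HPar n K)

/-- Right factor of the first matrix. -/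
def zA : SL (n + 1) K := upOf h.d h.u

/-- Left factor of the second matrix. -/
def pB : SL (n + 1) K := h.zA⁻¹ * jm h.j1

/-- Right factor of the second matrix. -/
noncomputable def zB : SL (n + 1) K := om⁻¹ * (betaOf h.j1.2)⁻¹ * jm h.j2 * om * h.zA

/-- Left factor of the first matrix. -/
noncomputable def pA : SL (n + 1) K :=
  (om⁻¹ * (betaOf h.j2.2)⁻¹ * jm h.j3 * om * h.zB)⁻¹

/-- The first matrix. -/
noncomputable def A : SL (n + 1) K := h.pA * wl (n + 1) * h.zA

/-- The second matrix. -/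
noncomputable def B : SL (n + 1) K := h.pB * wl (n + 1) * h.zB

/-- Left factor of the commutator. -/
noncomputable def P : SL (n + 1) K :=
  h.pA * cw (diOf h.j1.1) * bOf h.j1.2 * cw (diOf h.j2.1) * bOf h.j2.2 * cw (diOf h.j3.1) *
    bOf h.j3.2

/-- Right factor of the commutator. -/
noncomputable def Z : SL (n + 1) K := betaOf h.j3.2 * om * h.pB⁻¹

lemma zA_up : Up h.zA := upOf_up _ _

lemma pB_up : Up h.pB := h.zA_up.inv.mul (jm_up _)

lemma zB_up : Up h.zB :=
  (((om_up.inv).mul (betaOf_up _).inv).mul (jm_up _)).mul om_up |>.mul h.zA_up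

lemma pA_up : Up h.pA :=
  ((((om_up.inv).mul (betaOf_up _).inv).mul (jm_up _)).mul om_up |>.mul h.zB_up).inv

lemma P_up : Up h.P :=
  (((((h.pA_up.mul (diOf_lo _).cw).mul (bOf_up _)).mul (diOf_lo _).cw).mul (bOf_up _)).mul
    (diOf_lo _).cw).mul (bOf_up _)

lemma Z_up : Up h.Z := ((betaOf_up _).mul om_up).mul h.pB_up.inv

lemma comm_eq : h.A * h.B * h.A⁻¹ * h.B⁻¹ = h.P * wl (n + 1) * h.Z := by
  have e1 : h.zA * h.pB = jm h.j1 := by simp only [pB]; group
  have hAi : h.A⁻¹ = (h.zA⁻¹ * om⁻¹) * wl (n + 1) * h.pA⁻¹ := by simp only [A, om]; group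
  have hBi : h.B⁻¹ = (h.zB⁻¹ * om⁻¹) * wl (n + 1) * h.pB⁻¹ := by simp only [B, om]; group
  have e2 : betaOf h.j1.2 * om * h.zB * (h.zA⁻¹ * om⁻¹) = jm h.j2 := by
    simp only [zB]; group
  have e3 : betaOf h.j2.2 * om * h.pA⁻¹ * (h.zB⁻¹ * om⁻¹) = jm h.j3 := by
    simp only [pA]; group
  rw [hAi, hBi, A, B, glue e1, glue e2, glue e3]
  simp only [P, Z, mul_assoc]

lemma mp_zA : mp f h.zA = (mpH f h).zA := mp_upOf f _ _

lemma mp_pB : mp f h.pB = (mpH f h).pB := by
  simp only [pB, map_mul, map_inv, mp_zA, mp_jm]; rfl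

lemma mp_zB : mp f h.zB = (mpH f h).zB := by
  simp only [zB, map_mul, map_inv, mp_zA, mp_jm, mp_om, (mp_chart f _).2]; rfl

lemma mp_pA : mp f h.pA = (mpH f h).pA := by
  simp only [pA, map_mul, map_inv, mp_zB, mp_jm, mp_om, (mp_chart f _).2]; rfl

lemma mp_A : mp f h.A = (mpH f h).A := by
  simp only [A, map_mul, mp_pA, mp_zA, mp_wl]

lemma mp_B : mp f h.B = (mpH f h).B := by
  simp only [B, map_mul, mp_pB, mp_zB, mp_wl]

lemma mp_P : mp f h.P = (mpH f h).P := by
  simp only [P, map_mul, mp_pA, mp_cw, mp_diOf, (mp_chart f _).1]; rfl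

lemma mp_Z : mp f h.Z = (mpH f h).Z := by
  simp only [Z, map_mul, map_inv, mp_pB, mp_om, (mp_chart f _).2]; rfl

end HPar

end Vale.Agent.P002.Frames
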