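import Mathlib

/-! Triangular matrices, the longest Weyl element and an integral chart of the lower unipotent
matrices whose Bruhat cell is the big one. -/

open Matrix

namespace Vale.Agent.P002.Frames

variable {n : ℕ} {K : Type*} [CommRing K]

/-- `SL_n`. -/
abbrev SL (n : ℕ) (K : Type*) [CommRing K] : Type _ := Matrix.SpecialLinearGroup (Fin n) K

/-- Upper triangular. -/
def Up (A : SL n K) : Prop := ∀ i j : Fin n, j < i → A.1 i j = 0

/-- Lower triangular. -/
def Lo (A : SL n K) : Prop := ∀ i j : Fin n, i < j → A.1 i j = 0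

/-- Ones on the diagonal. -/
def Uni (A : SL n K) : Prop := ∀ i, A.1 i i = 1

lemma inv_apply (A : SL n K) : (A⁻¹).1 = A.1.adjugate := Matrix.SpecialLinearGroup.coe_inv A

lemma mul_val (A B : SL n K) : (A * B).1 = A.1 * B.1 := Matrix.SpecialLinearGroup.coe_mul A B

lemma one_val : (1 : SL n K).1 = 1 := Matrix.SpecialLinearGroup.coe_one

lemma adj_zero_of_upper {A : Matrix (Fin n) (Fin n) K} (hA : ∀ i j, j < i → A i j = 0)
    {i j : Fin n} (hij : j < i) : A.adjugate i j = 0 := by
  rw [adjugate_apply, det_apply']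
  refine Finset.sum_eq_zero fun σ _ => ?_
  suffices ∃ k, (A.updateRow j (Pi.single i 1)) (σ k) k = 0 by
    obtain ⟨k, hk⟩ := this
    exact mul_eq_zero_of_right _ (Finset.prod_eq_zero (Finset.mem_univ k) hk)
  by_cases hσ : σ i = j
  · -- some column left of `i` must come from a row below it
    by_contra hne
    push Not at hne
    have hle : ∀ k, k ≠ i → σ k ≤ k := fun k hk => by
      by_contra h
      refine hne k ?_
      rw [updateRow_ne (fun e => hk (σ.injective (e.trans hσ.symm))), hA _ _ (not_le.1 h)]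
    have hsum : ∑ k, ((σ k : Fin n) : ℕ) = ∑ k : Fin n, (k : ℕ) :=
      Equiv.sum_comp σ (fun k : Fin n => (k : ℕ))
    have : ∑ k, ((σ k : Fin n) : ℕ) < ∑ k : Fin n, (k : ℕ) := by
      refine Finset.sum_lt_sum (fun k _ => ?_) ⟨i, Finset.mem_univ _, by rw [hσ]; exact hij⟩
      rcases eq_or_ne k i with rfl | hk
      · rw [hσ]; exact le_of_lt hij
      · exact hle k hk
    omega
  · exact ⟨σ.symm j, by
      rw [σ.apply_symm_apply, updateRow_self, Pi.single_eq_of_ne]
      intro e
      exact hσ (by rw [← e, σ.apply_symm_apply])⟩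

lemma upper_mul_diag {A B : Matrix (Fin n) (Fin n) K} (hA : ∀ i j, j < i → A i j = 0)
    (hB : ∀ i j, j < i → B i j = 0) (i : Fin n) : (A * B) i i = A i i * B i i := by
  rw [Matrix.mul_apply]
  refine Finset.sum_eq_single i (fun k _ hk => ?_) (by simp)
  rcases lt_or_gt_of_ne hk with h | h
  · rw [hA _ _ h, zero_mul]
  · rw [hB _ _ h, mul_zero]

lemma Up.one : Up (1 : SL n K) := fun i j h => by rw [one_val, one_apply_ne h.ne']

lemma Up.mul {A B : SL n K} (hA : Up A) (hB : Up B) : Up (A * B) := fun i j h => by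
  rw [mul_val, Matrix.mul_apply]
  refine Finset.sum_eq_zero fun k _ => ?_
  rcases lt_or_ge k i with h' | h'
  · rw [hA _ _ h', zero_mul]
  · rw [hB _ _ (lt_of_lt_of_le h h'), mul_zero]

lemma Up.inv {A : SL n K} (hA : Up A) : Up A⁻¹ := fun i j h => by
  rw [inv_apply, adj_zero_of_upper hA h]

lemma Up.mul_diag {A B : SL n K} (hA : Up A) (hB : Up B) (i : Fin n) :
    (A * B).1 i i = A.1 i i * B.1 i i := by rw [mul_val]; exact upper_mul_diag hA hB i

lemma Up.inv_diag {A : SL n K} (hA : Up A) (i : Fin n) : A.1 i i * (A⁻¹).1 i i = 1 := by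
  rw [← hA.mul_diag hA.inv, mul_inv_cancel, one_val, one_apply_eq]

lemma Lo.one : Lo (1 : SL n K) := fun i j h => by rw [one_val, one_apply_ne h.ne]

lemma Lo.mul {A B : SL n K} (hA : Lo A) (hB : Lo B) : Lo (A * B) := fun i j h => by
  rw [mul_val, Matrix.mul_apply]
  refine Finset.sum_eq_zero fun k _ => ?_
  rcases lt_or_ge i k with h' | h'
  · rw [hA _ _ h', zero_mul]
  · rw [hB _ _ (lt_of_le_of_lt h' h), mul_zero]

lemma Lo.mul_diag {A B : SL n K} (hA : Lo A) (hB : Lo B) (i : Fin n) :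
    (A * B).1 i i = A.1 i i * B.1 i i := by
  rw [mul_val, Matrix.mul_apply]
  refine Finset.sum_eq_single i (fun k _ hk => ?_) (by simp)
  rcases lt_or_gt_of_ne hk with h | h
  · rw [hB _ _ h, mul_zero]
  · rw [hA _ _ h, zero_mul]

lemma Lo.inv {A : SL n K} (hA : Lo A) : Lo A⁻¹ := fun i j h => by
  have hT : ∀ a b : Fin n, b < a → A.1ᵀ a b = 0 := fun a b hab => by
    rw [transpose_apply]; exact hA _ _ hab
  have := adj_zero_of_upper hT h
  rw [← adjugate_transpose, transpose_apply] at this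
  rw [inv_apply]; exact this

lemma Lo.inv_diag {A : SL n K} (hA : Lo A) (i : Fin n) : A.1 i i * (A⁻¹).1 i i = 1 := by
  rw [← hA.mul_diag hA.inv, mul_inv_cancel, one_val, one_apply_eq]

lemma Uni.one : Uni (1 : SL n K) := fun i => by rw [one_val, one_apply_eq]

lemma Uni.mul_up {A B : SL n K} (hA : Up A) (hB : Up B) (a : Uni A) (b : Uni B) : Uni (A * B) :=
  fun i => by rw [hA.mul_diag hB, a, b, one_mul]

lemma Uni.mul_lo {A B : SL n K} (hA : Lo A) (hB : Lo B) (a : Uni A) (b : Uni B) : Uni (A * B) :=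
  fun i => by rw [hA.mul_diag hB, a, b, one_mul]

lemma Uni.inv_up {A : SL n K} (hA : Up A) (a : Uni A) : Uni A⁻¹ := fun i => by
  simpa [a i] using hA.inv_diag i

lemma Uni.inv_lo {A : SL n K} (hA : Lo A) (a : Uni A) : Uni A⁻¹ := fun i => by
  simpa [a i] using hA.inv_diag i

lemma eq_one_of_up_lo {A : SL n K} (h : Up A) (h' : Lo A) (a : Uni A) : A = 1 := by
  refine Matrix.SpecialLinearGroup.ext _ _ fun i j => ?_
  rw [one_val]
  rcases lt_trichotomy i j with e | rfl | e
  · rw [h' _ _ e, one_apply_ne e.ne]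
  · rw [a, one_apply_eq]
  · rw [h _ _ e, one_apply_ne e.ne']

/-! ### Extending by a first row and column -/

/-- `diag(1, A)`. -/
def extM (A : Matrix (Fin n) (Fin n) K) : Matrix (Fin (n + 1)) (Fin (n + 1)) K :=
  Matrix.of (Fin.cons (Pi.single 0 1) fun i => Fin.cons 0 (A i))

@[simp] lemma extM_zero_zero (A : Matrix (Fin n) (Fin n) K) : extM A 0 0 = 1 := by simp [extM]

@[simp] lemma extM_zero_succ (A : Matrix (Fin n) (Fin n) K) (j : Fin n) : extM A 0 j.succ = 0 := by
  simp [extM]

@[simp] lemma extM_succ_zero (A : Matrix (Fin n) (Fin n) K) (i : Fin n) : extM A i.succ 0 = 0 := by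
  simp [extM]

@[simp] lemma extM_succ_succ (A : Matrix (Fin n) (Fin n) K) (i j : Fin n) :
    extM A i.succ j.succ = A i j := by simp [extM]

lemma det_extM (A : Matrix (Fin n) (Fin n) K) : (extM A).det = A.det := by
  rw [det_succ_column_zero, Fin.sum_univ_succ]
  simp only [Fin.val_zero, pow_zero, one_mul, extM_zero_zero, extM_succ_zero, mul_zero, zero_mul,
    Finset.sum_const_zero, add_zero]
  congr 1

lemma extM_mul (A B : Matrix (Fin n) (Fin n) K) : extM (A * B) = extM A * extM B := by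
  ext i j
  rw [Matrix.mul_apply, Fin.sum_univ_succ]
  refine Fin.cases ?_ (fun i => ?_) i <;> refine Fin.cases ?_ (fun j => ?_) j <;>
    simp [Matrix.mul_apply]

/-- `diag(1, A)` in `SL`. -/
def ext1 : SL n K →* SL (n + 1) K where
  toFun A := ⟨extM A.1, by rw [det_extM]; exact A.2⟩
  map_one' := Subtype.ext <| by
    show extM (1 : SL n K).1 = (1 : SL (n + 1) K).1
    rw [one_val, one_val]
    ext i j
    refine Fin.cases ?_ (fun i => ?_) i <;> refine Fin.cases ?_ (fun j => ?_) j <;>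
      simp [Matrix.one_apply, Fin.succ_inj, Fin.succ_ne_zero, eq_comm]
  map_mul' A B := Subtype.ext <| by
    show extM (A * B).1 = _
    rw [mul_val, extM_mul]; rfl

lemma ext1_val (A : SL n K) : (ext1 A).1 = extM A.1 := rfl

lemma Up.ext1 {A : SL n K} (hA : Up A) : Up (ext1 A) := by
  intro i j
  rw [ext1_val]
  refine Fin.cases ?_ (fun i => ?_) i <;> refine Fin.cases ?_ (fun j => ?_) j <;> intro h
  · exact absurd h (lt_irrefl _)
  · exact absurd h (by simp)
  · simp
  · simpa using hA _ _ (Fin.succ_lt_succ_iff.1 h)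

lemma Lo.ext1 {A : SL n K} (hA : Lo A) : Lo (ext1 A) := by
  intro i j
  rw [ext1_val]
  refine Fin.cases ?_ (fun i => ?_) i <;> refine Fin.cases ?_ (fun j => ?_) j <;> intro h
  · exact absurd h (lt_irrefl _)
  · simp
  · exact absurd h (by simp)
  · simpa using hA _ _ (Fin.succ_lt_succ_iff.1 h)

lemma Uni.ext1 {A : SL n K} (hA : Uni A) : Uni (ext1 A) := by
  intro i
  rw [ext1_val]
  refine Fin.cases ?_ (fun i => ?_) i
  · simp
  · simpa using hA i

/-! ### The Weyl element -/

/-- The cycle `e_i ↦ e_{i+1}` with a sign, as a matrix. -/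
def cycM (n : ℕ) : Matrix (Fin (n + 1)) (Fin (n + 1)) K :=
  Matrix.of (Fin.cons (Pi.single (Fin.last n) ((-1) ^ n)) fun i => Pi.single i.castSucc 1)

lemma det_cycM (n : ℕ) : (cycM (K := K) n).det = 1 := by
  rw [det_succ_row_zero, Finset.sum_eq_single (Fin.last n)]
  · have : (cycM (K := K) n).submatrix Fin.succ (Fin.last n).succAbove = 1 := by
      ext i j
      simp [cycM, Matrix.submatrix, Fin.succAbove_last, Matrix.one_apply, Pi.single_apply,
        eq_comm]
    rw [this, det_one, mul_one]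
    simp [cycM, ← mul_pow]
  · intro j _ hj
    simp [cycM, Pi.single_eq_of_ne hj]
  · simp

/-- The cycle in `SL`. -/
def cyc (n : ℕ) : SL (n + 1) K := ⟨cycM n, det_cycM n⟩

/-- The longest element. -/
def wl : (n : ℕ) → SL n K
  | 0 => 1
  | n + 1 => ext1 (wl n) * cyc n

lemma wl_succ (n : ℕ) : wl (K := K) (n + 1) = ext1 (wl n) * cyc n := rfl

lemma mul_cyc_apply (A : SL (n + 1) K) (i j : Fin (n + 1)) :
    (A * cyc n).1 i j = Fin.lastCases (A.1 i 0 * (-1) ^ n) (fun k => A.1 i k.succ) j := by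
  rw [mul_val, Matrix.mul_apply, Fin.sum_univ_succ]
  refine Fin.lastCases ?_ (fun k => ?_) j
  · simp [cyc, cycM, Fin.castSucc_ne_last]
  · simp [cyc, cycM, Pi.single_apply, Fin.castSucc_ne_last]

lemma wl_supp : ∀ (n : ℕ) (i j : Fin n), (i : ℕ) + j + 1 ≠ n → (wl (K := K) n).1 i j = 0
  | 0, i, _, _ => i.elim0
  | n + 1, i, j, h => by
    rw [wl_succ, mul_cyc_apply, ext1_val]
    revert h
    refine Fin.lastCases ?_ (fun k => ?_) j <;> refine Fin.cases ?_ (fun i => ?_) i <;> intro h
    · exact absurd (by simp) h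
    · simp
    · simp
    · simp only [Fin.lastCases_castSucc, extM_succ_succ]
      exact wl_supp n i k (fun e => h (by simp [Fin.val_succ] at *; omega))

lemma wl_rev_ne (n : ℕ) [Nontrivial K] (i : Fin n) : (wl (K := K) n).1 i i.rev ≠ 0 := by
  intro h
  have h1 := congrFun (congrFun (congrArg Subtype.val (mul_inv_cancel (wl (K := K) n))) i) i
  rw [mul_val, one_val, one_apply_eq, Matrix.mul_apply, Finset.sum_eq_single i.rev] at h1
  · rw [h, zero_mul] at h1; exact zero_ne_one h1
  · intro k _ hk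
    rw [wl_supp n i k fun e => hk (Fin.ext (by rw [Fin.val_rev]; omega)), zero_mul]
  · simp

lemma wl_mul_apply (A : Matrix (Fin n) (Fin n) K) (i j : Fin n) :
    ((wl (K := K) n).1 * A) i j = (wl (K := K) n).1 i i.rev * A i.rev j := by
  rw [Matrix.mul_apply]
  refine Finset.sum_eq_single i.rev (fun k _ hk => ?_) (by simp)
  rw [wl_supp n i k fun e => hk (Fin.ext (by rw [Fin.val_rev]; omega)), zero_mul]

lemma mul_wl_apply (A : Matrix (Fin n) (Fin n) K) (i j : Fin n) :
    (A * (wl (K := K) n).1) i j = A i j.rev * (wl (K := K) n).1 j.rev j := by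
  rw [Matrix.mul_apply]
  refine Finset.sum_eq_single j.rev (fun k _ hk => ?_) (by simp)
  rw [wl_supp n k j fun e => hk (Fin.ext (by rw [Fin.val_rev]; omega)), mul_zero]

lemma wl_unit (n : ℕ) (i : Fin n) : IsUnit ((wl (K := K) n).1 i i.rev) := by
  have h1 := congrFun (congrFun (congrArg Subtype.val (mul_inv_cancel (wl (K := K) n))) i) i
  rw [mul_val, one_val, one_apply_eq, wl_mul_apply] at h1
  exact IsUnit.of_mul_eq_one _ h1

/-- Conjugation by the longest element. -/
def cw (A : SL n K) : SL n K := wl n * A * (wl n)⁻¹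

/-- Conjugation by the inverse of the longest element. -/
def cw' (A : SL n K) : SL n K := (wl n)⁻¹ * A * wl n

lemma cw_mul (A B : SL n K) : cw (A * B) = cw A * cw B := by simp only [cw]; group

lemma cw'_mul (A B : SL n K) : cw' (A * B) = cw' A * cw' B := by simp only [cw']; group

lemma cw_cw' (A : SL n K) : cw (cw' A) = A := by simp only [cw, cw']; group

lemma cw'_cw (A : SL n K) : cw' (cw A) = A := by simp only [cw, cw']; group

lemma cw_entry (A : SL n K) (i j : Fin n) :
    (cw A).1 i j * (wl (K := K) n).1 j j.rev =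
      (wl (K := K) n).1 i i.rev * A.1 i.rev j.rev := by
  have h : ((cw A * wl n).1) i j.rev = ((wl n * A).1) i j.rev := by
    rw [show cw A * wl n = wl n * A by simp only [cw]; group]
  rw [mul_val, mul_val, mul_wl_apply, wl_mul_apply, Fin.rev_rev] at h
  exact h

lemma cw_zero {A : SL n K} {i j : Fin n} (h : A.1 i.rev j.rev = 0) : (cw A).1 i j = 0 := by
  have := cw_entry A i j
  rw [h, mul_zero] at this
  exact (wl_unit n j).mul_left_eq_zero.1 this

lemma cw_diag (A : SL n K) (i : Fin n) : (cw A).1 i i = A.1 i.rev i.rev := by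
  have := cw_entry A i i
  rw [mul_comm] at this
  exact (wl_unit n i).mul_left_cancel this

lemma cw'_zero {A : SL n K} {i j : Fin n} (h : A.1 i.rev j.rev = 0) : (cw' A).1 i j = 0 := by
  have := cw_entry (cw' A) i.rev j.rev
  rw [cw_cw', Fin.rev_rev, Fin.rev_rev, h, zero_mul] at this
  exact (Fin.rev_rev i ▸ wl_unit (K := K) n i.rev).mul_right_eq_zero.1 this.symm

lemma cw'_diag (A : SL n K) (i : Fin n) : (cw' A).1 i i = A.1 i.rev i.rev := by
  conv_rhs => rw [← cw_cw' A, cw_diag, Fin.rev_rev]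

lemma Up.cw {A : SL n K} (hA : Up A) : Lo (cw A) :=
  fun i j h => cw_zero (hA _ _ (Fin.rev_lt_rev.2 h))

lemma Lo.cw {A : SL n K} (hA : Lo A) : Up (cw A) :=
  fun i j h => cw_zero (hA _ _ (Fin.rev_lt_rev.2 h))

lemma Up.cw' {A : SL n K} (hA : Up A) : Lo (cw' A) :=
  fun i j h => cw'_zero (hA _ _ (Fin.rev_lt_rev.2 h))

lemma Lo.cw' {A : SL n K} (hA : Lo A) : Up (cw' A) :=
  fun i j h => cw'_zero (hA _ _ (Fin.rev_lt_rev.2 h))

lemma Uni.cw {A : SL n K} (hA : Uni A) : Uni (cw A) := fun i => by rw [cw_diag, hA]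

lemma Uni.cw' {A : SL n K} (hA : Uni A) : Uni (cw' A) := fun i => by rw [cw'_diag, hA]

/-- The factors of `b * wl * β` are unique. -/
lemma cell_unique {b b' β β' : SL n K} (hb : Up b) (hb1 : Uni b) (hb' : Up b') (hb1' : Uni b')
    (hβ : Up β) (hβ' : Up β') (h : b * wl n * β = b' * wl n * β') : b = b' ∧ β = β' := by
  have e : cw' (b'⁻¹ * b) = β' * β⁻¹ := by
    have : β' = (wl n)⁻¹ * b'⁻¹ * (b * wl n * β) := by rw [h]; group
    rw [this]; simp only [Frames.cw']; group
  have h1 : Lo (β' * β⁻¹) := e ▸ (hb'.inv.mul hb).cw'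
  have h2 : Uni (β' * β⁻¹) := e ▸ (Uni.mul_up hb'.inv hb (hb1'.inv_up hb') hb1).cw'
  have h3 : β' * β⁻¹ = 1 := eq_one_of_up_lo (hβ'.mul hβ.inv) h1 h2
  have h4 : β' = β := by rwa [mul_inv_eq_one] at h3
  subst h4
  exact ⟨mul_right_cancel (mul_right_cancel h), rfl⟩

/-! ### Bidiagonal matrices and the chart -/

/-- Ones on the diagonal, `x` below it. -/
def bidM (x : Fin n → Kˣ) : Matrix (Fin (n + 1)) (Fin (n + 1)) K :=
  1 + Matrix.of (Fin.cons 0 fun i => Pi.single i.castSucc (x i : K))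

lemma bidM_upper {x : Fin n → Kˣ} {i j : Fin (n + 1)} (h : i < j) : bidM x i j = 0 := by
  rw [bidM, Matrix.add_apply, one_apply_ne h.ne, zero_add, Matrix.of_apply]
  revert h
  refine Fin.cases ?_ (fun i => ?_) i <;> intro h
  · rfl
  · rw [Fin.cons_succ, Pi.single_eq_of_ne]
    rintro rfl
    simp [Fin.lt_def] at h

lemma bidM_diag (x : Fin n → Kˣ) (i : Fin (n + 1)) : bidM x i i = 1 := by
  rw [bidM, Matrix.add_apply, one_apply_eq, Matrix.of_apply]
  refine Fin.cases ?_ (fun i => ?_) i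
  · simp
  · rw [Fin.cons_succ, Pi.single_eq_of_ne (by intro e; simp [Fin.ext_iff] at e), add_zero]

/-- The bidiagonal element. -/
def bid (x : Fin n → Kˣ) : SL (n + 1) K :=
  ⟨bidM x, by
    rw [det_of_isLowerTriangular]
    · exact Finset.prod_eq_one fun i _ => bidM_diag x i
    · intro i j h; exact bidM_upper h⟩

lemma bid_succ_apply (x : Fin n → Kˣ) (i : Fin n) (j : Fin (n + 1)) :
    (bid x).1 i.succ j = (if i.succ = j then 1 else 0) + (Pi.single i.castSucc (x i : K) :
      Fin (n + 1) → K) j := by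
  simp [bid, bidM, Matrix.one_apply]

/-- The chart: `V(x) = diag(1, V(x')) * bid(x₀)`. -/
def Vmat : (n : ℕ) → (Fin n → Fin n → Kˣ) → SL (n + 1) K
  | 0, _ => 1
  | n + 1, x => ext1 (Vmat n fun i j => x i.succ j.succ) * bid (x 0)

/-- The diagonal of the right factor of `V(x)`. -/
def dia : (n : ℕ) → (Fin n → Fin n → Kˣ) → Fin n → Kˣ
  | 0, _ => fun i => i.elim0
  | n + 1, x => fun i =>
      Fin.lastCases (∏ k : Fin n, dia n (fun i j => x i.succ j.succ) k)⁻¹
        (dia n fun i j => x i.succ j.succ) i * x 0 i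

lemma Vmat_lo : ∀ (n : ℕ) (x : Fin n → Fin n → Kˣ), Lo (Vmat n x) ∧ Uni (Vmat n x)
  | 0, _ => ⟨Lo.one, Uni.one⟩
  | n + 1, x => by
    have h := Vmat_lo n fun i j => x i.succ j.succ
    have hb : Lo (bid (x 0)) := fun _ _ hij => bidM_upper hij
    exact ⟨h.1.ext1.mul hb, Uni.mul_lo h.1.ext1 hb h.2.ext1 (bidM_diag _)⟩

/-- `1 + e₀ z` as an element of `SL`, for `z 0 = 0`. -/
def rowU (z : Fin n → K) : SL (n + 1) K :=
  ⟨Matrix.of (Fin.cons (Fin.cons 1 z) fun i => Pi.single i.succ 1), by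
    rw [det_of_isUpperTriangular]
    · refine Finset.prod_eq_one fun i _ => ?_
      refine Fin.cases ?_ (fun i => ?_) i <;> simp
    · intro i j h
      revert h
      refine Fin.cases ?_ (fun i => ?_) i <;> intro h
      · exact absurd h (by simp)
      · rw [Matrix.of_apply, Fin.cons_succ, Pi.single_eq_of_ne]
        exact fun e => absurd h (by simp [e])⟩

lemma rowU_up (z : Fin n → K) : Up (rowU z) := by
  intro i j
  refine Fin.cases ?_ (fun i => ?_) i <;> intro h
  · exact absurd h (by simp)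
  · simp only [rowU, Matrix.of_apply, Fin.cons_succ]
    exact Pi.single_eq_of_ne (fun e => absurd h (by simp [e])) _

lemma rowU_uni (z : Fin n → K) : Uni (rowU z) := by
  intro i
  refine Fin.cases ?_ (fun i => ?_) i <;> simp [rowU]

lemma ext1_rowU (A : SL n K) (z : Fin n → K) :
    ext1 A * rowU z * (ext1 A)⁻¹ = rowU (z ᵥ* (A⁻¹).1) := by
  rw [mul_inv_eq_iff_eq_mul]
  refine Matrix.SpecialLinearGroup.ext _ _ fun i j => ?_
  rw [mul_val, mul_val, Matrix.mul_apply, Matrix.mul_apply, Fin.sum_univ_succ, Fin.sum_univ_succ]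
  refine Fin.cases ?_ (fun i => ?_) i <;> refine Fin.cases ?_ (fun j => ?_) j
  · simp [rowU, ext1_val]
  · simp only [rowU, ext1_val, Matrix.of_apply, Fin.cons_zero, Fin.cons_succ, extM_zero_zero,
      extM_zero_succ, extM_succ_succ, mul_zero, zero_mul, Finset.sum_const_zero, zero_add,
      add_zero, one_mul]
    show z j = ((z ᵥ* (A⁻¹).1) ᵥ* A.1) j
    rw [vecMul_vecMul, ← mul_val, inv_mul_cancel, one_val, vecMul_one]
  · simp [rowU, ext1_val]
  · simp [rowU, ext1_val, Pi.single_apply]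

/-- One step of the recursion for the two factors of the chart. -/
lemma chart_step {b' β' : SL (n + 1) K} (hβ' : Up β') (y : Fin (n + 1) → Kˣ) :
    ∃ (u : Fin (n + 1) → K) (N : SL (n + 2) K), Up N ∧
      (∀ (i : Fin (n + 1)) j, N.1 i.castSucc j = (ext1 β' * bid y).1 i.succ j) ∧
      (∀ i : Fin (n + 1), N.1 i.castSucc i.castSucc = β'.1 i i * y i) ∧
      (∀ j : Fin (n + 1), ∑ i, (u ᵥ* (wl (K := K) (n + 1)).1) i *
        (ext1 β' * bid y).1 i.succ j.castSucc = (Pi.single 0 1 : Fin (n + 1) → K) j) ∧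
      ext1 (b' * wl (n + 1) * β') * bid y = ext1 b' * rowU u * wl (n + 2) * N := by
  have hd : ∀ i, IsUnit (β'.1 i i) := fun i => IsUnit.of_mul_eq_one _ (hβ'.inv_diag i)
  let G : SL (n + 2) K := ext1 β' * bid y
  have hG0 : ∀ j, G.1 0 j = (Pi.single 0 1 : Fin (n + 2) → K) j := by
    intro j
    show (ext1 β' * bid y).1 0 j = _
    rw [mul_val, Matrix.mul_apply, Fin.sum_univ_succ]
    refine Fin.cases ?_ (fun j => ?_) j <;>
      simp [ext1_val, bid, bidM, Matrix.one_apply, Fin.succ_ne_zero, eq_comm]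
  have hGs : ∀ (i : Fin (n + 1)) (j : Fin (n + 2)), G.1 i.succ j =
      (if h : j = 0 then 0 else β'.1 i (j.pred h)) +
        (Fin.lastCases (motive := fun _ => K) 0 (fun k => β'.1 i k * y k) j) := by
    intro i j
    show (ext1 β' * bid y).1 i.succ j = _
    rw [mul_val, Matrix.mul_apply, Fin.sum_univ_succ]
    simp only [ext1_val, extM_succ_zero, zero_mul, zero_add, extM_succ_succ, bid_succ_apply,
      mul_add, Finset.sum_add_distrib]
    congr 1
    · refine Fin.cases ?_ (fun j => ?_) j <;> simp [Fin.succ_ne_zero]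
    · refine Fin.lastCases ?_ (fun k => ?_) j
      · simp [Fin.castSucc_ne_last]
      · simp [Pi.single_apply]
  let T : Matrix (Fin (n + 1)) (Fin (n + 1)) K :=
    Matrix.of fun i j => G.1 i.succ j.castSucc
  have hT : ∀ i j : Fin (n + 1), j ≤ i → T i j = if j = i then β'.1 i i * y i else 0 := by
    intro i j hji
    show G.1 i.succ j.castSucc = _
    rw [hGs, Fin.lastCases_castSucc]
    have h1 : (if h : j.castSucc = 0 then 0 else β'.1 i (j.castSucc.pred h)) = 0 := by
      split_ifs with h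
      · rfl
      · refine hβ' _ _ (Fin.lt_def.2 ?_)
        have : (j : ℕ) ≠ 0 := fun e => h (Fin.ext e)
        rw [Fin.val_pred]
        simp only [Fin.val_castSucc]
        rw [Fin.le_def] at hji
        omega
    rw [h1, zero_add]
    split_ifs with e
    · rw [e]
    · rw [hβ' _ _ (lt_of_le_of_ne hji e), zero_mul]
  have hTu : IsUnit T.det := by
    rw [det_of_isUpperTriangular (fun i j h => by
      have hji : j < i := h
      rw [hT i j hji.le, if_neg hji.ne])]
    rw [IsUnit.prod_univ_iff]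
    intro i
    rw [hT i i le_rfl, if_pos rfl]
    exact (hd i).mul (Units.isUnit _)
  let z : Fin (n + 1) → K := (-Pi.single 0 1) ᵥ* T⁻¹
  let M : SL (n + 2) K := rowU z * G
  have hM0 : ∀ j : Fin (n + 1), M.1 0 j.castSucc = 0 := by
    intro j
    show (rowU z * G).1 0 j.castSucc = 0
    rw [mul_val, Matrix.mul_apply, Fin.sum_univ_succ]
    simp only [rowU, Matrix.of_apply, Fin.cons_zero, Fin.cons_succ, one_mul, hG0]
    have : (z ᵥ* T) j = ∑ i, z i * G.1 i.succ j.castSucc := rfl
    rw [← this]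
    simp only [z, vecMul_vecMul, nonsing_inv_mul T hTu, vecMul_one]
    rcases eq_or_ne j 0 with rfl | hj
    · simp
    · simp [Pi.single_eq_of_ne hj, Pi.single_eq_of_ne (fun e => hj (Fin.castSucc_eq_zero_iff.1 e))]
  have hMs : ∀ (i : Fin (n + 1)) j, M.1 i.succ j = G.1 i.succ j := by
    intro i j
    show (rowU z * G).1 i.succ j = _
    rw [mul_val, Matrix.mul_apply]
    simp [rowU, Pi.single_apply]
  let N : SL (n + 2) K := (cyc (n + 1))⁻¹ * M
  have hN : ∀ i j, (cyc (n + 1) * N).1 i j = M.1 i j := fun i j => by simp [N]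
  have hNs : ∀ (i : Fin (n + 1)) j, N.1 i.castSucc j = G.1 i.succ j := by
    intro i j
    have h := hN i.succ j
    rw [hMs, mul_val, Matrix.mul_apply] at h
    rw [← h]
    simp [cyc, cycM, Pi.single_apply, -Matrix.SpecialLinearGroup.coe_mul]
  have hNl : ∀ j, (-1) ^ (n + 1) * N.1 (Fin.last _) j = M.1 0 j := by
    intro j
    have h := hN 0 j
    rw [mul_val, Matrix.mul_apply] at h
    rw [← h]
    simp [cyc, cycM, Pi.single_apply, -Matrix.SpecialLinearGroup.coe_mul]
  refine ⟨(-z) ᵥ* ((wl (n + 1))⁻¹).1, N, ?_, hNs, ?_, ?_, ?_⟩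
  · intro i j
    refine Fin.lastCases ?_ (fun i => ?_) i <;> intro h
    · have := hNl j
      obtain ⟨k, rfl⟩ := Fin.exists_castSucc_eq.2 h.ne
      rw [hM0 k] at this
      have hu : IsUnit ((-1 : K) ^ (n + 1)) := (isUnit_one.neg).pow _
      exact hu.mul_right_eq_zero.1 this
    · rw [hNs]
      obtain ⟨k, rfl⟩ := Fin.exists_castSucc_eq.2 (ne_of_lt (lt_of_lt_of_le h (Fin.le_last _)))
      have hk : k < i := Fin.castSucc_lt_castSucc_iff.1 h
      have := hT i k hk.le
      rw [if_neg hk.ne] at this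
      exact this
  · intro i
    rw [hNs]
    have := hT i i le_rfl
    rw [if_pos rfl] at this
    exact this
  · intro j
    rw [vecMul_vecMul, ← mul_val, inv_mul_cancel, one_val, vecMul_one]
    show ((-z) ᵥ* T) j = _
    simp only [z, neg_vecMul, vecMul_vecMul, nonsing_inv_mul T hTu, vecMul_one,
      neg_neg]
  · have hz : rowU (-z) * rowU z = 1 := by
      refine Matrix.SpecialLinearGroup.ext _ _ fun i j => ?_
      rw [mul_val, one_val, Matrix.mul_apply, Fin.sum_univ_succ]
      refine Fin.cases ?_ (fun i => ?_) i <;> refine Fin.cases ?_ (fun j => ?_) j <;>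
        simp [rowU, Pi.single_apply, Matrix.one_apply, Fin.succ_ne_zero, Fin.succ_inj, eq_comm]
    rw [← ext1_rowU, wl_succ (n + 1)]
    rw [map_mul, map_mul]
    calc ext1 b' * ext1 (wl (n + 1)) * ext1 β' * bid y
        = ext1 b' * ext1 (wl (n + 1)) * G := by simp only [G, mul_assoc]
      _ = ext1 b' * ext1 (wl (n + 1)) * (rowU (-z) * rowU z) * G := by rw [hz, mul_one]
      _ = _ := by simp only [N, M]; group

lemma chart_exists : ∀ (n : ℕ) (x : Fin n → Fin n → Kˣ), ∃ b β : SL (n + 1) K,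
    Up b ∧ Uni b ∧ Up β ∧ (∀ i : Fin n, β.1 i.castSucc i.castSucc = dia n x i) ∧
      Vmat n x = b * wl (n + 1) * β
  | 0, x => by
    refine ⟨1, (wl 1)⁻¹, Up.one, Uni.one, ?_, fun i => i.elim0, by simp [Vmat]⟩
    intro i j h
    exact absurd h (by simp [Fin.eq_zero i, Fin.eq_zero j])
  | n + 1, x => by
    obtain ⟨b', β', hb', hb1', hβ', hd', hV'⟩ := chart_exists n fun i j => x i.succ j.succ
    -- every diagonal entry of `β'`
    have hd : ∀ i : Fin (n + 1), β'.1 i i =
        ((Fin.lastCases (∏ k : Fin n, dia n (fun i j => x i.succ j.succ) k)⁻¹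
          (dia n fun i j => x i.succ j.succ) i : Kˣ) : K) := by
      intro i
      refine Fin.lastCases ?_ (fun k => ?_) i
      · have hdet : β'.1.det = 1 := β'.2
        rw [det_of_isUpperTriangular (fun a b h => hβ' a b h), Fin.prod_univ_castSucc] at hdet
        simp only [hd', ← Units.coe_prod] at hdet
        rw [Fin.lastCases_last]
        rw [mul_comm] at hdet
        exact eq_comm.1 (Units.inv_eq_of_mul_eq_one_left hdet)
      · rw [Fin.lastCases_castSucc, hd']
    obtain ⟨u, N, hN, -, hNd, -, hNe⟩ := chart_step (b' := b') hβ' (x 0)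
    refine ⟨ext1 b' * rowU u, N, hb'.ext1.mul (rowU_up _),
      Uni.mul_up hb'.ext1 (rowU_up _) hb1'.ext1 (rowU_uni _), hN, fun i => ?_, ?_⟩
    · rw [hNd, hd]
      simp [dia]
    · show ext1 (Vmat n _) * bid (x 0) = _
      rw [hV', hNe]

end Vale.Agent.P002.Frames
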