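import Vale.Agent.P002.Frames.Blocks

/-! Chains of blocks glued by joints, and the closing condition. -/

open Matrix Finset

namespace Vale.Agent.P002.Frames

variable {n : ℕ} {K L : Type*} [CommRing K] [CommRing L] (f : K →+* L)

/-- The cell of the first `k + 1` blocks and the conjugator of block `k`. -/
noncomputable def st (PB ZB : ℕ → SL (n + 1) K) (q0 : SL (n + 1) K) (J : ℕ → Jt n K) :
    ℕ → SL (n + 1) K × SL (n + 1) K × SL (n + 1) K
  | 0 => (q0 * PB 0, ZB 0 * q0⁻¹, q0)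
  | k + 1 =>
    ((st PB ZB q0 J k).1 * cw (diOf (J k).1) * bOf (J k).2,
      betaOf (J k).2 * om *
        (ZB (k + 1) * ((st PB ZB q0 J k).2.1⁻¹ * jm (J k) * (PB (k + 1))⁻¹)⁻¹),
      (st PB ZB q0 J k).2.1⁻¹ * jm (J k) * (PB (k + 1))⁻¹)

variable (PB ZB : ℕ → SL (n + 1) K) (q0 : SL (n + 1) K) (J : ℕ → Jt n K)

/-- The element of block `k`. -/
noncomputable def elt (k : ℕ) : SL (n + 1) K :=
  (st PB ZB q0 J k).2.2 * (PB k * wl (n + 1) * ZB k) * ((st PB ZB q0 J k).2.2)⁻¹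

/-- Conjugator of the closing block. -/
noncomputable def qL (k : ℕ) (t : Fin n → Kˣ) : SL (n + 1) K :=
  (st PB ZB q0 J k).2.1⁻¹ * diOf t * (PB (k + 1))⁻¹

/-- The total product, upper triangular. -/
noncomputable def RL (k : ℕ) (t : Fin n → Kˣ) : SL (n + 1) K :=
  (st PB ZB q0 J k).1 * cw (diOf t) * om * (ZB (k + 1) * (qL PB ZB q0 J k t)⁻¹)

/-- The closing element. -/
noncomputable def eltL (k : ℕ) (t : Fin n → Kˣ) : SL (n + 1) K :=
  qL PB ZB q0 J k t * (PB (k + 1) * wl (n + 1) * ZB (k + 1)) * (qL PB ZB q0 J k t)⁻¹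

lemma prod_elt : ∀ k, ((List.range (k + 1)).map (elt PB ZB q0 J)).prod =
    (st PB ZB q0 J k).1 * wl (n + 1) * (st PB ZB q0 J k).2.1
  | 0 => by
    simp only [List.range_succ, List.range_zero, List.nil_append, List.map_cons, List.map_nil,
      List.prod_cons, List.prod_nil, mul_one, elt, st]
    group
  | k + 1 => by
    rw [List.range_succ, List.map_append, List.prod_append, prod_elt k]
    simp only [List.map_cons, List.map_nil, List.prod_cons, List.prod_nil, mul_one]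
    set s := st PB ZB q0 J k with hs
    have hq : (st PB ZB q0 J (k + 1)).2.2 = s.2.1⁻¹ * jm (J k) * (PB (k + 1))⁻¹ := rfl
    have e : s.2.1 * ((st PB ZB q0 J (k + 1)).2.2 * PB (k + 1)) = jm (J k) := by rw [hq]; group
    calc s.1 * wl (n + 1) * s.2.1 * elt PB ZB q0 J (k + 1)
        = s.1 * wl (n + 1) * s.2.1 * ((st PB ZB q0 J (k + 1)).2.2 * PB (k + 1) * wl (n + 1) *
            (ZB (k + 1) * ((st PB ZB q0 J (k + 1)).2.2)⁻¹)) := by simp only [elt, mul_assoc]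
      _ = _ := glue e

lemma prod_closed (k : ℕ) (t : Fin n → Kˣ) :
    ((List.range (k + 1)).map (elt PB ZB q0 J)).prod * eltL PB ZB q0 J k t =
      RL PB ZB q0 J k t := by
  rw [prod_elt]
  simp only [eltL, RL, qL, cw, om]
  group

variable {PB ZB q0}

lemma st_up (hPB : ∀ k, Up (PB k)) (hZB : ∀ k, Up (ZB k)) (hq : Up q0) : ∀ k,
    Up (st PB ZB q0 J k).1 ∧ Up (st PB ZB q0 J k).2.1 ∧ Up (st PB ZB q0 J k).2.2
  | 0 => ⟨hq.mul (hPB 0), (hZB 0).mul hq.inv, hq⟩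
  | k + 1 => by
    obtain ⟨h1, h2, -⟩ := st_up hPB hZB hq k
    have h := (h2.inv.mul (jm_up (J k))).mul (hPB (k + 1)).inv
    exact ⟨(h1.mul (diOf_lo _).cw).mul (bOf_up _),
      ((betaOf_up _).mul om_up).mul ((hZB _).mul h.inv), h⟩

lemma RL_up (hPB : ∀ k, Up (PB k)) (hZB : ∀ k, Up (ZB k)) (hq : Up q0) (k : ℕ)
    (t : Fin n → Kˣ) : Up (RL PB ZB q0 J k t) := by
  obtain ⟨h1, h2, -⟩ := st_up J hPB hZB hq k
  exact ((h1.mul (diOf_lo _).cw).mul om_up).mul
    ((hZB _).mul ((h2.inv.mul (diOf_up t)).mul (hPB _).inv).inv)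

/-- The contribution of a joint to the diagonal of the product. -/
noncomputable def jc (X : Jt n K) (i : Fin (n + 1)) : K :=
  dg (cw (diOf X.1)) i * dg (betaOf X.2) i * dg om i * dg (diOf X.1)⁻¹ i

/-- The contribution of the closing joint. -/
def lc (t : Fin n → Kˣ) (i : Fin (n + 1)) : K :=
  dg (cw (diOf t)) i * dg om i * dg (diOf t)⁻¹ i

/-- The contribution of a block. -/
def bc (PB ZB : ℕ → SL (n + 1) K) (j : ℕ) (i : Fin (n + 1)) : K := dg (PB j) i * dg (ZB j) i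

lemma dg_jm_inv (X : Jt n K) (i : Fin (n + 1)) : dg (jm X)⁻¹ i = dg (diOf X.1)⁻¹ i := by
  have h1 := dg_inv_mul (jm_up X) i
  have h2 := dg_inv_mul (diOf_up X.1) i
  have e : dg (jm X) i = dg (diOf X.1) i := jm_diag X i
  rw [e] at h1
  calc dg (jm X)⁻¹ i = dg (diOf X.1) i * dg (diOf X.1)⁻¹ i * dg (jm X)⁻¹ i := by rw [h2, one_mul]
    _ = dg (diOf X.1)⁻¹ i * (dg (diOf X.1) i * dg (jm X)⁻¹ i) := by ring
    _ = _ := by rw [h1, mul_one]

lemma st_diag (hPB : ∀ k, Up (PB k)) (hZB : ∀ k, Up (ZB k)) (hq : Up q0) (i : Fin (n + 1)) : ∀ k,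
    dg (st PB ZB q0 J k).1 i * dg (st PB ZB q0 J k).2.1 i =
      (∏ j ∈ range (k + 1), bc PB ZB j i) * ∏ j ∈ range k, jc (J j) i
  | 0 => by
    simp only [st, zero_add, prod_range_one, range_zero, prod_empty, mul_one, bc]
    rw [dg_mul hq (hPB 0), dg_mul (hZB 0) hq.inv]
    linear_combination (dg (PB 0) i * dg (ZB 0) i) * dg_inv_mul hq i
  | k + 1 => by
    obtain ⟨h1, h2, -⟩ := st_up J hPB hZB hq k
    have hk := st_diag hPB hZB hq i k
    simp only [st]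
    rw [_root_.mul_inv_rev, _root_.mul_inv_rev, inv_inv, inv_inv,
      dg_mul (h1.mul (diOf_lo _).cw) (bOf_up _), dg_mul h1 (diOf_lo _).cw,
      dg_mul ((betaOf_up _).mul om_up) ((hZB _).mul ((hPB _).mul ((jm_up _).inv.mul h2))),
      dg_mul (betaOf_up _) om_up, dg_mul (hZB _) ((hPB _).mul ((jm_up _).inv.mul h2)),
      dg_mul (hPB _) ((jm_up _).inv.mul h2), dg_mul (jm_up _).inv h2, dg_jm_inv,
      show dg (bOf (J k).2) i = 1 from bOf_uni _ i, prod_range_succ _ (k + 1),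
      prod_range_succ (fun j => jc (J j) i) k]
    simp only [bc, jc] at hk ⊢
    linear_combination (dg (cw (diOf (J k).1)) i * dg (betaOf (J k).2) i * dg om i *
      dg (diOf (J k).1)⁻¹ i * dg (PB (k + 1)) i * dg (ZB (k + 1)) i) * hk

lemma RL_diag (hPB : ∀ k, Up (PB k)) (hZB : ∀ k, Up (ZB k)) (hq : Up q0) (k : ℕ)
    (t : Fin n → Kˣ) (i : Fin (n + 1)) :
    dg (RL PB ZB q0 J k t) i =
      (∏ j ∈ range (k + 2), bc PB ZB j i) * (∏ j ∈ range k, jc (J j) i) * lc t i := by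
  obtain ⟨h1, h2, -⟩ := st_up J hPB hZB hq k
  have hk := st_diag J hPB hZB hq i k
  simp only [RL, qL]
  rw [_root_.mul_inv_rev, _root_.mul_inv_rev, inv_inv, inv_inv,
    dg_mul ((h1.mul (diOf_lo _).cw).mul om_up) ((hZB _).mul ((hPB _).mul ((diOf_up t).inv.mul h2))),
    dg_mul (h1.mul (diOf_lo _).cw) om_up, dg_mul h1 (diOf_lo _).cw,
    dg_mul (hZB _) ((hPB _).mul ((diOf_up t).inv.mul h2)),
    dg_mul (hPB _) ((diOf_up t).inv.mul h2), dg_mul (diOf_up t).inv h2, prod_range_succ _ (k + 1)]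
  simp only [bc, lc] at hk ⊢
  linear_combination (dg (cw (diOf t)) i * dg om i * dg (diOf t)⁻¹ i * dg (PB (k + 1)) i *
    dg (ZB (k + 1)) i) * hk

lemma mp_st : ∀ k, (mp f (st PB ZB q0 J k).1 =
      (st (fun j => mp f (PB j)) (fun j => mp f (ZB j)) (mp f q0) (fun j => mpJ f (J j)) k).1) ∧
    (mp f (st PB ZB q0 J k).2.1 =
      (st (fun j => mp f (PB j)) (fun j => mp f (ZB j)) (mp f q0) (fun j => mpJ f (J j)) k).2.1) ∧
    (mp f (st PB ZB q0 J k).2.2 =
      (st (fun j => mp f (PB j)) (fun j => mp f (ZB j)) (mp f q0) (fun j => mpJ f (J j)) k).2.2)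
  | 0 => by simp only [st, map_mul, map_inv, and_self]
  | k + 1 => by
    obtain ⟨h1, h2, -⟩ := mp_st k
    refine ⟨?_, ?_, ?_⟩
    · simp only [st, map_mul, h1, mp_cw, mp_diOf, (mp_chart f _).1]; rfl
    · simp only [st, map_mul, map_inv, h2, mp_jm, mp_om, (mp_chart f _).2]; rfl
    · simp only [st, map_mul, map_inv, h2, mp_jm]

lemma mp_elt (k : ℕ) : mp f (elt PB ZB q0 J k) =
    elt (fun j => mp f (PB j)) (fun j => mp f (ZB j)) (mp f q0) (fun j => mpJ f (J j)) k := by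
  simp only [elt, map_mul, map_inv, (mp_st f J k).2.2, mp_wl]

lemma mp_qL (k : ℕ) (t : Fin n → Kˣ) : mp f (qL PB ZB q0 J k t) =
    qL (fun j => mp f (PB j)) (fun j => mp f (ZB j)) (mp f q0) (fun j => mpJ f (J j)) k
      (fun i => Units.map (f : K →* L) (t i)) := by
  simp only [qL, map_mul, map_inv, (mp_st f J k).2.1, mp_diOf]

lemma mp_eltL (k : ℕ) (t : Fin n → Kˣ) : mp f (eltL PB ZB q0 J k t) =
    eltL (fun j => mp f (PB j)) (fun j => mp f (ZB j)) (mp f q0) (fun j => mpJ f (J j)) k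
      (fun i => Units.map (f : K →* L) (t i)) := by
  simp only [eltL, map_mul, map_inv, mp_qL, mp_wl]

lemma mp_RL (k : ℕ) (t : Fin n → Kˣ) : mp f (RL PB ZB q0 J k t) =
    RL (fun j => mp f (PB j)) (fun j => mp f (ZB j)) (mp f q0) (fun j => mpJ f (J j)) k
      (fun i => Units.map (f : K →* L) (t i)) := by
  simp only [RL, map_mul, map_inv, (mp_st f J k).1, mp_qL, mp_cw, mp_diOf, mp_om]

end Vale.Agent.P002.Frames
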