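import Vale.Agent.P002.Frames.Near
import Vale.Agent.P002.Frames.Chain

/-! Inverting the chart, the joints and the chains near a base point. -/

open Matrix Filter Topology

namespace Vale.Agent.P002.Frames

variable {n : ℕ}

/-- The diagonal part varies continuously among upper triangular elements. -/
lemma diagPart_near {m : ℕ} {M₀ : SL m ℂ} (h₀ : Up M₀) {E : Set (SL m ℂ)}
    (hE : E ∈ 𝓝 (diagPart h₀)) : ∀ᶠ M in 𝓝 M₀, ∀ h : Up M, diagPart h ∈ E := by
  have h1 := (continuous_diagPart (n := m)).continuousAt.preimage_mem_nhds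
    (x := (⟨M₀, h₀⟩ : {A : SL m ℂ // Up A})) hE
  obtain ⟨W, hW, hWs⟩ := (mem_nhds_subtype _ _ _).1 h1
  exact mem_of_superset hW fun M hM h => hWs (show (⟨M, h⟩ : {A : SL m ℂ // Up A}).1 ∈ W from hM)

lemma diagPart_uni {K : Type*} [CommRing K] {m : ℕ} {A : SL m K} (hA : Up A) (h1 : Uni A) :
    diagPart hA = 1 := by
  refine Matrix.SpecialLinearGroup.ext _ _ fun i j => ?_
  rcases eq_or_ne i j with rfl | h
  · simp [diagPart, h1 i]
  · simp [diagPart, h, Matrix.one_apply_ne h]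

lemma diagPart_jm {K : Type*} [CommRing K] (J : Jt n K) {M : SL (n + 1) K} (hM : Up M)
    (h : jm J = M) : diagPart hM = diOf J.1 := by
  subst h
  refine Matrix.SpecialLinearGroup.ext _ _ fun i j => ?_
  rcases lt_trichotomy i j with h | rfl | h
  · rw [diOf_lo J.1 i j h]
    simp [diagPart, h.ne]
  · simp [diagPart, jm_diag]
  · rw [diOf_up J.1 i j h]
    simp [diagPart, h.ne']

/-- The factors of a chart element vary continuously with it. -/
lemma factors_near (x₀ : XP n ℂ) {V : Set (SL (n + 1) ℂ × SL (n + 1) ℂ)}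
    (hV : V ∈ 𝓝 (bOf x₀, betaOf x₀)) :
    ∀ᶠ M in 𝓝 (Vmat n x₀), ∀ x : XP n ℂ, Vmat n x = M → (bOf x, betaOf x) ∈ V := by
  have h1 := diagPart_uni (bOf_up x₀) (bOf_uni x₀)
  set G : SL (n + 1) ℂ × (SL (n + 1) ℂ × SL (n + 1) ℂ) → SL (n + 1) ℂ × SL (n + 1) ℂ :=
    fun q => (q.2.1 * q.1⁻¹, cw' q.1 * q.2.2)
  have hG : Continuous G :=
    ((continuous_fst.comp continuous_snd).mul continuous_fst.inv).prodMk
      ((continuous_cw'.comp continuous_fst).mul (continuous_snd.comp continuous_snd))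
  have hG0 : G (1, (bOf x₀, betaOf x₀)) = (bOf x₀, betaOf x₀) := by simp [G, cw']
  obtain ⟨E, hE, V', hV', hsub⟩ := mem_nhds_prod_iff.1
    (hG.continuousAt.preimage_mem_nhds (x := (1, (bOf x₀, betaOf x₀))) (by rw [hG0]; exact hV))
  have h2 := diagPart_near (bOf_up x₀) (E := E) (by rw [h1]; exact hE)
  obtain ⟨P', hP', hPsub⟩ := h2.exists_mem
  have hcell := cell_near (bOf_up x₀) (betaOf_up x₀)
    (inter_mem hV' (prod_mem_nhds hP' univ_mem))
  rw [← chart_eq] at hcell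
  filter_upwards [hcell] with M hM x hx
  obtain ⟨P, Z, hP, hZ, hMeq, hPV, hPP⟩ := hM
  set d := diagPart hP with hd
  have h := bOf_unique (x := x) (hP.mul (diagPart_up hP).inv) (diagPart_inv_uni hP)
    ((diagPart_lo hP).cw'.mul hZ) (by
      rw [hx, hMeq]
      simp only [cw']
      group)
  rw [h.1, h.2]
  exact hsub (show (d, (P, Z)) ∈ E ×ˢ V' from ⟨hPsub P hPP.1 hP, hPV⟩)

/-- The bidiagonal element with arbitrary entries below the diagonal. -/
def bidC (y : Fin n → ℂ) : SL (n + 1) ℂ :=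
  ⟨1 + Matrix.of (Fin.cons 0 fun i => Pi.single i.castSucc (y i)), by
    have hz : ∀ i j : Fin (n + 1), i ≤ j →
        (Matrix.of (Fin.cons 0 fun i => Pi.single i.castSucc (y i)) :
          Matrix (Fin (n + 1)) (Fin (n + 1)) ℂ) i j = 0 := by
      intro i j
      refine Fin.cases ?_ (fun i => ?_) i <;> intro h
      · simp
      · rw [Matrix.of_apply, Fin.cons_succ, Pi.single_eq_of_ne]
        rintro rfl
        simp [Fin.le_def] at h
    rw [det_of_isLowerTriangular]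
    · exact Finset.prod_eq_one fun i _ => by rw [Matrix.add_apply, hz i i le_rfl, one_apply_eq,
        add_zero]
    · intro i j h
      have h' : i < j := h
      rw [Matrix.add_apply, hz i j h'.le, one_apply_ne h'.ne, add_zero]⟩

lemma bid_eq_bidC (x : Fin n → ℂˣ) : bid x = bidC fun i => (x i : ℂ) := rfl

lemma bid_lo (x : Fin n → ℂˣ) : Lo (bid x) ∧ Uni (bid x) :=
  ⟨fun _ _ h => bidM_upper h, bidM_diag x⟩

lemma bid_inv_succ (x : Fin n → ℂˣ) (i : Fin n) :
    ((bid x)⁻¹).1 i.succ 0 = -(x i : ℂ) * ((bid x)⁻¹).1 i.castSucc 0 := by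
  have h := congrFun (congrFun (congrArg Subtype.val (mul_inv_cancel (bid x))) i.succ) 0
  rw [mul_val, one_val, Matrix.mul_apply, one_apply_ne (Fin.succ_ne_zero i)] at h
  simp only [bid_succ_apply, add_mul, Finset.sum_add_distrib, ite_mul, one_mul, zero_mul,
    Finset.sum_ite_eq, Finset.mem_univ, if_true] at h
  rw [Finset.sum_eq_single i.castSucc (fun k _ hk => by simp [Pi.single_eq_of_ne hk]) (by simp),
    Pi.single_eq_same] at h
  linear_combination h

lemma bid_inv_zero (x : Fin n → ℂˣ) : ((bid x)⁻¹).1 0 0 = 1 :=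
  (bid_lo x).2.inv_lo (bid_lo x).1 0

lemma bid_inv_ne (x : Fin n → ℂˣ) (i : Fin (n + 1)) : ((bid x)⁻¹).1 i 0 ≠ 0 := by
  induction i using Fin.induction with
  | zero => rw [bid_inv_zero]; exact one_ne_zero
  | succ i ih =>
    rw [bid_inv_succ]
    exact mul_ne_zero (neg_ne_zero.2 (x i).ne_zero) ih

lemma ext1_col_zero (A : SL n ℂ) (B : SL (n + 1) ℂ) (i : Fin (n + 1)) :
    (B * ext1 A).1 i 0 = B.1 i 0 := by
  rw [mul_val, Matrix.mul_apply, Fin.sum_univ_succ]
  simp [ext1_val]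

/-- Lower unitriangular elements near a chart point are chart elements. -/
lemma chart_exists_near : ∀ (n : ℕ) (x₀ : XP n ℂ),
    ∀ᶠ M in 𝓝 (Vmat n x₀), Lo M → Uni M → ∃ x : XP n ℂ, Vmat n x = M
  | 0, x₀ => Eventually.of_forall fun M hlo huni => ⟨x₀, (eq_one_of_up_lo
      (fun i j h => absurd (Fin.lt_def.1 h) (by omega)) hlo huni).symm⟩
  | n + 1, x₀ => by
    set T₀ := Vmat n (tailX x₀)
    have hV0 : Vmat (n + 1) x₀ = ext1 T₀ * bid (x₀ 0) := rfl
    let yf : SL (n + 2) ℂ → Fin (n + 1) → ℂ := fun M i =>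
      -((M⁻¹).1 i.succ 0) / (M⁻¹).1 i.castSucc 0
    have hv0 : ∀ i, ((Vmat (n + 1) x₀)⁻¹).1 i 0 = ((bid (x₀ 0))⁻¹).1 i 0 := fun i => by
      rw [hV0, _root_.mul_inv_rev, ← map_inv, ext1_col_zero]
    have hy0 : yf (Vmat (n + 1) x₀) = fun i => (x₀ 0 i : ℂ) := by
      funext i
      simp only [yf, hv0]
      rw [bid_inv_succ, neg_mul, neg_neg, mul_div_assoc, div_self (bid_inv_ne _ _), mul_one]
    have hent : ∀ i j, Continuous fun M : SL (n + 2) ℂ => (M⁻¹).1 i j := fun i j =>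
      (continuous_apply j).comp ((continuous_apply i).comp (continuous_val.comp continuous_inv))
    have hyc : ContinuousAt yf (Vmat (n + 1) x₀) := by
      refine continuousAt_pi.2 fun i =>
        ((hent i.succ 0).neg.continuousAt).div (hent i.castSucc 0).continuousAt ?_
      rw [hv0]
      exact bid_inv_ne _ _
    have hbc : Continuous (bidC (n := n + 1)) := by
      refine continuous_induced_rng.2 (continuous_const.add ?_)
      refine continuous_matrix fun i j => ?_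
      refine Fin.cases ?_ (fun i => ?_) i
      · simpa using continuous_const
      · simp only [Matrix.of_apply, Fin.cons_succ, Pi.single_apply]
        split_ifs
        exacts [continuous_apply i, continuous_const]
    let mf : SL (n + 2) ℂ → Matrix (Fin (n + 1)) (Fin (n + 1)) ℂ := fun M =>
      ((M * (bidC (yf M))⁻¹).1).submatrix Fin.succ Fin.succ
    have hmc : ContinuousAt mf (Vmat (n + 1) x₀) := by
      have h1 : ContinuousAt (fun M => M * (bidC (yf M))⁻¹) (Vmat (n + 1) x₀) :=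
        continuousAt_id.mul ((hbc.continuousAt.comp hyc).inv)
      exact ((continuous_val.matrix_submatrix Fin.succ Fin.succ).continuousAt).comp h1
    have hm0 : mf (Vmat (n + 1) x₀) = T₀.1 := by
      simp only [mf, hy0]
      rw [← bid_eq_bidC, hV0, mul_inv_cancel_right, ext1_val]
      ext i j
      simp
    have ih := chart_exists_near n (tailX x₀)
    rw [Filter.Eventually, nhds_induced, mem_comap] at ih
    obtain ⟨W, hW, hWs⟩ := ih
    have hW' : ∀ᶠ M in 𝓝 (Vmat (n + 1) x₀), mf M ∈ W := hmc.eventually (by rw [hm0]; exact hW)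
    have hne : ∀ᶠ M in 𝓝 (Vmat (n + 1) x₀), ∀ i, (M⁻¹).1 i 0 ≠ 0 :=
      eventually_all.2 fun i => (hent i 0).continuousAt.eventually_ne (by
        rw [hv0]; exact bid_inv_ne _ _)
    filter_upwards [hW', hne] with M hMW hMne hlo huni
    have hy : ∀ i, yf M i ≠ 0 := fun i => div_ne_zero (neg_ne_zero.2 (hMne _)) (hMne _)
    let y : Fin (n + 1) → ℂˣ := fun i => Units.mk0 _ (hy i)
    have hby : bid y = bidC (yf M) := rfl
    have hcol : ∀ i, ((bid y)⁻¹).1 i 0 = (M⁻¹).1 i 0 := by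
      intro i
      induction i using Fin.induction with
      | zero => rw [bid_inv_zero]; exact (huni.inv_lo hlo 0).symm
      | succ i ih =>
        have hc := hMne i.castSucc
        rw [bid_inv_succ, ih]
        simp only [y, Units.val_mk0, yf]
        field_simp
    set M' := M * (bid y)⁻¹ with hM'
    have hlo' : Lo M' := hlo.mul (bid_lo y).1.inv
    have huni' : Uni M' := Uni.mul_lo hlo (bid_lo y).1.inv huni ((bid_lo y).2.inv_lo (bid_lo y).1)
    have hcol' : ∀ i, M'.1 i 0 = (1 : SL (n + 2) ℂ).1 i 0 := fun i => by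
      rw [hM', ← mul_inv_cancel M, mul_val, mul_val, Matrix.mul_apply, Matrix.mul_apply]
      exact Finset.sum_congr rfl fun k _ => by rw [hcol k]
    have hext : M'.1 = extM (M'.1.submatrix Fin.succ Fin.succ) := by
      ext i j
      refine Fin.cases ?_ (fun j => ?_) j
      · rw [hcol' i, one_val]
        refine Fin.cases ?_ (fun i => ?_) i <;> simp [Fin.succ_ne_zero]
      · refine Fin.cases ?_ (fun i => ?_) i
        · rw [extM_zero_succ]
          exact hlo' _ _ (Fin.succ_pos j)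
        · simp
    have hdet : (M'.1.submatrix Fin.succ Fin.succ).det = 1 := by
      rw [← det_extM, ← hext]
      exact M'.2
    let M₁ : SL (n + 1) ℂ := ⟨_, hdet⟩
    have hM₁ : ext1 M₁ = M' := Subtype.ext hext.symm
    have hlo₁ : Lo M₁ := fun i j h => hlo' i.succ j.succ (Fin.succ_lt_succ_iff.2 h)
    have huni₁ : Uni M₁ := fun i => huni' i.succ
    have hmem : M₁.1 ∈ W := by
      show (M'.1.submatrix Fin.succ Fin.succ) ∈ W
      rw [hM', hby]
      exact hMW
    obtain ⟨x₁, hx₁⟩ := hWs hmem hlo₁ huni₁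
    refine ⟨fun i j => Fin.cases (motive := fun _ => ℂˣ) (y j)
      (fun i' => Fin.cases (motive := fun _ => ℂˣ) 1 (fun j' => x₁ i' j') j) i, ?_⟩
    show ext1 (Vmat n fun i j => x₁ i j) * bid (fun j => y j) = M
    rw [show (fun i j => x₁ i j) = x₁ from rfl, hx₁, hM₁, hM', inv_mul_cancel_right]

/-- Lower unitriangular elements near a chart point lie in the chart. -/
lemma chart_near (x₀ : XP n ℂ) {V : Set (SL (n + 1) ℂ × SL (n + 1) ℂ)}
    (hV : V ∈ 𝓝 (bOf x₀, betaOf x₀)) :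
    ∀ᶠ M in 𝓝 (Vmat n x₀), Lo M → Uni M →
      ∃ x : XP n ℂ, Vmat n x = M ∧ (bOf x, betaOf x) ∈ V := by
  filter_upwards [factors_near x₀ hV, chart_exists_near n x₀] with M h1 h2 hlo huni
  obtain ⟨x, hx⟩ := h2 hlo huni
  exact ⟨x, hx, h1 x hx⟩

/-- Upper triangular elements near a joint are joints. -/
lemma jm_near (J₀ : Jt n ℂ) {V : Set (SL (n + 1) ℂ × SL (n + 1) ℂ)}
    (hV : V ∈ 𝓝 (bOf J₀.2, betaOf J₀.2)) :
    ∀ᶠ M in 𝓝 (jm J₀), Up M → ∃ J : Jt n ℂ, jm J = M ∧ (bOf J.2, betaOf J.2) ∈ V := by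
  set G : SL (n + 1) ℂ × SL (n + 1) ℂ → SL (n + 1) ℂ := fun q => cw (q.1⁻¹ * q.2)
  have hG : Continuous G := continuous_cw.comp (continuous_fst.inv.mul continuous_snd)
  have hd := diagPart_jm J₀ (jm_up J₀) rfl
  have hG0 : G (diOf J₀.1, jm J₀) = Vmat n J₀.2 := by simp [G, jm, cw_cw']
  obtain ⟨E, hE, W, hW, hsub⟩ := mem_nhds_prod_iff.1 (hG.continuousAt.preimage_mem_nhds
    (x := (diOf J₀.1, jm J₀)) (by rw [hG0]; exact chart_near J₀.2 hV))
  filter_upwards [hW, diagPart_near (jm_up J₀) (E := E) (by rw [hd]; exact hE)] with M hMW hME hM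
  obtain ⟨d, u, hdu⟩ := exists_upOf hM
  have hdM : diagPart hM = diOf d := by
    refine Matrix.SpecialLinearGroup.ext _ _ fun i j => ?_
    rcases lt_trichotomy i j with h | rfl | h
    · rw [diOf_lo d i j h]; simp [diagPart, h.ne]
    · simp only [← hdu, diagPart, diagonal_apply_eq, diOf, upOf_diag]
    · rw [diOf_up d i j h]; simp [diagPart, h.ne']
  have huni : Uni ((diOf d)⁻¹ * M) := fun i => by
    rw [(diOf_up d).inv.mul_diag hM, ← hdM, mul_comm]
    conv_lhs => enter [1]; rw [show M.1 i i = (diagPart hM).1 i i by simp [diagPart]]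
    exact (diagPart_up hM).inv_diag i
  have hgood := hsub (show (diOf d, M) ∈ E ×ˢ W from ⟨hdM ▸ hME hM, hMW⟩)
  obtain ⟨x, hx, hxV⟩ := hgood ((diOf_up d).inv.mul hM).cw huni.cw
  refine ⟨(d, x), ?_, hxV⟩
  rw [jm, hx]
  simp only [G, cw'_cw, mul_inv_cancel_left]

/-- The chain only depends on the blocks and joints before it. -/
lemma st_congr {K : Type*} [CommRing K] {PB ZB : ℕ → SL (n + 1) K} {q0 : SL (n + 1) K}
    {J J' : ℕ → Jt n K} {m : ℕ} (h : ∀ j < m, J j = J' j) :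
    st PB ZB q0 J m = st PB ZB q0 J' m := by
  induction m with
  | zero => rfl
  | succ m ih =>
    simp only [st]
    rw [ih fun j hj => h j (by omega), h m (by omega)]

/-- Chains with prescribed blocks and conjugators exist near a given chain. -/
lemma joints_near (PB ZB : ℕ → SL (n + 1) ℂ) (q0 : SL (n + 1) ℂ) (J₀ : ℕ → Jt n ℂ)
    (hPB : ∀ j, Up (PB j)) (hZB : ∀ j, Up (ZB j)) (hq : Up q0) (m : ℕ)
    {V : Set (SL (n + 1) ℂ × SL (n + 1) ℂ)}
    (hV : V ∈ 𝓝 ((st PB ZB q0 J₀ m).1, (st PB ZB q0 J₀ m).2.1)) :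
    ∀ᶠ D : (ℕ → SL (n + 1) ℂ) × (ℕ → SL (n + 1) ℂ) × (ℕ → SL (n + 1) ℂ) in
        𝓝 (PB, ZB, fun j => (st PB ZB q0 J₀ j).2.2),
      (∀ j, Up (D.1 j)) → (∀ j, Up (D.2.1 j)) → (∀ j, Up (D.2.2 j)) →
        ∃ J : ℕ → Jt n ℂ, (∀ j ≤ m, (st D.1 D.2.1 (D.2.2 0) J j).2.2 = D.2.2 j) ∧
          ((st D.1 D.2.1 (D.2.2 0) J m).1, (st D.1 D.2.1 (D.2.2 0) J m).2.1) ∈ V := by
  have hP : ∀ j, Continuous fun D : (ℕ → SL (n + 1) ℂ) × (ℕ → SL (n + 1) ℂ) ×
      (ℕ → SL (n + 1) ℂ) => D.1 j := fun j => (continuous_apply j).comp continuous_fst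
  have hZ : ∀ j, Continuous fun D : (ℕ → SL (n + 1) ℂ) × (ℕ → SL (n + 1) ℂ) ×
      (ℕ → SL (n + 1) ℂ) => D.2.1 j :=
    fun j => (continuous_apply j).comp (continuous_fst.comp continuous_snd)
  have hQ : ∀ j, Continuous fun D : (ℕ → SL (n + 1) ℂ) × (ℕ → SL (n + 1) ℂ) ×
      (ℕ → SL (n + 1) ℂ) => D.2.2 j :=
    fun j => (continuous_apply j).comp (continuous_snd.comp continuous_snd)
  induction m generalizing V with
  | zero =>
    have hc : Continuous fun D : (ℕ → SL (n + 1) ℂ) × (ℕ → SL (n + 1) ℂ) ×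
        (ℕ → SL (n + 1) ℂ) => (D.2.2 0 * D.1 0, D.2.1 0 * (D.2.2 0)⁻¹) :=
      ((hQ 0).mul (hP 0)).prodMk ((hZ 0).mul (hQ 0).inv)
    filter_upwards [hc.continuousAt.preimage_mem_nhds
      (x := (PB, ZB, fun j => (st PB ZB q0 J₀ j).2.2)) hV] with D hD _ _ _
    refine ⟨J₀, fun j hj => ?_, hD⟩
    obtain rfl : j = 0 := by omega
    rfl
  | succ m ih =>
    set s := st PB ZB q0 J₀ m with hs
    set M₀ := jm (J₀ m) with hM₀
    let G : (SL (n + 1) ℂ × SL (n + 1) ℂ × SL (n + 1) ℂ × SL (n + 1) ℂ) ×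
        (SL (n + 1) ℂ × SL (n + 1) ℂ) → SL (n + 1) ℂ × SL (n + 1) ℂ := fun q =>
      (q.1.2.1 * cw q.1.1 * q.2.1, q.2.2 * om * (q.1.2.2.1 * q.1.2.2.2⁻¹))
    have hG : Continuous G := by
      have h1 : Continuous fun q : (SL (n + 1) ℂ × SL (n + 1) ℂ × SL (n + 1) ℂ × SL (n + 1) ℂ) ×
          (SL (n + 1) ℂ × SL (n + 1) ℂ) => q.1.2.1 * cw q.1.1 * q.2.1 :=
        ((continuous_fst.comp (continuous_snd.comp continuous_fst)).mul
          (continuous_cw.comp (continuous_fst.comp continuous_fst))).mul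
          (continuous_fst.comp continuous_snd)
      have h2 : Continuous fun q : (SL (n + 1) ℂ × SL (n + 1) ℂ × SL (n + 1) ℂ × SL (n + 1) ℂ) ×
          (SL (n + 1) ℂ × SL (n + 1) ℂ) => q.2.2 * om * (q.1.2.2.1 * q.1.2.2.2⁻¹) :=
        ((continuous_snd.comp continuous_snd).mul continuous_const).mul
          ((continuous_fst.comp (continuous_snd.comp (continuous_snd.comp continuous_fst))).mul
            ((continuous_snd.comp (continuous_snd.comp (continuous_snd.comp continuous_fst))).inv))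
      exact h1.prodMk h2
    obtain ⟨A, hA, V₁, hV₁, hsub⟩ := mem_nhds_prod_iff.1 (hG.continuousAt.preimage_mem_nhds
      (x := ((diOf (J₀ m).1, s.1, ZB (m + 1), (st PB ZB q0 J₀ (m + 1)).2.2),
        (bOf (J₀ m).2, betaOf (J₀ m).2))) (show V ∈ _ from hV))
    obtain ⟨E, hE, B, hB, hEB⟩ := mem_nhds_prod_iff.1 hA
    have hd := diagPart_jm (J₀ m) (jm_up _) rfl
    have hM := (jm_near (J₀ m) hV₁).and
      (diagPart_near (jm_up (J₀ m)) (E := E) (by rw [hd]; exact hE))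
    let Z : ((ℕ → SL (n + 1) ℂ) × (ℕ → SL (n + 1) ℂ) × (ℕ → SL (n + 1) ℂ)) ×
        (SL (n + 1) ℂ × SL (n + 1) ℂ) →
        (SL (n + 1) ℂ × SL (n + 1) ℂ × SL (n + 1) ℂ) × SL (n + 1) ℂ := fun z =>
      ((z.2.1, z.1.2.1 (m + 1), z.1.2.2 (m + 1)), z.2.2 * z.1.2.2 (m + 1) * z.1.1 (m + 1))
    have hZc : Continuous Z :=
      ((continuous_fst.comp continuous_snd).prodMk
        (((hZ (m + 1)).comp continuous_fst).prodMk ((hQ (m + 1)).comp continuous_fst))).prodMk
        (((continuous_snd.comp continuous_snd).mul ((hQ (m + 1)).comp continuous_fst)).mul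
          ((hP (m + 1)).comp continuous_fst))
    have hZ0 : Z ((PB, ZB, fun j => (st PB ZB q0 J₀ j).2.2), (s.1, s.2.1)) =
        ((s.1, ZB (m + 1), (st PB ZB q0 J₀ (m + 1)).2.2), M₀) := by
      refine Prod.ext rfl ?_
      show s.2.1 * (s.2.1⁻¹ * jm (J₀ m) * (PB (m + 1))⁻¹) * PB (m + 1) = jm (J₀ m)
      group
    obtain ⟨𝒟, h𝒟, V₂, hV₂, hsub₂⟩ := mem_nhds_prod_iff.1 (hZc.continuousAt.preimage_mem_nhds
      (x := ((PB, ZB, fun j => (st PB ZB q0 J₀ j).2.2), (s.1, s.2.1)))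
      (by rw [hZ0]; exact prod_mem_nhds hB hM))
    filter_upwards [h𝒟, ih hV₂] with D hD hih hUP hUZ hUQ
    obtain ⟨J, hJq, hJV⟩ := hih hUP hUZ hUQ
    obtain ⟨hzB, hjm, hzE⟩ := hsub₂ (show (D, _) ∈ 𝒟 ×ˢ V₂ from ⟨hD, hJV⟩)
    set t := st D.1 D.2.1 (D.2.2 0) J m with ht
    have hMup : Up (t.2.1 * D.2.2 (m + 1) * D.1 (m + 1)) :=
      ((st_up J hUP hUZ (hUQ 0) m).2.1.mul (hUQ _)).mul (hUP _)
    obtain ⟨Jm, hJm, hbV⟩ := hjm hMup
    have hdiag := diagPart_jm Jm hMup hJm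
    have hmem := hsub (show ((diOf Jm.1, t.1, D.2.1 (m + 1), D.2.2 (m + 1)),
        (bOf Jm.2, betaOf Jm.2)) ∈ A ×ˢ V₁ from
      ⟨hEB ⟨hdiag ▸ hzE hMup, hzB⟩, hbV⟩)
    set J' := Function.update J m Jm
    have hcg : ∀ j ≤ m, st D.1 D.2.1 (D.2.2 0) J' j = st D.1 D.2.1 (D.2.2 0) J j := fun j hj =>
      st_congr fun i hi => Function.update_of_ne (by omega) _ _
    have hq' : (st D.1 D.2.1 (D.2.2 0) J' m).2.1⁻¹ * jm (J' m) * (D.1 (m + 1))⁻¹ =
        D.2.2 (m + 1) := by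
      rw [hcg m le_rfl, show J' m = Jm from Function.update_self .., hJm, ← ht]
      simp only [Z]
      group
    refine ⟨J', fun j hj => ?_, ?_⟩
    · rcases Nat.lt_or_ge j (m + 1) with h | h
      · rw [hcg j (by omega)]; exact hJq j (by omega)
      · obtain rfl : j = m + 1 := by omega
        exact hq'
    · simp only [st, hq']
      rw [hcg m le_rfl, show J' m = Jm from Function.update_self ..]
      exact hmem

end Vale.Agent.P002.Frames
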