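import Vale.Agent.P002.Frames.Blocks

/-! Chart points at which the superdiagonals of the triangular factors do not vanish. -/

open Matrix Finset

namespace Vale.Agent.P002.Frames

variable {n : ℕ}

/-- A chart with uniform outer row `c` and given inner part. -/
def mkX {K : Type*} [CommRing K] (c : Kˣ) (x' : XP n K) : XP (n + 1) K :=
  fun a b => Fin.cases c (fun a => Fin.cases 1 (fun b => x' a b) b) a

lemma tailX_mkX {K : Type*} [CommRing K] (c : Kˣ) (x' : XP n K) : tailX (mkX c x') = x' := rfl

lemma mkX_zero {K : Type*} [CommRing K] (c : Kˣ) (x' : XP n K) (b : Fin (n + 1)) :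
    mkX c x' 0 b = c := rfl

lemma inner_entry (β' : SL (n + 1) ℂ) (y : Fin (n + 1) → ℂˣ) (i : Fin (n + 1)) (j : Fin (n + 2)) :
    (ext1 β' * bid y).1 i.succ j =
      Fin.cases 0 (fun l => β'.1 i l) j +
        Fin.lastCases (motive := fun _ => ℂ) 0 (fun l => β'.1 i l * y l) j := by
  rw [mul_val, Matrix.mul_apply, Fin.sum_univ_succ]
  simp only [ext1_val, extM_succ_zero, zero_mul, zero_add, extM_succ_succ, bid_succ_apply, mul_add,
    Finset.sum_add_distrib]
  congr 1
  · refine Fin.cases ?_ (fun j => ?_) j <;> simp [Fin.succ_ne_zero]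
  · refine Fin.lastCases ?_ (fun k => ?_) j
    · simp [Fin.castSucc_ne_last]
    · simp [Pi.single_apply]

lemma super_mul {A B : SL (n + 1) ℂ} (hA : Up A) (hB : Up B) (i : Fin n) :
    (A * B).1 i.castSucc i.succ = A.1 i.castSucc i.castSucc * B.1 i.castSucc i.succ +
      A.1 i.castSucc i.succ * B.1 i.succ i.succ := by
  rw [mul_val, Matrix.mul_apply, Finset.sum_eq_add i.castSucc i.succ Fin.castSucc_lt_succ.ne]
  · rintro k - ⟨h1, h2⟩
    rcases lt_trichotomy k i.castSucc with h | h | h
    · rw [hA _ _ h, zero_mul]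
    · exact absurd h h1
    · rw [hB _ _ (lt_of_le_of_ne (Fin.castSucc_lt_iff_succ_le.1 h) h2.symm), mul_zero]
  · simp
  · simp

lemma sub_mul {A B : SL (n + 1) ℂ} (hA : Lo A) (hB : Lo B) (i : Fin n) :
    (A * B).1 i.succ i.castSucc = A.1 i.succ i.castSucc * B.1 i.castSucc i.castSucc +
      A.1 i.succ i.succ * B.1 i.succ i.castSucc := by
  rw [mul_val, Matrix.mul_apply, Finset.sum_eq_add i.castSucc i.succ Fin.castSucc_lt_succ.ne]
  · rintro k - ⟨h1, h2⟩
    rcases lt_trichotomy k i.castSucc with h | h | h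
    · rw [hB _ _ h, mul_zero]
    · exact absurd h h1
    · rw [hA _ _ (lt_of_le_of_ne (Fin.castSucc_lt_iff_succ_le.1 h) h2.symm), zero_mul]
  · simp
  · simp

lemma exists_not_root {P : Polynomial ℂ} (hP : P ≠ 0) : ∃ c : ℂˣ, P.eval (c : ℂ) ≠ 0 := by
  obtain ⟨c, hc⟩ := Infinite.exists_notMem_finset (insert 0 P.roots.toFinset)
  rw [Finset.mem_insert, Multiset.mem_toFinset, Polynomial.mem_roots hP, not_or] at hc
  exact ⟨Units.mk0 c hc.1, hc.2⟩

/-- Some chart has a left factor with nonvanishing superdiagonal. -/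
lemma exists_super : ∀ n : ℕ, ∃ x : XP n ℂ, ∀ i : Fin n, (bOf x).1 i.castSucc i.succ ≠ 0
  | 0 => ⟨fun _ _ => 1, fun i => i.elim0⟩
  | n + 1 => by
    obtain ⟨x', hx'⟩ := exists_super n
    set β' := betaOf x'
    let γ : Fin (n + 1) → ℂ := fun l => (β'⁻¹).1 l (Fin.last n)
    have hγ : γ (Fin.last n) ≠ 0 :=
      right_ne_zero_of_mul_eq_one ((betaOf_up x').inv_diag (Fin.last n))
    let P : Polynomial ℂ := ∑ l : Fin (n + 1), Polynomial.C (γ l) * Polynomial.X ^ (l : ℕ)
    have hP : P ≠ 0 := fun h => hγ (by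
      have := congrArg (fun Q => Polynomial.coeff Q n) h
      simp only [P, Polynomial.finsetSum_coeff, Polynomial.coeff_C_mul, Polynomial.coeff_X_pow,
        Polynomial.coeff_zero] at this
      rw [Finset.sum_eq_single (Fin.last n)] at this
      · simpa using this
      · intro l _ hl
        have : n ≠ (l : ℕ) := fun e => hl (Fin.ext e.symm)
        simp [this]
      · simp)
    obtain ⟨t, ht⟩ := exists_not_root hP
    let c : ℂˣ := (-t)⁻¹
    refine ⟨mkX c x', ?_⟩
    obtain ⟨u, hb, -, hu⟩ := chart_succ (mkX c x')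
    rw [tailX_mkX] at hb hu
    refine Fin.cases ?_ fun i => ?_
    · show (bOf (mkX c x')).1 0 (Fin.succ 0) ≠ 0
      have e : (bOf (mkX c x')).1 0 (Fin.succ 0) = u 0 := by
        rw [hb, mul_val, Matrix.mul_apply, Fin.sum_univ_succ]
        simp [ext1_val, rowU, -Fin.succ_zero_eq_one]
      rw [e]
      intro h0
      set z := u ᵥ* (wl (K := ℂ) (n + 1)).1
      have hz : z (Fin.last n) = 0 := by
        show ∑ i, u i * (wl (K := ℂ) (n + 1)).1 i (Fin.last n) = 0
        refine Finset.sum_eq_zero fun i _ => ?_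
        rcases eq_or_ne i 0 with rfl | hi
        · rw [h0, zero_mul]
        · rw [wl_supp (n + 1) i (Fin.last n), mul_zero]
          intro e
          simp only [Fin.val_last] at e
          exact hi (Fin.ext (by rw [Fin.val_zero]; omega))
      set y := z ᵥ* β'.1
      have hy : ∀ j : Fin (n + 1), ∀ h : (j : ℕ) ≤ n,
          y j = -(t : ℂ) * (t : ℂ) ^ (j : ℕ) := by
        intro j
        induction j using Fin.induction with
        | zero =>
          intro _
          have h := hu 0
          simp only [inner_entry, mkX_zero, Fin.castSucc_zero, Fin.cases_zero, zero_add] at h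
          rw [show (0 : Fin (n + 2)) = Fin.castSucc 0 from rfl] at h
          simp only [Fin.lastCases_castSucc, Pi.single_eq_same, ← mul_assoc, ← Finset.sum_mul] at h
          have h' : y 0 * (c : ℂ) = 1 := h
          rw [Fin.val_zero, pow_zero, mul_one]
          simp only [c, Units.val_inv_eq_inv_val, Units.val_neg] at h'
          field_simp at h'
          linear_combination -h'
        | succ l ih =>
          intro _
          have h := hu l.succ
          simp only [inner_entry, mkX_zero] at h
          rw [← Fin.succ_castSucc] at h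
          simp only [Fin.cases_succ] at h
          rw [Fin.succ_castSucc] at h
          simp only [Fin.lastCases_castSucc, mul_add, Finset.sum_add_distrib,
            Pi.single_eq_of_ne (Fin.succ_ne_zero l), ← mul_assoc, ← Finset.sum_mul] at h
          have h' : y l.castSucc + y l.succ * (c : ℂ) = 0 := h
          rw [ih (by simp)] at h'
          simp only [c, Units.val_inv_eq_inv_val, Units.val_neg, Fin.val_castSucc] at h'
          rw [Fin.val_succ, pow_succ]
          field_simp at h'
          linear_combination -h'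
      have hzy : z = y ᵥ* (β'⁻¹).1 := by
        show z = (z ᵥ* β'.1) ᵥ* (β'⁻¹).1
        rw [vecMul_vecMul, ← mul_val, mul_inv_cancel, one_val, vecMul_one]
      apply ht
      have h2 : ∑ l, y l * γ l = 0 := by rw [hzy] at hz; exact hz
      simp only [P, Polynomial.eval_finsetSum, Polynomial.eval_mul, Polynomial.eval_C,
        Polynomial.eval_pow, Polynomial.eval_X]
      rw [Finset.sum_congr rfl fun l _ => by rw [hy l (Nat.lt_succ_iff.1 l.isLt)],
        Finset.sum_congr rfl fun (l : Fin (n + 1)) _ =>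
          show -(t : ℂ) * (t : ℂ) ^ (l : ℕ) * γ l = -(t : ℂ) * (γ l * (t : ℂ) ^ (l : ℕ)) by ring,
        ← Finset.mul_sum] at h2
      simpa [t.ne_zero] using h2
    · show (bOf (mkX c x')).1 i.succ.castSucc i.succ.succ ≠ 0
      rw [hb, mul_val, Matrix.mul_apply, Fin.sum_univ_succ, ← Fin.succ_castSucc]
      simp only [ext1_val, extM_succ_zero, zero_mul, zero_add, extM_succ_succ, rowU, Matrix.of_apply,
        Fin.cons_succ, Pi.single_apply, Fin.succ_inj, mul_ite, mul_one, mul_zero,
        Finset.sum_ite_eq, Finset.mem_univ, if_true]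
      exact hx' i

/-- Some chart makes a given superdiagonal entry of the triangular part of a puncture nonzero. -/
lemma exists_tZ_super (hn : 2 ≤ n) (lam : Fin n → ℂˣ) (i : Fin n) :
    ∃ x : XP n ℂ, (tZ lam x).1 i.castSucc i.succ ≠ 0 := by
  obtain ⟨m, rfl⟩ : ∃ m, n = m + 1 := ⟨n - 1, by omega⟩
  let x' : XP m ℂ := fun _ _ => 1
  set β' := betaOf x'
  set E : ℂ := (ext1 (Vmat m x')).1 i.rev.succ i.rev.castSucc
  set M₀ : ℂ := (diOf lam).1 i.rev.castSucc i.rev.castSucc
  set w₁ : ℂ := (wl (K := ℂ) (m + 2)).1 i.rev.succ i.rev.succ.rev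
  set w₂ : ℂ := (wl (K := ℂ) (m + 2)).1 i.rev.castSucc i.rev.castSucc.rev
  have hw₁ : w₁ ≠ 0 := wl_rev_ne _ _
  set D : ℂ := (diOf lam).1 i.rev.succ i.rev.succ
  have hD : D ≠ 0 := left_ne_zero_of_mul_eq_one ((diOf_up lam).inv_diag _)
  have hd' : ∀ l, β'.1 l l ≠ 0 := fun l => left_ne_zero_of_mul_eq_one ((betaOf_up x').inv_diag l)
  -- the superdiagonal entry as a function of the outer row
  have key : ∀ c : ℂˣ, (tZ lam (mkX c x')).1 i.castSucc i.succ =
      D * (betaOf (mkX c x')).1 i.castSucc i.succ +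
        (-(E + c) * M₀ * w₂ / w₁) * (betaOf (mkX c x')).1 i.succ i.succ := by
    intro c
    set V := Vmat (m + 1) (mkX c x')
    have hV := Vmat_lo (m + 1) (mkX c x')
    rw [tZ, super_mul (hV.1.inv.mul (diOf_lo lam)).cw' (betaOf_up _)]
    congr 2
    · rw [cw'_diag, hV.1.inv.mul_diag (diOf_lo lam), (hV.2.inv_lo hV.1), one_mul, Fin.rev_castSucc]
    · have hr1 : i.rev.succ.rev = i.castSucc := by simp [Fin.rev_succ]
      have hr2 : i.rev.castSucc.rev = i.succ := by simp [Fin.rev_castSucc]
      have h := cw_entry (cw' (V⁻¹ * diOf lam)) i.rev.succ i.rev.castSucc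
      rw [cw_cw', hr1, hr2] at h
      have hVs : V.1 i.rev.succ i.rev.castSucc = E + c := by
        show (ext1 (Vmat m x') * bid (fun _ => c)).1 _ _ = _
        rw [sub_mul (Vmat_lo m x').1.ext1 fun _ _ hab => bidM_upper hab, bid_succ_apply,
          (Vmat_lo m x').2.ext1]
        show E * bidM (fun _ => c) _ _ + _ = _
        rw [bidM_diag]
        simp [Fin.castSucc_lt_succ.ne']
      have hinv : (V⁻¹).1 i.rev.succ i.rev.castSucc = -(E + c) := by
        have h' := congrFun (congrFun (congrArg Subtype.val (inv_mul_cancel V)) i.rev.succ)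
          i.rev.castSucc
        rw [sub_mul hV.1.inv hV.1, one_val, one_apply_ne Fin.castSucc_lt_succ.ne', hV.2,
          hV.2.inv_lo hV.1, hVs, mul_one, one_mul] at h'
        linear_combination h'
      have hM : (V⁻¹ * diOf lam).1 i.rev.succ i.rev.castSucc = -(E + c) * M₀ := by
        rw [sub_mul hV.1.inv (diOf_lo lam), hinv,
          diOf_up lam _ _ Fin.castSucc_lt_succ, mul_zero, add_zero]
      rw [hM] at h
      have h2 : w₂ * (-(E + c) * M₀) =
          w₁ * (cw' (V⁻¹ * diOf lam)).1 i.castSucc i.succ := by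
        simp only [w₁, w₂, hr1, hr2]
        linear_combination h
      field_simp
      linear_combination -h2
  rcases Fin.eq_castSucc_or_eq_last i with ⟨l, rfl⟩ | rfl
  · -- an inner window
    set A : ℂ := M₀ * w₂ / w₁
    let P : Polynomial ℂ := Polynomial.C D * (Polynomial.C (β'.1 l.castSucc l.castSucc) +
      Polynomial.C (β'.1 l.castSucc l.succ) * Polynomial.X) -
      Polynomial.C A * (Polynomial.C E + Polynomial.X) *
        (Polynomial.C (β'.1 l.succ l.succ) * Polynomial.X)
    have hP : P ≠ 0 := fun h => mul_ne_zero hD (hd' l.castSucc) (by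
      have := congrArg (fun Q => Polynomial.eval 0 Q) h
      simpa [P] using this)
    obtain ⟨c, hc⟩ := exists_not_root hP
    refine ⟨mkX c x', ?_⟩
    obtain ⟨u, -, hβ, -⟩ := chart_succ (mkX c x')
    rw [tailX_mkX] at hβ
    rw [key]
    rw [show l.castSucc.succ = l.succ.castSucc from Fin.succ_castSucc l, hβ, hβ, inner_entry,
      inner_entry, Fin.lastCases_castSucc, ← Fin.succ_castSucc l, Fin.cases_succ,
      Fin.cases_succ, (betaOf_up x') _ _ Fin.castSucc_lt_succ, zero_add]
    intro h
    apply hc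
    simp only [P, Polynomial.eval_sub, Polynomial.eval_mul, Polynomial.eval_add,
      Polynomial.eval_C, Polynomial.eval_X]
    simp only [mkX_zero, Fin.succ_castSucc, Fin.lastCases_castSucc] at h
    linear_combination h
  · -- the last window
    set A : ℂ := M₀ * w₂ / w₁
    set K : ℂ := ((∏ l : Fin (m + 1), β'.1 l l)⁻¹)
    let P : Polynomial ℂ := Polynomial.C (D * β'.1 (Fin.last m) (Fin.last m)) *
      Polynomial.X ^ (m + 1) - Polynomial.C (A * K) * (Polynomial.C E + Polynomial.X)
    have hP : P ≠ 0 := fun h => mul_ne_zero hD (hd' (Fin.last m)) (by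
      have := congrArg (fun Q => Polynomial.coeff Q (m + 1)) h
      simp only [P] at this
      rw [Polynomial.coeff_sub, Polynomial.coeff_C_mul, Polynomial.coeff_X_pow_self,
        Polynomial.coeff_C_mul, Polynomial.coeff_add, Polynomial.coeff_C, Polynomial.coeff_X,
        if_neg (show m + 1 ≠ 0 by omega), if_neg (show 1 ≠ m + 1 by omega)] at this
      simpa using this)
    obtain ⟨c, hc⟩ := exists_not_root hP
    refine ⟨mkX c x', ?_⟩
    obtain ⟨u, -, hβ, -⟩ := chart_succ (mkX c x')
    rw [tailX_mkX] at hβ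
    have hlast : (betaOf (mkX c x')).1 (Fin.last (m + 1)) (Fin.last (m + 1)) =
        K * ((c : ℂ) ^ (m + 1))⁻¹ := by
      have hdet : (betaOf (mkX c x')).1.det = 1 := (betaOf (mkX c x')).2
      rw [det_of_isUpperTriangular (fun a b hab => betaOf_up _ a b hab),
        Fin.prod_univ_castSucc] at hdet
      have e : ∀ l : Fin (m + 1), (betaOf (mkX c x')).1 l.castSucc l.castSucc = β'.1 l l * c := by
        intro l
        rw [hβ, inner_entry, Fin.lastCases_castSucc, mkX_zero]
        have : Fin.cases 0 (fun a => β'.1 l a) l.castSucc = (0 : ℂ) := by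
          refine Fin.cases ?_ (fun a => ?_) l
          · rfl
          · rw [← Fin.succ_castSucc, Fin.cases_succ]
            exact betaOf_up x' _ _ Fin.castSucc_lt_succ
        rw [this, zero_add]
      simp only [e, Finset.prod_mul_distrib, Finset.prod_const, Finset.card_univ,
        Fintype.card_fin] at hdet
      rw [show K * ((c : ℂ) ^ (m + 1))⁻¹ =
        ((∏ l : Fin (m + 1), β'.1 l l) * (c : ℂ) ^ (m + 1))⁻¹ by
          rw [_root_.mul_inv_rev, mul_comm]]
      exact eq_inv_of_mul_eq_one_right hdet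
    rw [key, Fin.succ_last, hlast, hβ, inner_entry, Fin.lastCases_last, add_zero]
    rw [← Fin.succ_last, Fin.cases_succ]
    intro h
    apply hc
    simp only [P, Polynomial.eval_sub, Polynomial.eval_mul, Polynomial.eval_add,
      Polynomial.eval_C, Polynomial.eval_X, Polynomial.eval_pow]
    have hc0 : ((c : ℂ) ^ (m + 1)) ≠ 0 := pow_ne_zero _ c.ne_zero
    simp only [A]
    field_simp at h ⊢
    linear_combination h

end Vale.Agent.P002.Frames
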