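import Vale.Agent.P002.Frames.Param
import Vale.Agent.P002.Frames.Witness

/-! Parameters meeting the closing condition at which the genericity conditions hold. -/

open Matrix Finset

namespace Vale.Agent.P002.Frames

variable {n g k : ℕ}

namespace Par

/-- All coordinates equal to one. -/
def triv : Par n g k ℂ where
  gu _ _ := 0
  qd _ := 1
  qu _ _ := 0
  H _ := ⟨fun _ => 1, fun _ _ => 0, (fun _ => 1, fun _ _ => 1), (fun _ => 1, fun _ _ => 1),
    (fun _ => 1, fun _ _ => 1)⟩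
  X _ _ _ := 1
  J _ := (fun _ => 1, fun _ _ => 1)
  t _ := 1

lemma fix_X_of_ne (p : Par n g k ℂ) (lam : Fin k → Fin n → ℂˣ) (lamF : Fin n → ℂˣ) {j : ℕ}
    {i : Fin k} (h : g + (i : ℕ) ≠ j) : (p.fix lam lamF j).X i = p.X i := by
  simp only [fix, setRow, if_neg h]

lemma exists_good_super_X (hN : 2 ≤ g + k) (lam : Fin k → Fin n → ℂˣ) (lamF : Fin n → ℂˣ)
    (i : Fin k) :
    ∃ p : Par n g k ℂ, p.Good lam lamF ∧
      ∀ a : Fin n, (bOf (p.X i)).1 a.castSucc a.succ ≠ 0 := by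
  obtain ⟨x, hx⟩ := exists_super n
  set j : ℕ := if g + (i : ℕ) = 0 then 1 else 0 with hj
  have hji : g + (i : ℕ) ≠ j := by rw [hj]; split_ifs <;> omega
  have hjN : j < g + k := by rw [hj]; split_ifs <;> omega
  let p : Par n g k ℂ := { (triv : Par n g k ℂ) with X := fun _ => x }
  refine ⟨p.fix lam lamF j, p.fix_good lam hN lamF j hjN, fun a => ?_⟩
  rw [fix_X_of_ne p lam lamF hji]
  exact hx a

/-- A symmetric integer vector of sum zero with distinct neighbours. -/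
def symE (n : ℕ) (j : Fin (n + 1)) : ℤ :=
  (n + 1) * ((min (j : ℕ) (n - j) : ℕ) : ℤ) -
    ∑ l : Fin (n + 1), ((min (l : ℕ) (n - l) : ℕ) : ℤ)

lemma sum_symE : ∑ j, symE n j = 0 := by
  simp only [symE, Finset.sum_sub_distrib, ← Finset.mul_sum, Finset.sum_const, Finset.card_univ,
    Fintype.card_fin, nsmul_eq_mul]
  push_cast
  ring

lemma symE_rev (j : Fin (n + 1)) : symE n j.rev = symE n j := by
  have hj := j.isLt
  have h : min (j.rev : ℕ) (n - j.rev) = min (j : ℕ) (n - j) := by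
    rw [Fin.val_rev]; omega
  simp only [symE, h]

lemma symE_ne (hn : Even n) (i : Fin n) : symE n i.castSucc ≠ symE n i.succ := by
  obtain ⟨m, hm⟩ := hn
  simp only [symE, Fin.val_castSucc, Fin.val_succ]
  intro h
  have h' : ((n : ℤ) + 1) * ((min (i : ℕ) (n - i) : ℕ) : ℤ) =
      ((n : ℤ) + 1) * ((min ((i : ℕ) + 1) (n - ((i : ℕ) + 1)) : ℕ) : ℤ) := by linarith
  have h'' := Int.natCast_inj.1 (mul_left_cancel₀ (by positivity) h')
  have := i.isLt
  omega

/-- A symmetric torus element. -/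
noncomputable def symT (a : ℂˣ) : Fin n → ℂˣ := fun i => a ^ symE n i.castSucc

lemma symT_diag (a : ℂˣ) (j : Fin (n + 1)) :
    (diOf (symT (n := n) a)).1 j j = ((a ^ symE n j : ℂˣ) : ℂ) := by
  rw [diOf, upOf_diag]
  refine congrArg Units.val ?_
  refine Fin.lastCases ?_ (fun l => ?_) j
  · rw [Fin.lastCases_last]
    refine inv_eq_of_mul_eq_one_right ?_
    simp only [symT]
    have h : ∏ l : Fin (n + 1), a ^ symE n l = 1 := by
      rw [← (Finset.prod_congr rfl fun l _ => rfl : ∏ l, a ^ symE n l = _)]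
      calc ∏ l, a ^ symE n l = a ^ ∑ l, symE n l := by
            induction (univ : Finset (Fin (n + 1))) using Finset.induction_on with
            | empty => simp
            | insert b s hb ih => rw [prod_insert hb, sum_insert hb, ih, _root_.zpow_add]
        _ = 1 := by rw [sum_symE, zpow_zero]
    rwa [Fin.prod_univ_castSucc] at h
  · rw [Fin.lastCases_castSucc]; rfl

lemma cw_symT (a : ℂˣ) : cw (diOf (symT (n := n) a)) = diOf (symT a) := by
  refine Matrix.SpecialLinearGroup.ext _ _ fun i j => ?_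
  rcases lt_trichotomy i j with h | rfl | h
  · rw [(diOf_up _).cw i j h, diOf_lo _ i j h]
  · rw [cw_diag, symT_diag, symT_diag, symE_rev]
  · rw [(diOf_lo _).cw i j h, diOf_up _ i j h]

lemma R_with_t (p : Par n g k ℂ) (lam : Fin k → Fin n → ℂˣ) (hN : 2 ≤ g + k) (hk : 1 ≤ k)
    (a : ℂˣ) :
    ({ p with t := symT a } : Par n g k ℂ).R lam =
      (st p.PB (p.ZB lam) p.q0 p.JN (g + k - 2)).1 *
        (diOf (symT a) * (om * tZ (lam ⟨k - 1, by omega⟩) (p.X ⟨k - 1, by omega⟩)) *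
          (diOf (symT a))⁻¹) *
        (st p.PB (p.ZB lam) p.q0 p.JN (g + k - 2)).2.1 := by
  have hPB : p.PB (g + k - 2 + 1) = 1 := by rw [PB, dif_neg (by omega)]
  have hZB : p.ZB lam (g + k - 2 + 1) = tZ (lam ⟨k - 1, by omega⟩) (p.X ⟨k - 1, by omega⟩) := by
    have e : g + k - 2 + 1 - g = k - 1 := by omega
    rw [ZB, dif_neg (by omega), dif_pos (by omega)]
    simp only [e]
  show RL p.PB (p.ZB lam) p.q0 p.JN (g + k - 2) (symT a) = _
  simp only [RL, qL, cw_symT, hPB, hZB]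
  group

lemma exists_good_super_R (hN : 2 ≤ g + k) (hk : 1 ≤ k) (hn : Even n) (lam : Fin k → Fin n → ℂˣ)
    (lamF : Fin n → ℂˣ) (i : Fin n) :
    ∃ p : Par n g k ℂ, p.Good lam lamF ∧ (p.R lam).1 i.castSucc i.succ ≠ 0 := by
  have hn2 : 2 ≤ n := by obtain ⟨m, rfl⟩ := hn; have := i.isLt; omega
  obtain ⟨x, hx⟩ := exists_tZ_super hn2 (lam ⟨k - 1, by omega⟩) i
  let p₀ : Par n g k ℂ := { (triv : Par n g k ℂ) with X := fun _ => x, t := symT 1 }
  set p := p₀.fix lam lamF 0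
  have hgood : p.Good lam lamF := p₀.fix_good lam hN lamF 0 (by omega)
  have ht : p.t = symT 1 := rfl
  have hX : p.X ⟨k - 1, by omega⟩ = x :=
    fix_X_of_ne p₀ lam lamF (by show g + (k - 1) ≠ 0; omega)
  let S := (st p.PB (p.ZB lam) p.q0 p.JN (g + k - 2)).1
  let S' := (st p.PB (p.ZB lam) p.q0 p.JN (g + k - 2)).2.1
  set Y := om * tZ (lam ⟨k - 1, by omega⟩) x
  have hY : Up Y := om_up.mul (tZ_up _ _)
  obtain ⟨hS, hS', -⟩ : Up S ∧ Up S' ∧ _ := st_up p.JN p.PB_up (p.ZB_up lam) p.q0_up _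
  set Q : ℂˣ → SL (n + 1) ℂ := fun a => S * (diOf (symT a) * Y * (diOf (symT a))⁻¹) * S' with hQ
  have hR : ∀ a, ({ p with t := symT a } : Par n g k ℂ).R lam = Q a := fun a => by
    rw [R_with_t p lam hN hk a, hX]
  have hinv : ∀ a j, ((diOf (symT (n := n) a))⁻¹).1 j j = ((a ^ symE n j : ℂˣ) : ℂ)⁻¹ := fun a j => by
    have := (diOf_up (symT (n := n) a)).inv_diag j
    rw [symT_diag] at this
    exact eq_inv_of_mul_eq_one_right this
  have hM : ∀ a, Up (diOf (symT a) * Y * (diOf (symT a))⁻¹) :=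
    fun a => ((diOf_up _).mul hY).mul (diOf_up _).inv
  have hd : ∀ a j, (diOf (symT a) * Y * (diOf (symT a))⁻¹).1 j j = Y.1 j j := fun a j => by
    rw [((diOf_up _).mul hY).mul_diag (diOf_up _).inv, (diOf_up _).mul_diag hY, hinv, symT_diag]
    field_simp
  have hgood' : ∀ a, ({ p with t := symT a } : Par n g k ℂ).Good lam lamF := by
    intro a j
    have e : ({ p with t := symT 1 } : Par n g k ℂ) = p := by rw [← ht]
    have h1 := hgood j
    rw [← e] at h1
    simp only [hR, dg] at h1 ⊢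
    simp only [hQ] at h1 ⊢
    rw [(hS.mul (hM _)).mul_diag hS', hS.mul_diag (hM _), hd] at h1 ⊢
    exact h1
  by_contra hne
  push Not at hne
  set Δ : ℤ := symE n i.castSucc - symE n i.succ with hΔ
  set α : ℂ := S.1 i.castSucc i.castSucc * Y.1 i.castSucc i.succ * S'.1 i.succ i.succ
  set β : ℂ := S.1 i.castSucc i.castSucc * Y.1 i.castSucc i.castSucc * S'.1 i.castSucc i.succ +
    S.1 i.castSucc i.succ * Y.1 i.succ i.succ * S'.1 i.succ i.succ
  have hval : ∀ a : ℂˣ, (Q a).1 i.castSucc i.succ = α * ((a ^ Δ : ℂˣ) : ℂ) + β := by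
    intro a
    simp only [hQ]
    rw [super_mul (hS.mul (hM a)) hS', hS.mul_diag (hM a), super_mul hS (hM a), hd, hd,
      super_mul ((diOf_up _).mul hY) (diOf_up _).inv, super_mul (diOf_up _) hY,
      diOf_lo _ _ _ Fin.castSucc_lt_succ,
      (diOf_lo _).inv _ _ Fin.castSucc_lt_succ, hinv, symT_diag]
    have e : ((a ^ Δ : ℂˣ) : ℂ) =
        ((a ^ symE n i.castSucc : ℂˣ) : ℂ) * ((a ^ symE n i.succ : ℂˣ) : ℂ)⁻¹ := by
      rw [hΔ, _root_.zpow_sub, Units.val_mul, Units.val_inv_eq_inv_val]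
    rw [e]
    simp only [α, β]
    ring
  have h0 : ∀ a, α * ((a ^ Δ : ℂˣ) : ℂ) + β = 0 := fun a => by
    rw [← hval, ← hR]; exact hne _ (hgood' a)
  have hα : α ≠ 0 := by
    have hdS : ∀ {A : SL (n + 1) ℂ}, Up A → ∀ j, A.1 j j ≠ 0 :=
      fun hA j => left_ne_zero_of_mul_eq_one (hA.inv_diag j)
    refine mul_ne_zero (mul_ne_zero (hdS hS _) ?_) (hdS hS' _)
    show (om * tZ _ x).1 _ _ ≠ 0
    rw [super_mul om_up (tZ_up _ _), om_off _ _ Fin.castSucc_lt_succ.ne, zero_mul, add_zero]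
    exact mul_ne_zero (hdS om_up _) hx
  have h1 := h0 1
  have h2 := h0 (Units.mk0 2 two_ne_zero)
  rw [_root_.one_zpow, Units.val_one, mul_one] at h1
  have h3 : α * (((Units.mk0 (2 : ℂ) two_ne_zero) ^ Δ : ℂˣ) : ℂ) = α * 1 := by
    linear_combination h2 - h1
  have h4 := mul_left_cancel₀ hα h3
  rw [Units.val_zpow_eq_zpow_val, Units.val_mk0] at h4
  have h5 : (2 : ℝ) ^ Δ = 1 := by
    have := congrArg (fun z : ℂ => ‖z‖) h4
    simpa using this
  have h6 : Δ = 0 := by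
    exact zpow_right_injective₀ (by norm_num : (0 : ℝ) < 2) (by norm_num) (h5.trans (zpow_zero _).symm)
  exact symE_ne hn i (by omega)

end Par

end Vale.Agent.P002.Frames
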