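import Vale.Agent.P002.Frames.ChartNear

/-! Inverting the handle parameters near a base point. -/

open Matrix Filter Topology

namespace Vale.Agent.P002.Frames

variable {n : ℕ}

/-- The diagonal and both chart factors of a joint vary continuously with it. -/
lemma jm_near3 (J₀ : Jt n ℂ) {V : Set (SL (n + 1) ℂ × SL (n + 1) ℂ × SL (n + 1) ℂ)}
    (hV : V ∈ 𝓝 (diOf J₀.1, bOf J₀.2, betaOf J₀.2)) :
    ∀ᶠ M in 𝓝 (jm J₀), Up M →
      ∃ J : Jt n ℂ, jm J = M ∧ (diOf J.1, bOf J.2, betaOf J.2) ∈ V := by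
  obtain ⟨E, hE, W, hW, hsub⟩ := mem_nhds_prod_iff.1 hV
  have hd := diagPart_jm J₀ (jm_up J₀) rfl
  filter_upwards [jm_near J₀ hW, diagPart_near (jm_up J₀) (E := E) (by rw [hd]; exact hE)]
    with M h1 h2 hM
  obtain ⟨J, hJ, hJW⟩ := h1 hM
  exact ⟨J, hJ, hsub ⟨diagPart_jm J hM hJ ▸ h2 hM, hJW⟩⟩

/-- The factors of the two matrices of a handle. -/
abbrev Quad (n : ℕ) : Type :=
  (SL (n + 1) ℂ × SL (n + 1) ℂ) × (SL (n + 1) ℂ × SL (n + 1) ℂ)

/-- The diagonal and the two chart factors of a joint. -/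
abbrev Trip (n : ℕ) : Type := SL (n + 1) ℂ × SL (n + 1) ℂ × SL (n + 1) ℂ

/-- The element of the second joint. -/
noncomputable def tgt2 (q : Quad n × Trip n) : SL (n + 1) ℂ :=
  q.2.2.2 * om * q.1.2.2 * q.1.1.2⁻¹ * om⁻¹

/-- The element of the third joint. -/
noncomputable def tgt3 (q : (Quad n × Trip n) × Trip n) : SL (n + 1) ℂ :=
  q.2.2.2 * om * q.1.1.1.1⁻¹ * q.1.1.2.2⁻¹ * om⁻¹

/-- The factors of the commutator from those of the matrices and of the three joints. -/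
noncomputable def commFac (q : ((Quad n × Trip n) × Trip n) × Trip n) :
    SL (n + 1) ℂ × SL (n + 1) ℂ :=
  (q.1.1.1.1.1 * cw q.1.1.2.1 * q.1.1.2.2.1 * cw q.1.2.1 * q.1.2.2.1 * cw q.2.1 * q.2.2.1,
    q.2.2.2 * om * q.1.1.1.2.1⁻¹)

lemma continuous_tgt2 : Continuous (tgt2 (n := n)) := by
  have a : Continuous fun q : Quad n × Trip n => q.1 := continuous_fst
  have b : Continuous fun q : Quad n × Trip n => q.2 := continuous_snd
  exact (((b.snd.snd.mul continuous_const).mul a.snd.snd).mul a.fst.snd.inv).mul continuous_const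

lemma continuous_tgt3 : Continuous (tgt3 (n := n)) := by
  have a : Continuous fun q : (Quad n × Trip n) × Trip n => q.1.1 := continuous_fst.comp continuous_fst
  have b : Continuous fun q : (Quad n × Trip n) × Trip n => q.2 := continuous_snd
  exact (((b.snd.snd.mul continuous_const).mul a.fst.fst.inv).mul a.snd.snd.inv).mul continuous_const

lemma continuous_commFac : Continuous (commFac (n := n)) := by
  have a : Continuous fun q : ((Quad n × Trip n) × Trip n) × Trip n => q.1.1.1 :=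
    continuous_fst.comp (continuous_fst.comp continuous_fst)
  have b : Continuous fun q : ((Quad n × Trip n) × Trip n) × Trip n => q.1.1.2 :=
    continuous_snd.comp (continuous_fst.comp continuous_fst)
  have c : Continuous fun q : ((Quad n × Trip n) × Trip n) × Trip n => q.1.2 :=
    continuous_snd.comp continuous_fst
  have d : Continuous fun q : ((Quad n × Trip n) × Trip n) × Trip n => q.2 := continuous_snd
  exact ((((((a.fst.fst.mul (continuous_cw.comp b.fst)).mul b.snd.fst).mul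
    (continuous_cw.comp c.fst)).mul c.snd.fst).mul (continuous_cw.comp d.fst)).mul d.snd.fst).prodMk
    ((d.snd.snd.mul continuous_const).mul a.snd.fst.inv)

/-- Pairs near a handle pair are handle pairs. -/
lemma handle_near (h₀ : HPar n ℂ) {V : Set (SL (n + 1) ℂ × SL (n + 1) ℂ)}
    (hV : V ∈ 𝓝 (h₀.P, h₀.Z)) :
    ∀ᶠ X : SL (n + 1) ℂ × SL (n + 1) ℂ in 𝓝 (h₀.A, h₀.B),
      ∃ h : HPar n ℂ, h.A = X.1 ∧ h.B = X.2 ∧ (h.P, h.Z) ∈ V := by
  let ω₀ : Quad n := ((h₀.pA, h₀.zA), (h₀.pB, h₀.zB))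
  let t1 : Trip n := (diOf h₀.j1.1, bOf h₀.j1.2, betaOf h₀.j1.2)
  let t2 : Trip n := (diOf h₀.j2.1, bOf h₀.j2.2, betaOf h₀.j2.2)
  let t3 : Trip n := (diOf h₀.j3.1, bOf h₀.j3.2, betaOf h₀.j3.2)
  have hM1 : Continuous fun ω : Quad n => ω.1.2 * ω.2.1 :=
    continuous_fst.snd.mul continuous_snd.fst
  have e1 : ω₀.1.2 * ω₀.2.1 = jm h₀.j1 := by
    simp only [ω₀, HPar.pB]
    group
  have e2 : tgt2 (ω₀, t1) = jm h₀.j2 := by
    simp only [tgt2, ω₀, t1, HPar.zB]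
    group
  have e3 : tgt3 ((ω₀, t1), t2) = jm h₀.j3 := by
    simp only [tgt3, ω₀, t2, HPar.pA]
    group
  obtain ⟨C3, hC3, V3, hV3, hs3⟩ := mem_nhds_prod_iff.1
    (continuous_commFac.continuousAt.preimage_mem_nhds (x := (((ω₀, t1), t2), t3)) hV)
  obtain ⟨C2, hC2, V2, hV2, hs2⟩ := mem_nhds_prod_iff.1
    (inter_mem hC3 (continuous_tgt3.continuousAt.preimage_mem_nhds (x := ((ω₀, t1), t2))
      (by rw [e3]; exact jm_near3 h₀.j3 hV3)))
  obtain ⟨C1, hC1, V1, hV1, hs1⟩ := mem_nhds_prod_iff.1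
    (inter_mem hC2 (continuous_tgt2.continuousAt.preimage_mem_nhds (x := (ω₀, t1))
      (by rw [e2]; exact jm_near3 h₀.j2 hV2)))
  obtain ⟨WA, hWA, WB, hWB, hs0⟩ := mem_nhds_prod_iff.1
    (inter_mem hC1 (hM1.continuousAt.preimage_mem_nhds (x := ω₀)
      (by rw [e1]; exact jm_near3 h₀.j1 hV1)))
  have hA : ∀ᶠ X : SL (n + 1) ℂ in 𝓝 h₀.A,
      ∃ P Z, Up P ∧ Up Z ∧ X = P * wl (n + 1) * Z ∧ (P, Z) ∈ WA :=
    cell_near h₀.pA_up h₀.zA_up hWA
  have hB : ∀ᶠ X : SL (n + 1) ℂ in 𝓝 h₀.B,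
      ∃ P Z, Up P ∧ Up Z ∧ X = P * wl (n + 1) * Z ∧ (P, Z) ∈ WB :=
    cell_near h₀.pB_up h₀.zB_up hWB
  rw [nhds_prod_eq]
  filter_upwards [hA.prod_mk hB] with X hX
  obtain ⟨⟨PA, ZA, hPA, hZA, hXA, hA'⟩, ⟨PB, ZB, hPB, hZB, hXB, hB'⟩⟩ := hX
  obtain ⟨hω, hg1⟩ := hs0 (show (((PA, ZA), (PB, ZB)) : Quad n) ∈ WA ×ˢ WB from ⟨hA', hB'⟩)
  obtain ⟨j1, hj1, hV1'⟩ := hg1 (hZA.mul hPB)
  obtain ⟨hω1, hg2⟩ := hs1 (show (((PA, ZA), (PB, ZB)),
    (diOf j1.1, bOf j1.2, betaOf j1.2)) ∈ C1 ×ˢ V1 from ⟨hω, hV1'⟩)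
  obtain ⟨j2, hj2, hV2'⟩ :=
    hg2 (((((betaOf_up _).mul om_up).mul hZB).mul hZA.inv).mul om_up.inv)
  obtain ⟨hω2, hg3⟩ := hs2 (show ((((PA, ZA), (PB, ZB)),
    (diOf j1.1, bOf j1.2, betaOf j1.2)), (diOf j2.1, bOf j2.2, betaOf j2.2)) ∈ C2 ×ˢ V2 from
      ⟨hω1, hV2'⟩)
  obtain ⟨j3, hj3, hV3'⟩ :=
    hg3 (((((betaOf_up _).mul om_up).mul hPA.inv).mul hZB.inv).mul om_up.inv)
  have hfin := hs3 (show (((((PA, ZA), (PB, ZB)), (diOf j1.1, bOf j1.2, betaOf j1.2)),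
    (diOf j2.1, bOf j2.2, betaOf j2.2)), (diOf j3.1, bOf j3.2, betaOf j3.2)) ∈ C3 ×ˢ V3 from
      ⟨hω2, hV3'⟩)
  obtain ⟨d, u, hdu⟩ := exists_upOf hZA
  let h : HPar n ℂ := ⟨d, u, j1, j2, j3⟩
  simp only [tgt2] at hj2
  simp only [tgt3] at hj3
  have hzA : h.zA = ZA := hdu
  have hpB : h.pB = PB := by
    rw [HPar.pB, hzA, show jm h.j1 = _ from hj1]
    group
  have hzB : h.zB = ZB := by
    rw [HPar.zB, hzA, show jm h.j2 = _ from hj2]
    simp only [h]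
    group
  have hpA : h.pA = PA := by
    rw [HPar.pA, hzB, show jm h.j3 = _ from hj3]
    simp only [h]
    group
  refine ⟨h, ?_, ?_, ?_⟩
  · rw [HPar.A, hpA, hzA, hXA]
  · rw [HPar.B, hpB, hzB, hXB]
  · rw [HPar.P, HPar.Z, hpA, hpB]
    exact hfin

end Vale.Agent.P002.Frames
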