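import Vale.Agent.P002.Frames.Param
import Vale.Agent.P002.Frames.HandleNear
import Vale.Agent.P002.General.Point

/-! Every representation near a parametrised one is parametrised. -/

open Matrix Filter Topology

namespace Vale.Agent.P002.Frames

variable {n g k : ℕ}

/-- A local section of the orbit map of a conjugacy class. -/
lemma sl_orbit_section {T : SL (n + 1) ℂ} {V : Set (SL (n + 1) ℂ)} (hV : V ∈ 𝓝 1) :
    ∀ᶠ X in 𝓝 T, (∃ κ, X = κ * T * κ⁻¹) → ∃ κ ∈ V, X = κ * T * κ⁻¹ := by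
  rw [nhds_induced, mem_comap] at hV
  obtain ⟨W, hW, hWV⟩ := hV
  have hW1 : W ∈ 𝓝 (1 : Matrix (Fin (n + 1)) (Fin (n + 1)) ℂ) := hW
  have h := General.orbit_section (r := n + 1) (by omega) (T := T.1) hW1
  refine (continuous_val.continuousAt.eventually h).mono fun X hX hex => ?_
  obtain ⟨κ, hκ⟩ := hex
  obtain ⟨c, hcW, hc, hXc⟩ := hX ⟨κ.1, κ.2, by rw [hκ, mul_val, mul_val, inv_apply]⟩
  refine ⟨⟨c, hc⟩, hWV hcW, Subtype.ext ?_⟩
  obtain ⟨c', hc'⟩ : ∃ c' : SL (n + 1) ℂ, c' = ⟨c, hc⟩ := ⟨_, rfl⟩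
  rw [← hc', mul_val, mul_val, inv_apply, show c'.1 = c from congrArg Subtype.val hc']
  exact hXc

lemma ofFn_range {M : Type*} [Monoid M] (F : ℕ → M) :
    (List.ofFn fun i : Fin g => F i).prod * (List.ofFn fun i : Fin k => F (g + i)).prod =
      ((List.range (g + k)).map F).prod := by
  rw [← List.prod_append]
  congr 1
  refine List.ext_getElem (by simp) fun j hj hj' => ?_
  simp only [List.getElem_map, List.getElem_range]
  rw [List.getElem_append]
  split_ifs with h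
  · simp
  · simp only [List.length_ofFn, not_lt] at h
    simp [Nat.add_sub_cancel' h]

/-- Elements of the class of a puncture element near it are puncture elements. -/
lemma punct_near (lam : Fin n → ℂˣ) (x₀ : XP n ℂ) {q₀ : SL (n + 1) ℂ} (hq : Up q₀)
    {V : Set (SL (n + 1) ℂ × SL (n + 1) ℂ)} (hV : V ∈ 𝓝 (q₀, tZ lam x₀)) :
    ∀ᶠ C in 𝓝 (q₀ * tElt lam x₀ * q₀⁻¹),
      (∃ κ, C = κ * (q₀ * tElt lam x₀ * q₀⁻¹) * κ⁻¹) →
        ∃ q x, Up q ∧ C = q * tElt lam x * q⁻¹ ∧ (q, tZ lam x) ∈ V := by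
  set T := q₀ * tElt lam x₀ * q₀⁻¹ with hT
  set a₀ : SL (n + 1) ℂ := diOf lam * (bOf x₀)⁻¹ with ha₀
  have hMN := lu_near (L₀ := (Vmat n x₀)⁻¹) (U₀ := 1) (Vmat_lo n x₀).1.inv
    ((Vmat_lo n x₀).2.inv_lo (Vmat_lo n x₀).1) Up.one
    (prod_mem_nhds
      (continuous_inv.continuousAt.preimage_mem_nhds
        (by rw [inv_inv]; exact chart_near x₀ (V := Set.univ) univ_mem)) univ_mem)
  have hG : Continuous fun z : (SL (n + 1) ℂ × SL (n + 1) ℂ) × SL (n + 1) ℂ =>
      ((z.1.1, z.1.2 * z.1.1), z.1.1⁻¹ * z.2 * q₀ * (Vmat n x₀)⁻¹) :=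
    ((continuous_fst.comp continuous_fst).prodMk
      ((continuous_snd.comp continuous_fst).mul (continuous_fst.comp continuous_fst))).prodMk
      ((((continuous_fst.comp continuous_fst).inv.mul continuous_snd).mul continuous_const).mul
        continuous_const)
  obtain ⟨V₁, hV₁, V₂, hV₂, hsub⟩ := mem_nhds_prod_iff.1 (hG.continuousAt.preimage_mem_nhds
    (x := ((q₀, tZ lam x₀ * q₀⁻¹), 1)) (by
      rw [inv_mul_cancel_right, mul_one, inv_mul_cancel, one_mul]
      exact prod_mem_nhds hV (by rw [mul_one] at hMN; exact hMN)))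
  have hcell := cell_near hq ((tZ_up lam x₀).mul hq.inv) hV₁
  have hTc : q₀ * wl (n + 1) * (tZ lam x₀ * q₀⁻¹) = T := by
    rw [hT, tElt_eq]; group
  rw [hTc] at hcell
  filter_upwards [hcell, sl_orbit_section hV₂] with C hC hsec hex
  obtain ⟨P, Z, hP, hZ, hCeq, hPZ⟩ := hC
  obtain ⟨κ, hκV, hκ⟩ := hsec hex
  obtain ⟨hPV, L, U, hL, hL1, hU, hLU, hgood, -⟩ := hsub (show ((P, Z), κ) ∈ V₁ ×ˢ V₂ from
    ⟨hPZ, hκV⟩)
  simp only at hLU
  obtain ⟨x, hx, -⟩ := hgood hL.inv (hL1.inv_lo hL)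
  have hκe : κ = P * (L * U) * Vmat n x₀ * q₀⁻¹ := by rw [← hLU]; group
  set a := U * a₀ * U⁻¹ with ha
  have ha₀u : Up a₀ := (diOf_up lam).mul (bOf_up x₀).inv
  have hau : Up a := (hU.mul ha₀u).mul hU.inv
  have hC' : P⁻¹ * C * P = (Vmat n x)⁻¹ * a * Vmat n x := by
    rw [hx, inv_inv, hκ, hκe, ha, ha₀, hT, tElt]
    group
  have hCw : P⁻¹ * C * P = wl (n + 1) * (Z * P) := by rw [hCeq]; group
  -- `a * bOf x` is both triangular
  have hlow : Lo (a * bOf x) := by
    have e : a * bOf x = Vmat n x * cw ((Z * P) * (betaOf x)⁻¹) := by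
      have e1 : a = Vmat n x * (P⁻¹ * C * P) * (Vmat n x)⁻¹ := by rw [hC']; group
      rw [e1, hCw]
      conv_lhs => enter [1, 2, 1]; rw [chart_eq]
      simp only [cw]
      group
    rw [e]
    exact (Vmat_lo n x).1.mul ((hZ.mul hP).mul (betaOf_up x).inv).cw
  have hdiag : a * bOf x = diOf lam := by
    refine Matrix.SpecialLinearGroup.ext _ _ fun i j => ?_
    rcases lt_trichotomy i j with h | rfl | h
    · rw [hlow i j h, diOf_lo lam i j h]
    · rw [hau.mul_diag (bOf_up x), bOf_uni, mul_one, (hU.mul ha₀u).mul_diag hU.inv,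
        hU.mul_diag ha₀u, (diOf_up lam).mul_diag (bOf_up x₀).inv,
        (bOf_uni x₀).inv_up (bOf_up x₀), mul_one,
        mul_right_comm, hU.inv_diag, one_mul]
    · rw [(hau.mul (bOf_up x)) i j h, diOf_up lam i j h]
  have hCt : P⁻¹ * C * P = tElt lam x := by
    rw [hC', tElt, ← hdiag]; group
  have htZ : tZ lam x = Z * P := by
    rw [hCw, tElt_eq] at hCt
    exact (mul_left_cancel hCt).symm
  refine ⟨P, x, hP, ?_, ?_⟩
  · rw [← hCt]; group
  · rw [htZ]; exact hPV

namespace Par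

variable (p : Par n g k ℂ) (lam : Fin k → Fin n → ℂˣ)

/-- The matrices of the representation. -/
noncomputable def outs : (Fin g → SL (n + 1) ℂ × SL (n + 1) ℂ) × (Fin k → SL (n + 1) ℂ) ×
    SL (n + 1) ℂ :=
  (fun i => (p.outA lam i, p.outB lam i), p.outC lam, p.outF lam)

end Par

/-- Nearby representations with the same classes are parametrised. -/
lemma cover (hN : 2 ≤ g + k) (p₀ : Par n g k ℂ) (lam : Fin k → Fin n → ℂˣ) (lamF : Fin n → ℂˣ)
    (hp : p₀.Good lam lamF) :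
    ∀ᶠ X : (Fin g → SL (n + 1) ℂ × SL (n + 1) ℂ) × (Fin k → SL (n + 1) ℂ) × SL (n + 1) ℂ in
      𝓝 (p₀.outs lam),
      (∀ i, ∃ κ, X.2.1 i = κ * p₀.outC lam i * κ⁻¹) → (∃ κ, X.2.2 = κ * p₀.outF lam * κ⁻¹) →
        (List.ofFn fun i => (X.1 i).1 * (X.1 i).2 * (X.1 i).1⁻¹ * (X.1 i).2⁻¹).prod *
          (List.ofFn X.2.1).prod * X.2.2 = 1 →
        ∃ p : Par n g k ℂ, p.Good lam lamF ∧ p.outs lam = X := by
  obtain ⟨m, hm⟩ : ∃ m, g + k = m + 2 := ⟨g + k - 2, by omega⟩
  have hm' : g + k - 2 = m := by omega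
  set base : ℕ → SL (n + 1) ℂ := fun j => (st p₀.PB (p₀.ZB lam) p₀.q0 p₀.JN j).2.2 with hbase
  have hbq : ∀ j ≤ m, base j = p₀.qOf lam j := fun j hj => by
    rw [Par.qOf, if_pos (by omega)]
  have hqup : ∀ j, Up (p₀.qOf lam j) := by
    intro j
    unfold Par.qOf
    split_ifs
    · exact (st_up _ p₀.PB_up (p₀.ZB_up lam) p₀.q0_up j).2.2
    · exact (((st_up _ p₀.PB_up (p₀.ZB_up lam) p₀.q0_up _).2.1.inv).mul (diOf_up _)).mul
        (p₀.PB_up _).inv
  -- block data to chain data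
  let BD := (Fin g → SL (n + 1) ℂ × SL (n + 1) ℂ) × (Fin k → SL (n + 1) ℂ × SL (n + 1) ℂ)
  let bP : BD → ℕ → SL (n + 1) ℂ := fun b j => if h : j < g then (b.1 ⟨j, h⟩).1 else 1
  let bZ : BD → ℕ → SL (n + 1) ℂ := fun b j =>
    if h : j < g then (b.1 ⟨j, h⟩).2 else if h' : j - g < k then (b.2 ⟨j - g, h'⟩).2 else 1
  let bq : BD → ℕ → SL (n + 1) ℂ := fun b j =>
    if j < g then p₀.qOf lam j else if h' : j - g < k then (b.2 ⟨j - g, h'⟩).1 else 1
  let Ψ : BD → (ℕ → SL (n + 1) ℂ) × (ℕ → SL (n + 1) ℂ) × (ℕ → SL (n + 1) ℂ) := fun b =>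
    (bP b, bZ b, fun j => if j ≤ m then bq b j else base j)
  have hΨc : Continuous Ψ := by
    have hbq' : ∀ j, Continuous fun b => bq b j := fun j => by
      simp only [bq]; split_ifs
      · exact continuous_const
      · exact continuous_fst.comp ((continuous_apply _).comp continuous_snd)
      · exact continuous_const
    refine (continuous_pi fun j => ?_).prodMk ((continuous_pi fun j => ?_).prodMk
      (continuous_pi fun j => ?_))
    · simp only [bP]; split_ifs
      · exact continuous_fst.comp ((continuous_apply _).comp continuous_fst)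
      · exact continuous_const
    · simp only [bZ]; split_ifs
      · exact continuous_snd.comp ((continuous_apply _).comp continuous_fst)
      · exact continuous_snd.comp ((continuous_apply _).comp continuous_snd)
      · exact continuous_const
    · split_ifs
      · exact hbq' j
      · exact continuous_const
  let b₀ : BD := (fun i => ((p₀.H i).P, (p₀.H i).Z),
    fun i => (p₀.qOf lam (g + i), tZ (lam i) (p₀.X i)))
  have hbq₀ : ∀ j < g + k, bq b₀ j = p₀.qOf lam j := fun j hj => by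
    simp only [bq, b₀]
    split_ifs with h h'
    · rfl
    · rw [Nat.add_sub_cancel' (by omega)]
    · omega
  have hΨ₀ : Ψ b₀ = (p₀.PB, p₀.ZB lam, base) := by
    refine Prod.ext (funext fun j => ?_) (Prod.ext (funext fun j => ?_) (funext fun j => ?_))
    · rfl
    · rfl
    · show (if j ≤ m then bq b₀ j else base j) = base j
      split_ifs with h
      · rw [hbq₀ j (by omega), hbq j h]
      · rfl
  have hj := joints_near p₀.PB (p₀.ZB lam) p₀.q0 p₀.JN p₀.PB_up (p₀.ZB_up lam) p₀.q0_up m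
    (V := Set.univ) univ_mem
  rw [← hbase, ← hΨ₀] at hj
  obtain ⟨S₁, hS₁, S₂, hS₂, hS⟩ := mem_nhds_prod_iff.1
    (hΨc.continuousAt.preimage_mem_nhds (x := b₀) hj)
  rw [nhds_pi, Filter.mem_pi'] at hS₁ hS₂
  obtain ⟨I₁, Vh, hVh, hI₁⟩ := hS₁
  obtain ⟨I₂, Vp, hVp, hI₂⟩ := hS₂
  -- conditions on the matrices in the final coordinates
  let XS := (Fin g → SL (n + 1) ℂ × SL (n + 1) ℂ) × (Fin k → SL (n + 1) ℂ) × SL (n + 1) ℂ
  have hh : ∀ᶠ z : XS × SL (n + 1) ℂ in 𝓝 (p₀.outs lam, p₀.gau), ∀ i : Fin g,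
      ∃ h : HPar n ℂ, h.A = (p₀.qOf lam i)⁻¹ * (z.2⁻¹ * (z.1.1 i).1 * z.2) * p₀.qOf lam i ∧
        h.B = (p₀.qOf lam i)⁻¹ * (z.2⁻¹ * (z.1.1 i).2 * z.2) * p₀.qOf lam i ∧
        (h.P, h.Z) ∈ Vh i := by
    refine eventually_all.2 fun i => ?_
    let G : XS × SL (n + 1) ℂ → SL (n + 1) ℂ × SL (n + 1) ℂ := fun z =>
      ((p₀.qOf lam i)⁻¹ * (z.2⁻¹ * (z.1.1 i).1 * z.2) * p₀.qOf lam i,
        (p₀.qOf lam i)⁻¹ * (z.2⁻¹ * (z.1.1 i).2 * z.2) * p₀.qOf lam i)
    have hc1 : ∀ π : SL (n + 1) ℂ × SL (n + 1) ℂ → SL (n + 1) ℂ, Continuous π →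
        Continuous fun z : XS × SL (n + 1) ℂ =>
          (p₀.qOf lam i)⁻¹ * (z.2⁻¹ * π (z.1.1 i) * z.2) * p₀.qOf lam i := fun π hπ =>
      (continuous_const.mul ((continuous_snd.inv.mul (hπ.comp ((continuous_apply i).comp
        (continuous_fst.comp continuous_fst)))).mul continuous_snd)).mul continuous_const
    have hG : Continuous G := (hc1 _ continuous_fst).prodMk (hc1 _ continuous_snd)
    have hG0 : G (p₀.outs lam, p₀.gau) = ((p₀.H i).A, (p₀.H i).B) := by
      simp only [G, Par.outs, Par.outA, Par.outB, Par.frame]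
      refine Prod.ext ?_ ?_ <;> simp only <;> group
    have h := handle_near (p₀.H i) (hVh i)
    rw [← hG0] at h
    exact hG.continuousAt.eventually h
  have hpn : ∀ᶠ z : XS × SL (n + 1) ℂ in 𝓝 (p₀.outs lam, p₀.gau), ∀ i : Fin k,
      (∃ κ, z.2⁻¹ * z.1.2.1 i * z.2 =
          κ * (p₀.qOf lam (g + i) * tElt (lam i) (p₀.X i) * (p₀.qOf lam (g + i))⁻¹) * κ⁻¹) →
      ∃ q x, Up q ∧ z.2⁻¹ * z.1.2.1 i * z.2 = q * tElt (lam i) x * q⁻¹ ∧
        (q, tZ (lam i) x) ∈ Vp i := by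
    refine eventually_all.2 fun i => ?_
    have hG : Continuous fun z : XS × SL (n + 1) ℂ => z.2⁻¹ * z.1.2.1 i * z.2 :=
      (continuous_snd.inv.mul ((continuous_apply i).comp
        ((continuous_fst.comp continuous_snd).comp continuous_fst))).mul continuous_snd
    have hG0 : p₀.gau⁻¹ * (p₀.outs lam).2.1 i * p₀.gau =
        p₀.qOf lam (g + i) * tElt (lam i) (p₀.X i) * (p₀.qOf lam (g + i))⁻¹ := by
      simp only [Par.outs, Par.outC, Par.frame]; group
    have ht : Tendsto (fun z : XS × SL (n + 1) ℂ => z.2⁻¹ * z.1.2.1 i * z.2)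
        (𝓝 (p₀.outs lam, p₀.gau))
        (𝓝 (p₀.qOf lam (g + i) * tElt (lam i) (p₀.X i) * (p₀.qOf lam (g + i))⁻¹)) := by
      have := hG.tendsto (p₀.outs lam, p₀.gau)
      rwa [hG0] at this
    exact ht.eventually (punct_near (lam i) (p₀.X i) (hqup _) (hVp i))
  obtain ⟨SX, hSX, SL', hSL', hXL⟩ := mem_nhds_prod_iff.1 (hh.and hpn)
  -- the gauge
  have hlu := lu_near (L₀ := p₀.gau) (U₀ := 1) (loOf_lo _) (loOf_uni _) Up.one
    (prod_mem_nhds hSL' univ_mem)
  rw [mul_one] at hlu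
  have hV' : {κ : SL (n + 1) ℂ | ∃ L U, Lo L ∧ Uni L ∧ Up U ∧ κ * p₀.gau = L * U ∧
      (L, U) ∈ SL' ×ˢ Set.univ} ∈ 𝓝 1 := by
    have hc : Continuous fun κ : SL (n + 1) ℂ => κ * p₀.gau :=
      continuous_id.mul continuous_const
    have ht : Tendsto (fun κ : SL (n + 1) ℂ => κ * p₀.gau) (𝓝 1) (𝓝 p₀.gau) := by
      simpa using hc.tendsto 1
    exact ht.eventually hlu
  have hF : ∀ᶠ X : XS in 𝓝 (p₀.outs lam), (∃ κ, X.2.2 = κ * p₀.outF lam * κ⁻¹) →
      ∃ κ ∈ {κ : SL (n + 1) ℂ | ∃ L U, Lo L ∧ Uni L ∧ Up U ∧ κ * p₀.gau = L * U ∧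
        (L, U) ∈ SL' ×ˢ Set.univ}, X.2.2 = κ * p₀.outF lam * κ⁻¹ :=
    ((continuous_snd.comp continuous_snd).continuousAt (x := p₀.outs lam)).eventually
      (sl_orbit_section (T := p₀.outF lam) hV')
  filter_upwards [hSX, hF] with X hXS hXF hcC hcF hrel
  obtain ⟨κ, ⟨L, U, hL, hL1, hU, hLU, hLm, -⟩, hκ⟩ := hXF hcF
  obtain ⟨hhX, hpX⟩ := hXL (show (X, L) ∈ SX ×ˢ SL' from ⟨hXS, hLm⟩)
  choose h hA hB hV using hhX
  choose q x hq hC hVq using fun i => hpX i (by
    obtain ⟨c, hc⟩ := hcC i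
    refine ⟨L⁻¹ * c * p₀.gau, ?_⟩
    simp only
    rw [hc, Par.outC, Par.frame]
    group)
  set b : BD := (fun i => ((h i).P, (h i).Z), fun i => (q i, tZ (lam i) (x i)))
  obtain ⟨J, hJq, -⟩ := hS (show b ∈ S₁ ×ˢ S₂ from
    ⟨hI₁ fun i _ => hV i, hI₂ fun i _ => hVq i⟩)
    (fun j => by
      show Up (bP b j)
      simp only [bP, b]; split_ifs
      exacts [(h _).P_up, Up.one])
    (fun j => by
      show Up (bZ b j)
      simp only [bZ, b]; split_ifs
      exacts [(h _).Z_up, tZ_up _ _, Up.one])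
    (fun j => by
      show Up (if j ≤ m then bq b j else base j)
      simp only [bq, b]; split_ifs
      exacts [hqup j, hq _, Up.one, (st_up _ p₀.PB_up (p₀.ZB_up lam) p₀.q0_up j).2.2])
  set Q0 : SL (n + 1) ℂ := bq b 0
  have hbqu : ∀ j, Up (bq b j) := fun j => by
    simp only [bq, b]; split_ifs
    exacts [hqup j, hq _, Up.one]
  have hΨq0 : (Ψ b).2.2 0 = Q0 := by
    show (if 0 ≤ m then bq b 0 else base 0) = bq b 0
    rw [if_pos (Nat.zero_le m)]
  have hJq' : ∀ j ≤ m, (st (bP b) (bZ b) Q0 J j).2.2 = bq b j := fun j hj => by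
    have := hJq j hj
    rw [hΨq0] at this
    refine this.trans ?_
    show (if j ≤ m then bq b j else base j) = bq b j
    rw [if_pos hj]
  obtain ⟨qd, qu, hq0⟩ := exists_upOf (hbqu 0)
  set s := st (bP b) (bZ b) Q0 J m with hs
  have hsup : Up s.1 ∧ Up s.2.1 := by
    have := st_up (PB := bP b) (ZB := bZ b) (q0 := Q0) J
      (fun j => by simp only [bP, b]; split_ifs; exacts [(h _).P_up, Up.one])
      (fun j => by simp only [bZ, b]; split_ifs; exacts [(h _).Z_up, tZ_up _ _, Up.one]) (hbqu 0) m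
    exact ⟨this.1, this.2.1⟩
  set R := U * p₀.R lam * U⁻¹ with hRdef
  have hRup : Up R := (hU.mul (p₀.R_up lam)).mul hU.inv
  have hFe : X.2.2 = L * R⁻¹ * L⁻¹ := by
    have hκ' : κ = L * U * p₀.gau⁻¹ := by rw [← hLU]; group
    rw [hκ, hκ', Par.outF, hRdef]; group
  -- the product of the blocks
  let F : ℕ → SL (n + 1) ℂ := fun j =>
    L * (bq b j * (bP b j * wl (n + 1) * bZ b j) * (bq b j)⁻¹) * L⁻¹
  have hFh : ∀ i : Fin g, F i = (X.1 i).1 * (X.1 i).2 * (X.1 i).1⁻¹ * (X.1 i).2⁻¹ := fun i => by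
    simp only [F, bP, bZ, bq, b, dif_pos i.isLt, if_pos i.isLt, Fin.eta, ← HPar.comm_eq, hA, hB]
    group
  have hFp : ∀ i : Fin k, F (g + i) = X.2.1 i := fun i => by
    simp only [F, bP, bZ, bq, b, show ¬ g + (i : ℕ) < g by omega, dif_neg, if_neg, not_false_iff,
      Nat.add_sub_cancel_left, dif_pos i.isLt, Fin.eta, one_mul, ← tElt_eq, ← hC i]
    group
  have hprod : ((List.range (g + k)).map fun j =>
      bq b j * (bP b j * wl (n + 1) * bZ b j) * (bq b j)⁻¹).prod = R := by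
    have e1 := ofFn_range (g := g) (k := k) F
    simp only [hFh, hFp] at e1
    have hc : ∀ (G : ℕ → SL (n + 1) ℂ) (l : List ℕ),
        (l.map fun j => L * G j * L⁻¹).prod = L * (l.map G).prod * L⁻¹ := by
      intro G l
      induction l with
      | nil => simp
      | cons a l ih => simp only [List.map_cons, List.prod_cons, ih]; group
    rw [show (fun i : Fin k => X.2.1 i) = X.2.1 from rfl] at e1
    rw [e1, hFe] at hrel
    simp only [F, hc] at hrel
    calc _ = L⁻¹ * (L * ((List.range (g + k)).map fun j =>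
          bq b j * (bP b j * wl (n + 1) * bZ b j) * (bq b j)⁻¹).prod * L⁻¹ *
            (L * R⁻¹ * L⁻¹)) * L * R := by group
      _ = R := by rw [hrel]; group
  -- the closing joint
  set W := s.2.1 * bq b (m + 1) * bP b (m + 1) with hW
  have hZup : Up (bZ b (m + 1)) := by
    simp only [bZ, b]; split_ifs
    exacts [(h _).Z_up, tZ_up _ _, Up.one]
  have hWup : Up W := (hsup.2.mul (hbqu _)).mul (by
    simp only [bP, b]; split_ifs
    exacts [(h _).P_up, Up.one])
  have hWlo : Lo W := by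
    rw [hm, List.range_succ, List.map_append, List.prod_append, List.map_cons, List.map_nil,
      List.prod_cons, List.prod_nil, mul_one] at hprod
    have e : ((List.range (m + 1)).map fun j =>
        bq b j * (bP b j * wl (n + 1) * bZ b j) * (bq b j)⁻¹) =
        (List.range (m + 1)).map (elt (bP b) (bZ b) Q0 J) := by
      refine List.map_congr_left fun j hj => ?_
      rw [List.mem_range] at hj
      rw [elt, hJq' j (by omega)]
    rw [e, prod_elt, ← hs] at hprod
    have hWe : W = cw' (s.1⁻¹ * R * bq b (m + 1) * (bZ b (m + 1))⁻¹ * om⁻¹) := by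
      rw [← hprod, hW]
      simp only [cw', om]
      group
    rw [hWe]
    exact ((((hsup.1.inv.mul hRup).mul (hbqu _)).mul hZup.inv).mul om_up.inv).cw'
  obtain ⟨t, u, ht⟩ := exists_upOf hWup
  have htW : diOf t = W := by
    refine Matrix.SpecialLinearGroup.ext _ _ fun i j => ?_
    rcases lt_trichotomy i j with h | rfl | h
    · rw [diOf_lo t i j h, hWlo i j h]
    · rw [← ht, diOf, upOf_diag, upOf_diag]
    · rw [diOf_up t i j h, hWup i j h]
  set p : Par n g k ℂ :=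
    ⟨fun i j => L.1 i j, qd, qu, h, x, fun i => J i, t⟩ with hpdef
  have hPB : p.PB = bP b := rfl
  have hZB : p.ZB lam = bZ b := rfl
  have hgau : p.gau = L := exists_loOf hL hL1
  have hst : ∀ j ≤ m, st p.PB (p.ZB lam) p.q0 p.JN j = st (bP b) (bZ b) Q0 J j := fun j hj => by
    rw [hPB, hZB, show p.q0 = Q0 from hq0]
    exact st_congr fun i hi => dif_pos (show i < g + k by omega)
  have hqOf : ∀ j < g + k, p.qOf lam j = bq b j := fun j hj => by
    unfold Par.qOf
    split_ifs with hlt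
    · rw [hst j (by omega), hJq' j (by omega)]
    · obtain rfl : j = m + 1 := by omega
      rw [qL, hm', hst m le_rfl, show diOf p.t = W from htW, hW, hPB, ← hs]
      group
  have hframe : ∀ j < g + k, p.frame lam j = L * bq b j := fun j hj => by
    rw [Par.frame, hgau, hqOf j hj]
  have hAo : ∀ i, p.outA lam i = (X.1 i).1 := fun i => by
    have := i.isLt
    rw [Par.outA, hframe i (by omega), show (p.H i).A = (h i).A from rfl, hA]
    simp only [bq, if_pos i.isLt]
    group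
  have hBo : ∀ i, p.outB lam i = (X.1 i).2 := fun i => by
    have := i.isLt
    rw [Par.outB, hframe i (by omega), show (p.H i).B = (h i).B from rfl, hB]
    simp only [bq, if_pos i.isLt]
    group
  have hCo : ∀ i, p.outC lam i = X.2.1 i := fun i => by
    have := i.isLt
    rw [Par.outC, hframe _ (by omega), show p.X i = x i from rfl]
    simp only [bq, b, show ¬ g + (i : ℕ) < g by omega, if_neg, not_false_iff,
      Nat.add_sub_cancel_left, dif_pos i.isLt, Fin.eta]
    have := hC i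
    simp only at this
    rw [show L * q i * tElt (lam i) (x i) * (L * q i)⁻¹ =
      L * (q i * tElt (lam i) (x i) * (q i)⁻¹) * L⁻¹ by group, ← this]
    group
  have hFo : p.outF lam = X.2.2 := by
    have hrp := p.relation lam hN
    simp only [hAo, hBo, hCo] at hrp
    exact mul_left_cancel (hrp.trans hrel.symm)
  refine ⟨p, fun i => ?_, ?_⟩
  · have e : p.R lam = R := by
      have h1 := hFo
      rw [Par.outF, hgau, hFe] at h1
      exact inv_injective (mul_left_cancel (mul_right_cancel h1))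
    rw [e, ← hp i, hRdef, dg_mul (hU.mul (p₀.R_up lam)) hU.inv, dg_mul hU (p₀.R_up lam),
      mul_right_comm _ (dg (p₀.R lam) _) _, dg_inv_mul hU, one_mul]
  · exact Prod.ext (funext fun i => Prod.ext (hAo i) (hBo i)) (Prod.ext (funext hCo) hFo)

end Vale.Agent.P002.Frames
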