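import Vale.Agent.P002.Frames.Cell

/-! The chart factors as functions, builders of triangular elements, and naturality. -/

open Matrix

namespace Vale.Agent.P002.Frames

variable {n m : ℕ} {K L : Type*} [CommRing K] [CommRing L] (f : K →+* L)

/-- Apply a ring homomorphism to the entries. -/
abbrev mp : SL m K →* SL m L := Matrix.SpecialLinearGroup.map f

lemma mp_apply (A : SL m K) (i j : Fin m) : (mp f A).1 i j = f (A.1 i j) := rfl

variable {f} in
lemma Up.mp {A : SL m K} (hA : Up A) : Up (mp f A) := fun i j h => by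
  rw [mp_apply, hA i j h, map_zero]

lemma mp_ext1 (A : SL m K) : mp f (ext1 A) = ext1 (mp f A) := by
  refine Matrix.SpecialLinearGroup.ext _ _ fun i j => ?_
  rw [mp_apply, ext1_val, ext1_val]
  refine Fin.cases ?_ (fun i => ?_) i <;> refine Fin.cases ?_ (fun j => ?_) j <;> simp

lemma mp_wl : ∀ m : ℕ, mp f (wl (K := K) m) = wl m
  | 0 => map_one _
  | m + 1 => by
    rw [wl_succ, wl_succ, map_mul, mp_ext1, mp_wl m]
    congr 1
    refine Matrix.SpecialLinearGroup.ext _ _ fun i j => ?_
    rw [mp_apply]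
    refine Fin.cases ?_ (fun i => ?_) i <;> simp [cyc, cycM, Pi.single_apply, apply_ite f]

lemma mp_cw (A : SL m K) : mp f (cw A) = cw (mp f A) := by
  simp only [cw, map_mul, map_inv, mp_wl]

lemma mp_cw' (A : SL m K) : mp f (cw' A) = cw' (mp f A) := by
  simp only [cw', map_mul, map_inv, mp_wl]

/-- Parameters of the chart. -/
abbrev XP (n : ℕ) (K : Type*) [CommRing K] : Type _ := Fin n → Fin n → Kˣ

/-- Map parameters. -/
def mpX (x : XP n K) : XP n L := fun i j => Units.map (f : K →* L) (x i j)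

lemma mp_Vmat : ∀ (n : ℕ) (x : XP n K), mp f (Vmat n x) = Vmat n (mpX f x)
  | 0, _ => map_one _
  | n + 1, x => by
    show mp f (ext1 (Vmat n _) * bid (x 0)) = ext1 (Vmat n _) * bid (mpX f x 0)
    rw [map_mul, mp_ext1, mp_Vmat n]
    congr 1
    refine Matrix.SpecialLinearGroup.ext _ _ fun i j => ?_
    rw [mp_apply]
    refine Fin.cases ?_ (fun i => ?_) i <;>
      simp [bid, bidM, mpX, Pi.single_apply, Matrix.one_apply, apply_ite f]

/-- The left factor of the chart. -/
noncomputable def bOf (x : XP n K) : SL (n + 1) K := (chart_exists n x).choose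

/-- The right factor of the chart. -/
noncomputable def betaOf (x : XP n K) : SL (n + 1) K := (chart_exists n x).choose_spec.choose

lemma bOf_spec (x : XP n K) : Up (bOf x) ∧ Uni (bOf x) ∧ Up (betaOf x) ∧
    (∀ i : Fin n, (betaOf x).1 i.castSucc i.castSucc = dia n x i) ∧
      Vmat n x = bOf x * wl (n + 1) * betaOf x :=
  (chart_exists n x).choose_spec.choose_spec

lemma bOf_up (x : XP n K) : Up (bOf x) := (bOf_spec x).1

lemma bOf_uni (x : XP n K) : Uni (bOf x) := (bOf_spec x).2.1

lemma betaOf_up (x : XP n K) : Up (betaOf x) := (bOf_spec x).2.2.1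

lemma betaOf_diag (x : XP n K) (i : Fin n) :
    (betaOf x).1 i.castSucc i.castSucc = dia n x i := (bOf_spec x).2.2.2.1 i

lemma chart_eq (x : XP n K) : Vmat n x = bOf x * wl (n + 1) * betaOf x := (bOf_spec x).2.2.2.2

lemma bOf_unique {x : XP n K} {b β : SL (n + 1) K} (hb : Up b) (hb1 : Uni b) (hβ : Up β)
    (h : Vmat n x = b * wl (n + 1) * β) : bOf x = b ∧ betaOf x = β :=
  cell_unique (bOf_up x) (bOf_uni x) hb hb1 (betaOf_up x) hβ ((chart_eq x).symm.trans h)

lemma mp_chart (x : XP n K) : mp f (bOf x) = bOf (mpX f x) ∧ mp f (betaOf x) = betaOf (mpX f x) := by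
  have h := bOf_unique (x := mpX f x) (bOf_up x).mp (fun i => by rw [mp_apply, bOf_uni x, map_one])
    (betaOf_up x).mp (by rw [← mp_Vmat, chart_eq x, map_mul, map_mul, mp_wl])
  exact ⟨h.1.symm, h.2.symm⟩

/-- Parameters of the chart one size below. -/
def tailX (x : XP (n + 1) K) : XP n K := fun i j => x i.succ j.succ

lemma chart_succ (x : XP (n + 1) K) : ∃ u : Fin (n + 1) → K,
    bOf x = ext1 (bOf (tailX x)) * rowU u ∧
      (∀ (i : Fin (n + 1)) j, (betaOf x).1 i.castSucc j =
        (ext1 (betaOf (tailX x)) * bid (x 0)).1 i.succ j) ∧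
      ∀ j : Fin (n + 1), ∑ i, (u ᵥ* (wl (K := K) (n + 1)).1) i *
        (ext1 (betaOf (tailX x)) * bid (x 0)).1 i.succ j.castSucc =
          (Pi.single 0 1 : Fin (n + 1) → K) j := by
  obtain ⟨u, N, hN, hNs, -, hu, he⟩ :=
    chart_step (b' := bOf (tailX x)) (betaOf_up (tailX x)) (x 0)
  rw [← chart_eq] at he
  have h := bOf_unique (x := x) ((bOf_up _).ext1.mul (rowU_up u))
    (Uni.mul_up (bOf_up _).ext1 (rowU_up u) (bOf_uni _).ext1 (rowU_uni u)) hN he
  exact ⟨u, h.1, fun i j => by rw [h.2, hNs], hu⟩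

/-- An upper triangular element with free diagonal and free entries. -/
def upOf (d : Fin n → Kˣ) (u : Fin (n + 1) → Fin (n + 1) → K) : SL (n + 1) K :=
  ⟨Matrix.of fun i j => if i < j then u i j else
      if i = j then ((Fin.lastCases (∏ k, d k)⁻¹ d i : Kˣ) : K) else 0, by
    rw [det_of_isUpperTriangular (fun i j h => by
      have h' : j < i := h
      simp [h'.not_gt, h'.ne']), Fin.prod_univ_castSucc]
    simp [← Units.coe_prod]⟩

/-- A lower unitriangular element. -/
def loOf (u : Fin (n + 1) → Fin (n + 1) → K) : SL (n + 1) K :=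
  ⟨Matrix.of fun i j => if j < i then u i j else if i = j then 1 else 0, by
    rw [det_of_isLowerTriangular _ (fun i j h => by
      have h' : i < j := h
      simp [h'.not_gt, h'.ne])]
    exact Finset.prod_eq_one fun i _ => by simp⟩

/-- A diagonal element. -/
def diOf (d : Fin n → Kˣ) : SL (n + 1) K := upOf d 0

lemma upOf_up (d : Fin n → Kˣ) (u : Fin (n + 1) → Fin (n + 1) → K) : Up (upOf d u) :=
  fun i j h => by simp [upOf, h.not_gt, h.ne']

lemma upOf_diag (d : Fin n → Kˣ) (u : Fin (n + 1) → Fin (n + 1) → K) (i : Fin (n + 1)) :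
    (upOf d u).1 i i = ((Fin.lastCases (∏ k, d k)⁻¹ d i : Kˣ) : K) := by simp [upOf]

lemma diOf_up (d : Fin n → Kˣ) : Up (diOf d) := upOf_up d 0

lemma diOf_lo (d : Fin n → Kˣ) : Lo (diOf d) := fun i j h => by
  simp [diOf, upOf, h]

lemma exists_upOf {Z : SL (n + 1) K} (hZ : Up Z) : ∃ d u, upOf d u = Z := by
  let d : Fin (n + 1) → Kˣ := fun i => (IsUnit.of_mul_eq_one _ (hZ.inv_diag i)).unit
  refine ⟨fun i => d i.castSucc, fun i j => Z.1 i j, Matrix.SpecialLinearGroup.ext _ _ fun i j => ?_⟩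
  rcases lt_trichotomy i j with h | rfl | h
  · simp [upOf, h]
  · rw [upOf_diag]
    refine Fin.lastCases ?_ (fun k => ?_) i
    · rw [Fin.lastCases_last]
      have hdet : Z.1.det = 1 := Z.2
      rw [det_of_isUpperTriangular (fun a b h => hZ a b h), Fin.prod_univ_castSucc] at hdet
      refine Units.inv_eq_of_mul_eq_one_right (a := Z.1 (Fin.last n) (Fin.last n)) ?_
      simpa [d, Units.coe_prod] using hdet
    · simp [d]
  · rw [hZ i j h]; exact upOf_up _ _ i j h

lemma exists_loOf {M : SL (n + 1) K} (hM : Lo M) (h1 : Uni M) : loOf (fun i j => M.1 i j) = M := by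
  refine Matrix.SpecialLinearGroup.ext _ _ fun i j => ?_
  rcases lt_trichotomy i j with h | rfl | h
  · simp [loOf, h.not_gt, h.ne, hM i j h]
  · simp [loOf, h1 i]
  · simp [loOf, h]

lemma loOf_lo (u : Fin (n + 1) → Fin (n + 1) → K) : Lo (loOf u) := fun i j h => by
  simp [loOf, h.not_gt, h.ne]

lemma loOf_uni (u : Fin (n + 1) → Fin (n + 1) → K) : Uni (loOf u) := fun i => by simp [loOf]

lemma mp_upOf (d : Fin n → Kˣ) (u : Fin (n + 1) → Fin (n + 1) → K) :
    mp f (upOf d u) = upOf (fun i => Units.map (f : K →* L) (d i)) fun i j => f (u i j) := by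
  refine Matrix.SpecialLinearGroup.ext _ _ fun i j => ?_
  rw [mp_apply]
  simp only [upOf, Matrix.of_apply, apply_ite f, map_zero]
  congr 2
  refine Fin.lastCases ?_ (fun k => ?_) i
  · rw [Fin.lastCases_last, Fin.lastCases_last, ← map_prod, ← map_inv]; rfl
  · simp

lemma mp_loOf (u : Fin (n + 1) → Fin (n + 1) → K) :
    mp f (loOf u) = loOf fun i j => f (u i j) := by
  refine Matrix.SpecialLinearGroup.ext _ _ fun i j => ?_
  rw [mp_apply]
  simp [loOf, apply_ite f]

lemma mp_diOf (d : Fin n → Kˣ) :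
    mp f (diOf d) = diOf fun i => Units.map (f : K →* L) (d i) := by
  rw [diOf, diOf, mp_upOf]
  congr 1
  funext i j
  simp

/-- The square of the longest element. -/
def om : SL (n + 1) K := wl (n + 1) * wl (n + 1)

lemma om_off (i j : Fin (n + 1)) (h : i ≠ j) : (om (K := K)).1 i j = 0 := by
  rw [om, mul_val, wl_mul_apply, wl_supp (n + 1) i.rev j]
  · simp
  · intro e
    refine h (Fin.ext ?_)
    have hi := i.isLt
    rw [Fin.val_rev] at e
    omega

lemma om_up : Up (om (K := K) (n := n)) := fun i j h => om_off i j h.ne'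

lemma om_lo : Lo (om (K := K) (n := n)) := fun i j h => om_off i j h.ne

lemma mp_om : mp f (om (n := n)) = om := by simp only [om, map_mul, mp_wl]

/-- Parameters of a joint. -/
abbrev Jt (n : ℕ) (K : Type*) [CommRing K] : Type _ := (Fin n → Kˣ) × XP n K

/-- Map a joint. -/
def mpJ (J : Jt n K) : Jt n L := (fun i => Units.map (f : K →* L) (J.1 i), mpX f J.2)

/-- The upper triangular joint. -/
def jm (J : Jt n K) : SL (n + 1) K := diOf J.1 * cw' (Vmat n J.2)

lemma jm_up (J : Jt n K) : Up (jm J) := (diOf_up _).mul (Vmat_lo n _).1.cw'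

lemma jm_diag (J : Jt n K) (i : Fin (n + 1)) : (jm J).1 i i = (diOf J.1).1 i i := by
  rw [jm, (diOf_up _).mul_diag (Vmat_lo n _).1.cw', (Vmat_lo n _).2.cw', mul_one]

lemma mp_jm (J : Jt n K) : mp f (jm J) = jm (mpJ f J) := by
  rw [jm, jm, map_mul, mp_diOf, mp_cw', mp_Vmat]; rfl

/-- Gluing two cells through a joint. -/
lemma glue {P Z p Z' : SL (n + 1) K} {J : Jt n K} (h : Z * p = jm J) :
    P * wl (n + 1) * Z * (p * wl (n + 1) * Z') =
      P * cw (diOf J.1) * bOf J.2 * wl (n + 1) * (betaOf J.2 * om * Z') := by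
  calc P * wl (n + 1) * Z * (p * wl (n + 1) * Z')
      = P * wl (n + 1) * (Z * p) * wl (n + 1) * Z' := by simp only [mul_assoc]
    _ = P * cw (diOf J.1) * Vmat n J.2 * om * Z' := by rw [h, jm]; simp only [cw, cw', om]; group
    _ = _ := by rw [chart_eq]; simp only [mul_assoc]

end Vale.Agent.P002.Frames
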