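import Mathlib

/-! Regular (cyclic) matrices: a triangular criterion, conjugacy, and ordering of eigenvalues. -/

open Matrix

namespace Vale.Agent.P002.Frames

/-- A matrix with a cyclic vector. -/
def Cyclic {r : ℕ} (T : Matrix (Fin r) (Fin r) ℂ) : Prop :=
  ∃ v : Fin r → ℂ, (Matrix.of fun i j : Fin r => (T ^ (j : ℕ) *ᵥ v) i).det ≠ 0

/-- Equal diagonal entries are adjacent. -/
def Grouped {r : ℕ} (μ : Fin r → ℂ) : Prop :=
  ∀ i j l : Fin r, i ≤ j → j ≤ l → μ i = μ l → μ j = μ i

/-- The matrix with columns `v, T v, T² v, …`. -/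
private def kry {r : ℕ} (T : Matrix (Fin r) (Fin r) ℂ) (v : Fin r → ℂ) :
    Matrix (Fin r) (Fin r) ℂ :=
  Matrix.of fun i j : Fin r => (T ^ (j : ℕ) *ᵥ v) i

private lemma pow_mulVec_sum {r : ℕ} (T : Matrix (Fin r) (Fin r) ℂ) (v : Fin r → ℂ)
    {p : Polynomial ℂ} {n : ℕ} (hp : p.natDegree < n) :
    Polynomial.aeval T p *ᵥ v = ∑ j : Fin n, p.coeff j • (T ^ (j : ℕ) *ᵥ v) := by
  rw [Polynomial.aeval_eq_sum_range' hp, Matrix.sum_mulVec, Finset.sum_range]
  simp only [smul_mulVec]

/-- Without a cyclic vector `v` some left eigenvector kills the whole orbit of `v`. -/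
private lemma exists_left_eigen {r : ℕ} {T : Matrix (Fin r) (Fin r) ℂ} {v : Fin r → ℂ}
    (h : (kry T v).det = 0) :
    ∃ (ω : Fin r → ℂ) (μ : ℂ), ω ≠ 0 ∧ ω ᵥ* T = μ • ω ∧ ∀ j : ℕ, ω ⬝ᵥ (T ^ j *ᵥ v) = 0 := by
  obtain ⟨ω, hω, hωK⟩ := Matrix.exists_vecMul_eq_zero_iff.2 h
  let U : Submodule ℂ (Fin r → ℂ) :=
    { carrier := {ω | ∀ j : ℕ, ω ⬝ᵥ (T ^ j *ᵥ v) = 0}
      add_mem' := fun ha hb j => by rw [add_dotProduct, ha j, hb j, add_zero]
      zero_mem' := fun j => zero_dotProduct _
      smul_mem' := fun c a ha j => by rw [smul_dotProduct, ha j, smul_zero] }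
  have hωU : ω ∈ U := by
    intro j
    have hr : 0 < r := by
      rcases Nat.eq_zero_or_pos r with rfl | hr
      · exact absurd (funext fun i => i.elim0) hω
      · exact hr
    have : Nonempty (Fin r) := ⟨⟨0, hr⟩⟩
    rw [Matrix.pow_eq_aeval_mod_charpoly T j,
      pow_mulVec_sum T v (n := r) (by
        have h2 := Polynomial.natDegree_modByMonic_lt (Polynomial.X ^ j) T.charpoly_monic (by
          intro h1
          have := congrArg Polynomial.natDegree h1
          rw [Matrix.charpoly_natDegree_eq_dim, Polynomial.natDegree_one, Fintype.card_fin] at this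
          omega)
        rw [Matrix.charpoly_natDegree_eq_dim, Fintype.card_fin] at h2
        exact h2),
      dotProduct_sum]
    refine Finset.sum_eq_zero fun k _ => ?_
    rw [dotProduct_smul, show ω ⬝ᵥ (T ^ (k : ℕ) *ᵥ v) = (ω ᵥ* kry T v) k from rfl, hωK,
      Pi.zero_apply, smul_zero]
  have hinv : ∀ x ∈ U, Matrix.vecMulLinear T x ∈ U := by
    intro x hx j
    rw [Matrix.vecMulLinear_apply, ← dotProduct_mulVec, mulVec_mulVec, ← pow_succ']
    exact hx (j + 1)
  have : Nontrivial U := ⟨⟨⟨ω, hωU⟩, 0, fun e => hω (congrArg Subtype.val e)⟩⟩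
  obtain ⟨μ, hμ⟩ := Module.End.exists_eigenvalue ((Matrix.vecMulLinear T).restrict hinv)
  obtain ⟨x, hx⟩ := hμ.exists_hasEigenvector
  exact ⟨x, μ, fun e => hx.2 (Subtype.ext e), congrArg Subtype.val hx.apply_eq_smul, x.2⟩

private lemma cyclic_aux : ∀ {n : ℕ} {T : Matrix (Fin (n + 1)) (Fin (n + 1)) ℂ},
    (∀ i j, j < i → T i j = 0) → Grouped (fun i => T i i) →
    (∀ i : Fin n, T i.castSucc i.castSucc = T i.succ i.succ → T i.castSucc i.succ ≠ 0) →
    Cyclic T := by
  intro n
  induction n with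
  | zero =>
    intro T _ _ _
    exact ⟨fun _ => 1, by simp⟩
  | succ n ih =>
    intro T hT hg hs
    set T' := T.submatrix (Fin.succ : Fin (n + 1) → _) Fin.succ with hT'
    obtain ⟨v', hv'⟩ := ih (T := T') (fun i j h => hT _ _ (Fin.succ_lt_succ_iff.2 h))
      (fun i j l h1 h2 e => hg i.succ j.succ l.succ (Fin.succ_le_succ_iff.2 h1)
        (Fin.succ_le_succ_iff.2 h2) e)
      (fun i h => by
        have := hs i.succ
        simp only [Fin.castSucc_succ] at this
        exact this h)
    have hT0 : ∀ k : Fin (n + 1), T k.succ 0 = 0 := fun k => hT _ _ (Fin.succ_pos k)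
    have hmv : ∀ (w : Fin (n + 2) → ℂ) (k : Fin (n + 1)),
        (T *ᵥ w) k.succ = (T' *ᵥ fun l => w l.succ) k := by
      intro w k
      simp [mulVec, dotProduct, Fin.sum_univ_succ (n := n + 1), hT0, hT']
    -- the tail of `T ^ j (c, v')` is `T' ^ j v'`
    have htail : ∀ (c : ℂ) (j : ℕ) (k : Fin (n + 1)),
        (T ^ j *ᵥ Fin.cons c v') k.succ = (T' ^ j *ᵥ v') k := by
      intro c j
      induction j with
      | zero => intro k; simp
      | succ j ihj =>
        intro k
        rw [pow_succ', ← mulVec_mulVec, pow_succ', ← mulVec_mulVec]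
        rw [hmv, show (fun l : Fin (n + 1) => (T ^ j *ᵥ Fin.cons c v') l.succ) = T' ^ j *ᵥ v' from
          funext ihj]
    -- a bad vector comes from a left eigenvector with first entry one
    have key : ∀ c : ℂ, (kry T (Fin.cons c v')).det = 0 → ∃ ω : Fin (n + 2) → ℂ,
        ω 0 = 1 ∧ ω ᵥ* T = T 0 0 • ω ∧ c + ∑ k : Fin (n + 1), ω k.succ * v' k = 0 := by
      intro c hc
      obtain ⟨ω, μ, hω, hωT, hωv⟩ := exists_left_eigen hc
      have h0 : ω 0 ≠ 0 := by
        intro h0
        refine hv' (Matrix.exists_vecMul_eq_zero_iff.1 ⟨fun k => ω k.succ, fun h => hω ?_, ?_⟩)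
        · funext i; exact Fin.cases h0 (fun k => congrFun h k) i
        · funext j
          have := hωv j
          simp only [dotProduct, Fin.sum_univ_succ (n := n + 1), h0, zero_mul, zero_add, htail] at this
          exact this
      have hμ : μ = T 0 0 := by
        have := congrFun hωT 0
        simp only [vecMul, dotProduct, Fin.sum_univ_succ (n := n + 1), hT0, mul_zero,
          Finset.sum_const_zero, add_zero, Pi.smul_apply, smul_eq_mul] at this
        exact mul_left_cancel₀ h0 (by rw [this, mul_comm])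
      refine ⟨(ω 0)⁻¹ • ω, by simp [h0], by rw [smul_vecMul, hωT, hμ, smul_comm], ?_⟩
      have := hωv 0
      simp only [pow_zero, one_mulVec, dotProduct, Fin.sum_univ_succ (n := n + 1), Fin.cons_zero,
        Fin.cons_succ] at this
      calc c + ∑ k : Fin (n + 1), ((ω 0)⁻¹ • ω) k.succ * v' k
          = (ω 0)⁻¹ * (ω 0 * c + ∑ k : Fin (n + 1), ω k.succ * v' k) := by
            rw [mul_add, ← mul_assoc, inv_mul_cancel₀ h0, one_mul, Finset.mul_sum]
            simp only [Pi.smul_apply, smul_eq_mul, mul_assoc]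
        _ = 0 := by rw [this, mul_zero]
    by_cases h0 : (kry T (Fin.cons 0 v')).det = 0
    · refine ⟨Fin.cons 1 v', fun h1 => ?_⟩
      obtain ⟨a, ha0, haT, hav⟩ := key 0 h0
      obtain ⟨b, hb0, hbT, hbv⟩ := key 1 h1
      -- the equation in the first column after `0`
      have hcol : T 0 (Fin.succ 0) = (T 0 0 - T (Fin.succ 0) (Fin.succ 0)) * a (Fin.succ 0) := by
        have := congrFun haT (Fin.succ 0)
        simp only [vecMul, dotProduct, Fin.sum_univ_succ (n := n + 1), ha0, one_mul, Pi.smul_apply,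
          smul_eq_mul] at this
        rw [Finset.sum_eq_single (0 : Fin (n + 1)) (fun k _ hk => by
          rw [hT k.succ _ (Fin.succ_lt_succ_iff.2 (Fin.pos_iff_ne_zero.2 hk)), mul_zero])
          (by simp)] at this
        linear_combination this
      have hne : T 0 0 ≠ T (Fin.succ 0) (Fin.succ 0) := by
        intro e
        have := hs 0
        simp only [Fin.castSucc_zero] at this
        exact this e (by rw [hcol, e, sub_self, zero_mul])
      have hdiag : ∀ k : Fin (n + 1), T 0 0 ≠ T k.succ k.succ := fun k e =>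
        hne (hg 0 (Fin.succ 0) k.succ (Fin.zero_le _) (Fin.succ_le_succ_iff.2 (Fin.zero_le _)) e).symm
      -- so left eigenvectors with first entry one are unique
      have hd : (fun k : Fin (n + 1) => a k.succ - b k.succ) ᵥ* (T' - T 0 0 • 1) = 0 := by
        funext l
        have h1 := congrFun haT l.succ
        have h2 := congrFun hbT l.succ
        simp only [vecMul, dotProduct, Fin.sum_univ_succ (n := n + 1), ha0, hb0, Pi.smul_apply,
          smul_eq_mul] at h1 h2
        rw [vecMul_sub, vecMul_smul, vecMul_one, Pi.sub_apply, Pi.smul_apply, smul_eq_mul,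
          Pi.zero_apply]
        simp only [vecMul, dotProduct, hT', submatrix_apply, sub_mul, Finset.sum_sub_distrib]
        linear_combination h1 - h2
      have hdet : (T' - T 0 0 • 1).det ≠ 0 := by
        rw [Matrix.det_of_isUpperTriangular]
        · refine Finset.prod_ne_zero_iff.2 fun k _ => ?_
          simp only [Matrix.sub_apply, Matrix.smul_apply, Matrix.one_apply_eq, smul_eq_mul, mul_one,
            hT', submatrix_apply]
          exact sub_ne_zero.2 (hdiag k).symm
        · intro i j h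
          have h' : j < i := h
          simp [hT', hT _ _ (Fin.succ_lt_succ_iff.2 h'), Matrix.one_apply_ne h'.ne']
      have hab : ∀ k : Fin (n + 1), a k.succ = b k.succ := fun k =>
        sub_eq_zero.1 (congrFun (Matrix.eq_zero_of_vecMul_eq_zero hdet hd) k)
      rw [Finset.sum_congr rfl fun k _ => by rw [hab k]] at hav
      exact one_ne_zero (α := ℂ) (by linear_combination hbv - hav)
    · exact ⟨_, h0⟩

/-- A triangular matrix with grouped diagonal, nonzero above each repeated pair, is cyclic. -/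
lemma cyclic_of_triangular {n : ℕ} {T : Matrix (Fin (n + 1)) (Fin (n + 1)) ℂ}
    (hT : ∀ i j, j < i → T i j = 0) (hg : Grouped fun i => T i i)
    (hs : ∀ i : Fin n, T i.castSucc i.castSucc = T i.succ i.succ → T i.castSucc i.succ ≠ 0) :
    Cyclic T :=
  cyclic_aux hT hg hs

/-- The companion matrix of a polynomial of degree `r`. -/
private def cmp {r : ℕ} (p : Polynomial ℂ) : Matrix (Fin r) (Fin r) ℂ :=
  Matrix.of fun i j : Fin r =>
    if (j : ℕ) + 1 < r then (if (i : ℕ) = (j : ℕ) + 1 then 1 else 0) else -p.coeff i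

private lemma mul_kry {r : ℕ} (T : Matrix (Fin r) (Fin r) ℂ) (v : Fin r → ℂ) :
    T * kry T v = kry T v * cmp T.charpoly := by
  ext i j
  have hl : (T * kry T v) i j = (T ^ ((j : ℕ) + 1) *ᵥ v) i := by
    rw [pow_succ', ← mulVec_mulVec]; rfl
  rw [hl, Matrix.mul_apply]
  by_cases hj : (j : ℕ) + 1 < r
  · rw [Finset.sum_eq_single (⟨(j : ℕ) + 1, hj⟩ : Fin r)]
    · simp [kry, cmp, hj]
    · intro k _ hk
      simp [cmp, hj, show (k : ℕ) ≠ (j : ℕ) + 1 from fun e => hk (Fin.ext e)]
    · simp
  · have hjr : (j : ℕ) + 1 = r := by omega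
    have h0 : ∀ M : Matrix (Fin r) (Fin r) ℂ, M = 0 → (M *ᵥ v) i = 0 := fun M hM => by simp [hM]
    have hch := h0 _ (Matrix.aeval_self_charpoly T)
    rw [pow_mulVec_sum T v (n := r + 1) (by
      rw [Matrix.charpoly_natDegree_eq_dim, Fintype.card_fin]; omega), Finset.sum_apply,
      Fin.sum_univ_castSucc] at hch
    have hlead : T.charpoly.coeff r = 1 := by
      have := T.charpoly_monic
      rw [Polynomial.Monic, Polynomial.leadingCoeff, Matrix.charpoly_natDegree_eq_dim,
        Fintype.card_fin] at this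
      exact this
    simp only [Fin.val_castSucc, Fin.val_last, hlead, Pi.smul_apply, smul_eq_mul, one_mul] at hch
    rw [hjr]
    simp only [kry, cmp, hj, Matrix.of_apply, if_false, mul_neg, Finset.sum_neg_distrib]
    rw [eq_neg_of_add_eq_zero_right hch]
    simp only [mul_comm]

/-- Cyclic matrices with one characteristic polynomial are conjugate by determinant one. -/
lemma conj_of_cyclic {r : ℕ} (hr : 0 < r) {A B : Matrix (Fin r) (Fin r) ℂ} (hA : Cyclic A)
    (hB : Cyclic B) (h : A.charpoly = B.charpoly) :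
    ∃ S : Matrix (Fin r) (Fin r) ℂ, S.det = 1 ∧ A = S * B * S.adjugate := by
  obtain ⟨u, hu⟩ := hA
  obtain ⟨w, hw⟩ := hB
  set K := kry A u
  set L := kry B w
  have hLu : IsUnit L.det := Ne.isUnit hw
  set S₀ := K * L⁻¹
  have hd : S₀.det ≠ 0 := by
    rw [det_mul, det_nonsing_inv, Ring.inverse_eq_inv']
    exact mul_ne_zero hu (inv_ne_zero hw)
  have hAS : A * S₀ = S₀ * B := by
    have hBL : cmp A.charpoly * L⁻¹ = L⁻¹ * B := by
      calc cmp A.charpoly * L⁻¹ = L⁻¹ * L * (cmp A.charpoly * L⁻¹) := by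
            rw [nonsing_inv_mul L hLu, one_mul]
        _ = L⁻¹ * (L * cmp A.charpoly) * L⁻¹ := by simp only [mul_assoc]
        _ = L⁻¹ * B := by
            rw [h, ← mul_kry, mul_assoc L⁻¹, mul_assoc B, mul_nonsing_inv L hLu, mul_one]
    rw [← mul_assoc, mul_kry, mul_assoc, hBL, ← mul_assoc]
  obtain ⟨c, hc⟩ := IsAlgClosed.exists_pow_nat_eq (S₀.det)⁻¹ hr
  have hdet : (c • S₀).det = 1 := by
    rw [det_smul, Fintype.card_fin, hc, inv_mul_cancel₀ hd]
  refine ⟨c • S₀, hdet, ?_⟩
  rw [show c • S₀ * B = A * (c • S₀) by rw [smul_mul_assoc, ← hAS, mul_smul_comm], mul_assoc,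
    mul_adjugate, hdet, one_smul, mul_one]

lemma Cyclic.conj {r : ℕ} {A S : Matrix (Fin r) (Fin r) ℂ} (hA : Cyclic A) (hS : S.det = 1) :
    Cyclic (S * A * S.adjugate) := by
  obtain ⟨v, hv⟩ := hA
  refine ⟨S *ᵥ v, ?_⟩
  have hS' : S.adjugate * S = 1 := by rw [adjugate_mul, hS, one_smul]
  have key : ∀ j : ℕ, (S * A * S.adjugate) ^ j *ᵥ (S *ᵥ v) = S *ᵥ (A ^ j *ᵥ v) := by
    intro j
    induction j with
    | zero => simp
    | succ j ih =>
      rw [pow_succ', ← mulVec_mulVec, ih, pow_succ', mulVec_mulVec, mulVec_mulVec, mulVec_mulVec,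
        mul_assoc _ S.adjugate S, hS', mul_one, mul_assoc]
  have e : (Matrix.of fun i j : Fin r => ((S * A * S.adjugate) ^ (j : ℕ) *ᵥ (S *ᵥ v)) i) =
      S * kry A v := by
    ext i j
    simp only [of_apply, key]
    rfl
  rw [e, det_mul, hS, one_mul]
  exact hv

/-- A grouped list of the eigenvalues. -/
lemma exists_grouped {r : ℕ} (A : Matrix (Fin r) (Fin r) ℂ) :
    ∃ μ : Fin r → ℂ, Grouped μ ∧ A.charpoly = ∏ i, (Polynomial.X - Polynomial.C (μ i)) := by
  classical
  let : LinearOrder ℂ := linearOrderOfSTO (α := ℂ) WellOrderingRel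
  have hcard : A.charpoly.roots.card = A.charpoly.natDegree :=
    (IsAlgClosed.splits A.charpoly).natDegree_eq_card_roots.symm
  set L : List ℂ := A.charpoly.roots.sort (fun a b : ℂ => a ≤ b) with hL
  have hlen : L.length = r := by
    rw [hL, Multiset.length_sort, hcard, Matrix.charpoly_natDegree_eq_dim, Fintype.card_fin]
  refine ⟨fun i => L.get (Fin.cast hlen.symm i), fun i j l hij hjl e => ?_, ?_⟩
  · have hm : Monotone fun i : Fin r => L.get (Fin.cast hlen.symm i) := fun a b hab =>
      (Multiset.pairwise_sort _ _).rel_get_of_le (by simpa using hab)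
    exact le_antisymm ((hm hjl).trans_eq e.symm) (hm hij)
  · conv_lhs => rw [← Polynomial.prod_multiset_X_sub_C_of_monic_of_roots_card_eq A.charpoly_monic hcard]
    rw [← Multiset.sort_eq A.charpoly.roots (fun a b : ℂ => a ≤ b), Multiset.map_coe,
      Multiset.prod_coe, ← hL, ← List.prod_ofFn]
    congr 1
    refine List.ext_getElem (by simp [hlen]) fun n h1 h2 => ?_
    simp

end Vale.Agent.P002.Frames
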