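import Vale.Agent.P002.Frames.Near
import Vale.Agent.P002.Frames.Maps
import Vale.Agent.P002.Frames.Regular

/-! Generating pairs in the big cell. -/

open Matrix Filter Topology

namespace Vale.Agent.P002.Frames

variable {n : ℕ}

/-- Complex square matrices. -/
abbrev CMat (r : ℕ) : Type := Matrix (Fin r) (Fin r) ℂ

/-- Burnside: without invariant subspaces an algebra of matrices is full. -/
lemma burnside {r : ℕ} (hr : 0 < r) (S : Subalgebra ℂ (CMat r))
    (h : ∀ W : Submodule ℂ (Fin r → ℂ), (∀ a ∈ S, ∀ w ∈ W, a *ᵥ w ∈ W) → W = ⊥ ∨ W = ⊤) :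
    S = ⊤ := by
  classical
  have hsm : ∀ (a : S) (w : Fin r → ℂ), a • w = a.1 *ᵥ w := fun a w => rfl
  haveI : IsScalarTower ℂ S (Fin r → ℂ) := ⟨fun c a w => by
    rw [hsm, hsm]; exact Matrix.smul_mulVec c a.1 w⟩
  haveI : Nonempty (Fin r) := ⟨⟨0, hr⟩⟩
  haveI : IsSimpleModule S (Fin r → ℂ) := by
    rw [isSimpleModule_iff]
    haveI : Nontrivial (Submodule S (Fin r → ℂ)) := ⟨⊥, ⊤, fun e => ?_⟩
    · refine ⟨fun W => ?_⟩
      rcases h (W.restrictScalars ℂ) (fun a ha w hw => hsm ⟨a, ha⟩ w ▸ W.smul_mem ⟨a, ha⟩ hw)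
        with e | e
      · exact Or.inl ((Submodule.restrictScalars_eq_bot_iff ..).1 e)
      · exact Or.inr ((Submodule.restrictScalars_eq_top_iff ..).1 e)
    · have : (Pi.single ⟨0, hr⟩ 1 : Fin r → ℂ) ∈ (⊥ : Submodule S (Fin r → ℂ)) := e ▸ trivial
      simpa using congrFun ((Submodule.mem_bot _).1 this) ⟨0, hr⟩
  refine Algebra.eq_top_iff.2 fun M => ?_
  have hsc := (IsSimpleModule.algebraMap_end_bijective_of_isAlgClosed ℂ
    (A := S) (V := Fin r → ℂ)).2
  let f : Module.End (Module.End S (Fin r → ℂ)) (Fin r → ℂ) :=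
    { toFun := fun w => M *ᵥ w
      map_add' := fun u w => Matrix.mulVec_add M u w
      map_smul' := fun g w => by
        obtain ⟨c, rfl⟩ := hsc g
        exact Matrix.mulVec_smul M c w }
  obtain ⟨a, ha⟩ := jacobson_density f (Finset.univ.image fun i => Pi.single i (1 : ℂ))
  have : M = a.1 := by
    ext i j
    have := congrFun (ha (Pi.single j 1) (Finset.mem_image_of_mem _ (Finset.mem_univ j))) i
    rw [hsm] at this
    simpa [f, Matrix.mulVec_single] using this
  exact this ▸ a.2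

/-- A cyclic matrix has finitely many invariant subspaces. -/
lemma finite_invariant {r : ℕ} {T : CMat r} (hT : Cyclic T) :
    {W : Submodule ℂ (Fin r → ℂ) | ∀ w ∈ W, T *ᵥ w ∈ W}.Finite := by
  classical
  obtain ⟨v, hv⟩ := hT
  let ψ : Polynomial ℂ →ₗ[ℂ] (Fin r → ℂ) :=
    { toFun := fun p => Polynomial.aeval T p *ᵥ v
      map_add' := fun p q => by rw [map_add, Matrix.add_mulVec]
      map_smul' := fun c p => by rw [map_smul, Matrix.smul_mulVec]; rfl }
  have hsurj : Function.Surjective ψ := by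
    intro x
    obtain ⟨c, hc⟩ := (Matrix.mulVec_surjective_iff_isUnit (A := Matrix.of fun i j : Fin r =>
      (T ^ (j : ℕ) *ᵥ v) i)).2 ((Matrix.isUnit_iff_isUnit_det _).2 (Ne.isUnit hv)) x
    refine ⟨∑ j, Polynomial.C (c j) * Polynomial.X ^ (j : ℕ), ?_⟩
    rw [map_sum, ← hc]
    ext i
    rw [Finset.sum_apply]
    show (∑ j : Fin r, (Polynomial.aeval T (Polynomial.C (c j) * Polynomial.X ^ (j : ℕ)) *ᵥ v) i) =
      ∑ j : Fin r, (T ^ (j : ℕ) *ᵥ v) i * c j
    refine Finset.sum_congr rfl fun j _ => ?_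
    rw [← Polynomial.smul_eq_C_mul, map_smul, Matrix.smul_mulVec, Pi.smul_apply, map_pow,
      Polynomial.aeval_X, smul_eq_mul, mul_comm]
  let F : Multiset ℂ → Submodule ℂ (Fin r → ℂ) := fun s =>
    ((Ideal.span {(s.map fun a => Polynomial.X - Polynomial.C a).prod} :
      Ideal (Polynomial ℂ)).restrictScalars ℂ).map ψ
  refine (T.charpoly.roots.powerset.toFinset.finite_toSet.image F).subset fun W hW => ?_
  have hall : ∀ (p : Polynomial ℂ) w, w ∈ W → Polynomial.aeval T p *ᵥ w ∈ W := by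
    intro p
    induction p using Polynomial.induction_on' with
    | add p q hp hq =>
      intro w hw
      rw [map_add, Matrix.add_mulVec]
      exact add_mem (hp w hw) (hq w hw)
    | monomial k c =>
      intro w hw
      rw [Polynomial.aeval_monomial, ← Algebra.smul_def, Matrix.smul_mulVec]
      refine W.smul_mem _ ?_
      induction k with
      | zero => rwa [pow_zero, Matrix.one_mulVec]
      | succ k ih => rw [pow_succ', ← Matrix.mulVec_mulVec]; exact hW _ ih
  let I : Ideal (Polynomial ℂ) :=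
    { carrier := {p | ψ p ∈ W}
      add_mem' := fun ha hb => by
        show ψ _ ∈ W
        rw [map_add]; exact add_mem ha hb
      zero_mem' := by
        show ψ 0 ∈ W
        rw [map_zero]; exact zero_mem _
      smul_mem' := fun p q hq => by
        show Polynomial.aeval T (p * q) *ᵥ v ∈ W
        rw [map_mul, ← Matrix.mulVec_mulVec]
        exact hall p _ hq }
  obtain ⟨g, hg⟩ := (IsPrincipalIdealRing.principal I).principal
  have hf : T.charpoly ∈ I := by
    show Polynomial.aeval T T.charpoly *ᵥ v ∈ W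
    rw [Matrix.aeval_self_charpoly, Matrix.zero_mulVec]; exact zero_mem _
  have hgf : g ∣ T.charpoly := Ideal.mem_span_singleton.1 (hg.le hf)
  have hf0 : T.charpoly ≠ 0 := T.charpoly_monic.ne_zero
  have hg0 : g ≠ 0 := ne_zero_of_dvd_ne_zero hf0 hgf
  refine ⟨g.roots, Multiset.mem_toFinset.2 (Multiset.mem_powerset.2
    (Polynomial.roots.le_of_dvd hf0 hgf)), ?_⟩
  have hI : Ideal.span {(g.roots.map fun a => Polynomial.X - Polynomial.C a).prod} = I := by
    rw [show I = Ideal.span {g} from hg]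
    refine Ideal.span_singleton_eq_span_singleton.2 ?_
    refine ⟨(Polynomial.isUnit_C.2 (Polynomial.leadingCoeff_ne_zero.2 hg0).isUnit).unit, ?_⟩
    rw [IsUnit.unit_spec, mul_comm]
    exact ((IsAlgClosed.splits g).eq_prod_roots).symm
  refine le_antisymm (Submodule.map_le_iff_le_comap.2 fun p hp => ?_) fun w hw => ?_
  · exact (hI ▸ hp : p ∈ I)
  · obtain ⟨p, rfl⟩ := hsurj w
    exact ⟨p, hI.symm ▸ (show p ∈ I from hw), rfl⟩

/-- Membership of inverses in a subalgebra. -/
lemma inv_mem_subalgebra {r : ℕ} {S : Subalgebra ℂ (CMat r)} {A : SL r ℂ} (hA : A.1 ∈ S) :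
    (A⁻¹).1 ∈ S := by
  let φ : Subalgebra.toSubmodule S →ₗ[ℂ] Subalgebra.toSubmodule S :=
    (LinearMap.mulLeft ℂ A.1).restrict fun x hx => S.mul_mem hA hx
  have hinj : Function.Injective φ := fun x y h => Subtype.ext <| by
    have h' : A.1 * x.1 = A.1 * y.1 := congrArg Subtype.val h
    simpa only [← mul_assoc, ← mul_val, inv_mul_cancel, one_val, one_mul] using
      congrArg ((A⁻¹).1 * ·) h'
  obtain ⟨x, hx⟩ := LinearMap.surjective_of_injective hinj ⟨1, S.one_mem⟩
  have hx' : A.1 * x.1 = 1 := congrArg Subtype.val hx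
  have : (A⁻¹).1 = x.1 := by
    calc (A⁻¹).1 = (A⁻¹).1 * (A.1 * x.1) := by rw [hx', mul_one]
      _ = x.1 := by rw [← mul_assoc, ← mul_val, inv_mul_cancel, one_val, one_mul]
  exact this ▸ x.2

/-- Some pair of the big cell generates the matrix algebra. -/
lemma gen_pair_cell : ∃ PA ZA PB ZB : SL (n + 1) ℂ, Up PA ∧ Up ZA ∧ Up PB ∧ Up ZB ∧
    Algebra.adjoin ℂ ({(PA * wl (n + 1) * ZA).1, (PB * wl (n + 1) * ZB).1} :
      Set (Matrix (Fin (n + 1)) (Fin (n + 1)) ℂ)) = ⊤ := by
  classical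
  let d : Fin n → ℂˣ := fun i => Units.mk0 ((2 ^ ((i : ℕ) + 1) : ℕ) : ℂ) (by simp)
  let U : SL (n + 1) ℂ := upOf (fun _ => 1) fun _ _ => 1
  have hU : Up U := upOf_up _ _
  have hUd : ∀ i j : Fin (n + 1), i ≤ j → U.1 i j = 1 := fun i j h => by
    rcases h.lt_or_eq with h | rfl
    · simp [U, upOf, h]
    · simp only [U, upOf_diag]
      refine Fin.lastCases ?_ (fun k => ?_) i <;> simp
  refine ⟨1, U, 1, U * diOf d, Up.one, hU, Up.one, hU.mul (diOf_up d), ?_⟩
  simp only [one_mul]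
  set A := wl (n + 1) * U
  set S := Algebra.adjoin ℂ ({A.1, (wl (n + 1) * (U * diOf d)).1} : Set (CMat (n + 1)))
  have hA : A.1 ∈ S := Algebra.subset_adjoin (by simp)
  have hB : (wl (n + 1) * (U * diOf d)).1 ∈ S := Algebra.subset_adjoin (by simp)
  have hD : (diOf d).1 ∈ S := by
    have := S.mul_mem (inv_mem_subalgebra hA) hB
    rw [← mul_val] at this
    have e : A⁻¹ * (wl (n + 1) * (U * diOf d)) = diOf d := by simp only [A]; group
    rwa [e] at this
  set c : Fin (n + 1) → ℂ := fun i => (diOf d).1 i i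
  have hc : Function.Injective c := by
    have h1 : ∀ i : Fin n, c i.castSucc = ((2 ^ ((i : ℕ) + 1) : ℕ) : ℂ) := fun i => by
      simp [c, diOf, upOf_diag, d]
    have h2 : c (Fin.last n) = (((∏ i : Fin n, 2 ^ ((i : ℕ) + 1) : ℕ)) : ℂ)⁻¹ := by
      simp [c, diOf, upOf_diag, d, Units.coe_prod]
    have h3 : ∀ i : Fin n, c i.castSucc ≠ c (Fin.last n) := fun i e => by
      rw [h1, h2] at e
      have hP : (((∏ i : Fin n, 2 ^ ((i : ℕ) + 1) : ℕ)) : ℂ) ≠ 0 :=
        Nat.cast_ne_zero.2 (Finset.prod_ne_zero_iff.2 fun i _ => by simp)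
      have := e.symm ▸ inv_mul_cancel₀ hP
      have h := Nat.eq_one_of_mul_eq_one_right (Nat.cast_eq_one.1 ((Nat.cast_mul _ _).trans this))
      simp at h
    intro i j
    refine Fin.lastCases ?_ (fun i => ?_) i <;> refine Fin.lastCases ?_ (fun j => ?_) j <;> intro e
    · rfl
    · exact absurd e.symm (h3 j)
    · exact absurd e (h3 i)
    · rw [h1, h1, Nat.cast_inj] at e
      have := Nat.pow_right_injective (le_refl 2) e
      exact congrArg _ (Fin.ext (by omega))
  have hdiag : (diOf d).1 = Matrix.diagonalAlgHom ℂ c := by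
    ext i j
    rcases lt_trichotomy i j with h | rfl | h
    · simp [diOf_lo d i j h, h.ne]
    · simp [c]
    · simp [diOf_up d i j h, h.ne']
  have hE : ∀ i, Matrix.diagonal (Pi.single i (1 : ℂ)) ∈ S := fun i => by
    set p := Lagrange.basis Finset.univ c i
    have hp : Polynomial.aeval (diOf d).1 p = Matrix.diagonal (Pi.single i (1 : ℂ)) := by
      rw [hdiag, Polynomial.aeval_algHom_apply, Polynomial.aeval_pi_apply]
      show Matrix.diagonal _ = _
      congr 1
      funext j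
      rw [Polynomial.coe_aeval_eq_eval]
      rcases eq_or_ne j i with rfl | hji
      · rw [Lagrange.eval_basis_self hc.injOn (Finset.mem_univ _), Pi.single_eq_same]
      · rw [Lagrange.eval_basis_of_ne hji.symm (Finset.mem_univ _), Pi.single_eq_of_ne hji]
    exact hp ▸ Algebra.adjoin_le (Set.singleton_subset_iff.2 hD)
      (Polynomial.aeval_mem_adjoin_singleton ℂ _)
  have hent : ∀ i j : Fin (n + 1), i.rev ≤ j → Matrix.single i j (1 : ℂ) ∈ S := fun i j h => by
    have hne : A.1 i j ≠ 0 := by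
      rw [mul_val, wl_mul_apply, hUd _ _ h, mul_one]
      exact wl_rev_ne (n + 1) i
    have := S.smul_mem (S.mul_mem (S.mul_mem (hE i) hA) (hE j)) (A.1 i j)⁻¹
    convert this using 1
    ext a b
    rw [Matrix.smul_apply, Matrix.mul_diagonal, Matrix.diagonal_mul, Matrix.single_apply]
    rcases eq_or_ne a i with rfl | ha
    · rcases eq_or_ne b j with rfl | hb
      · simp [hne]
      · simp [hb, hb.symm]
    · simp [ha, ha.symm]
  refine Algebra.eq_top_iff.2 fun M => ?_
  rw [Matrix.matrix_eq_sum_single M]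
  refine Subalgebra.sum_mem _ fun i _ => Subalgebra.sum_mem _ fun j _ => ?_
  have := S.smul_mem (S.mul_mem (hent i (Fin.last n) (Fin.le_last _))
    (hent (Fin.last n) j (by simp))) (M i j)
  simpa [Matrix.smul_single] using this

/-! ### Conjugation -/

/-- A transvection in `SL`. -/
def tv {r : ℕ} {i j : Fin r} (h : i ≠ j) (a : ℂ) : SL r ℂ :=
  ⟨Matrix.transvection i j a, Matrix.det_transvection_of_ne i j h a⟩

lemma tv_up {r : ℕ} {i j : Fin r} (h : i ≠ j) (hij : i < j) (a : ℂ) : Up (tv h a) :=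
  fun k l hkl => by
    show (Matrix.transvection i j a) k l = 0
    simp only [Matrix.transvection, Matrix.add_apply, Matrix.single_apply]
    rw [one_apply_ne hkl.ne', zero_add, if_neg]
    rintro ⟨rfl, rfl⟩
    exact lt_asymm hij hkl

lemma tv_inv {r : ℕ} {i j : Fin r} (h : i ≠ j) (a : ℂ) : (tv h a)⁻¹ = tv h (-a) :=
  inv_eq_of_mul_eq_one_right <| Subtype.ext <| by
    show Matrix.transvection i j a * Matrix.transvection i j (-a) = (1 : SL r ℂ).1
    rw [Matrix.transvection_mul_transvection_same i j h, add_neg_cancel,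
      Matrix.transvection_zero, one_val]

lemma tv_zero {r : ℕ} {i j : Fin r} (h : i ≠ j) : tv h (0 : ℂ) = 1 :=
  Subtype.ext <| by show Matrix.transvection i j (0 : ℂ) = _; rw [Matrix.transvection_zero, one_val]

lemma tv_mulVec {r : ℕ} {i j : Fin r} (h : i ≠ j) (a : ℂ) (w : Fin r → ℂ) :
    (tv h a).1 *ᵥ w = w + Pi.single i (a * w j) := by
  show Matrix.transvection i j a *ᵥ w = _
  rw [Matrix.transvection, Matrix.add_mulVec, Matrix.one_mulVec]
  congr 1
  ext k
  simp [Matrix.mulVec, dotProduct, Matrix.single_apply, Pi.single_apply, eq_comm, ite_and]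

lemma continuous_tv {r : ℕ} {i j : Fin r} (h : i ≠ j) : Continuous (tv h) := by
  refine continuous_induced_rng.2 (continuous_pi fun k => continuous_pi fun l => ?_)
  show Continuous fun a : ℂ => (1 : CMat r) k l + Matrix.single i j a k l
  simp only [Matrix.single_apply]
  split_ifs <;> fun_prop

/-- Exponents of a balanced torus element. -/
def bal (i : Fin (n + 1)) : ℂ := 2 * ((i : ℕ) : ℂ) - n

lemma sum_bal : ∑ i : Fin (n + 1), bal i = 0 := by
  have h : ∑ i : Fin (n + 1), bal i = ∑ i : Fin (n + 1), -bal i := by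
    rw [← Equiv.sum_comp Fin.revPerm]
    refine Finset.sum_congr rfl fun i _ => ?_
    have := i.isLt
    simp only [bal, Fin.revPerm_apply, Fin.val_rev]
    rw [Nat.cast_sub (by omega)]
    push_cast
    ring
  rw [Finset.sum_neg_distrib] at h
  linear_combination h / 2

/-- A balanced torus element. -/
noncomputable def tor (s : ℂ) : SL (n + 1) ℂ :=
  ⟨Matrix.diagonal fun i => Complex.exp (s * bal i), by
    rw [det_diagonal, ← Complex.exp_sum, ← Finset.mul_sum, sum_bal, mul_zero, Complex.exp_zero]⟩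

lemma tor_up (s : ℂ) : Up (tor (n := n) s) := fun i j h => Matrix.diagonal_apply_ne _ h.ne'

lemma tor_zero : tor (n := n) 0 = 1 := Subtype.ext <| by
  show Matrix.diagonal _ = _
  simp [one_val]

lemma tor_inv (s : ℂ) : (tor (n := n) s)⁻¹ = tor (-s) :=
  inv_eq_of_mul_eq_one_right <| Subtype.ext <| by
    show Matrix.diagonal _ * Matrix.diagonal _ = (1 : SL (n + 1) ℂ).1
    rw [Matrix.diagonal_mul_diagonal, one_val, ← Matrix.diagonal_one]
    congr 1
    funext i
    rw [← Complex.exp_add]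
    simp

lemma continuous_tor : Continuous (tor (n := n)) := by
  refine continuous_induced_rng.2 ?_
  exact (continuous_pi fun i => by fun_prop).matrix_diagonal

/-- The conjugate by `q`. -/
noncomputable def Ncj (Z₁ q : SL (n + 1) ℂ) : CMat (n + 1) := (q * (wl (n + 1) * Z₁) * q⁻¹).1

lemma continuous_Ncj (Z₁ : SL (n + 1) ℂ) : Continuous (Ncj Z₁) :=
  continuous_val.comp ((continuous_id.mul continuous_const).mul continuous_inv)

/-- The top torus weight preserves an invariant subspace. -/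
lemma top_weight {W : Submodule ℂ (Fin (n + 1) → ℂ)} {q x Z₁ : SL (n + 1) ℂ} (hZ₁ : Up Z₁)
    {B : Set ℂ} (hB : B ∈ 𝓝 0)
    (hW : ∀ s ∈ B, ∀ w ∈ W, Ncj Z₁ (q * x * tor s) *ᵥ w ∈ W)
    {w : Fin (n + 1) → ℂ} (hw : w ∈ W) :
    (((q * x)⁻¹).1 *ᵥ w) 0 • ((q * x).1 *ᵥ Pi.single (Fin.last n) 1) ∈ W := by
  classical
  set y := ((q * x)⁻¹).1 *ᵥ w
  set M₁ := (wl (n + 1) * Z₁).1 with hM₁
  have htop : M₁ (Fin.last n) 0 ≠ 0 := by
    rw [hM₁, mul_val, wl_mul_apply, Fin.rev_last]
    refine mul_ne_zero ?_ ?_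
    · simpa using wl_rev_ne (K := ℂ) (n + 1) (Fin.last n)
    · intro h
      have := hZ₁.inv_diag 0
      rw [h, zero_mul] at this
      exact zero_ne_one this
  by_contra hcon
  obtain ⟨φ, hφ, hφW⟩ := Submodule.exists_dual_map_eq_bot_of_notMem hcon inferInstance
  have hker : ∀ u ∈ W, φ u = 0 := fun u hu => by
    have : φ u ∈ W.map φ := Submodule.mem_map_of_mem hu
    rw [hφW] at this
    exact (Submodule.mem_bot _).1 this
  let e : Fin (n + 1) → ℂ := fun i => φ ((q * x).1 *ᵥ Pi.single i 1)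
  let P : Polynomial ℂ := ∑ i : Fin (n + 1), ∑ j : Fin (n + 1),
    Polynomial.C (M₁ i j * y j * e i) * Polynomial.X ^ (n + (i : ℕ) - j)
  have hP0 : P = 0 := by
    refine Polynomial.eq_zero_of_infinite_isRoot _ ?_
    have hS : {z : ℂ | z ≠ 0 ∧ Complex.log z / 2 ∈ B} ∈ 𝓝 (1 : ℂ) := by
      refine inter_mem (isOpen_ne.mem_nhds one_ne_zero) ?_
      have hc : ContinuousAt (fun z : ℂ => Complex.log z / 2) 1 :=
        (continuousAt_clog (by simp [Complex.slitPlane])).div_const 2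
      exact hc.preimage_mem_nhds (by simpa using hB)
    refine (infinite_of_mem_nhds (1 : ℂ) hS).mono fun z hz => ?_
    obtain ⟨hz0, hzB⟩ := hz
    set s := Complex.log z / 2
    have hzs : Complex.exp (2 * s) = z := by
      rw [show 2 * s = Complex.log z by ring, Complex.exp_log hz0]
    have hvec : Ncj Z₁ (q * x * tor s) *ᵥ w =
        ∑ i : Fin (n + 1), ∑ j : Fin (n + 1),
          (Complex.exp (s * bal i) * M₁ i j * Complex.exp (-s * bal j) * y j) •
            ((q * x).1 *ᵥ Pi.single i 1) := by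
      have : Ncj Z₁ (q * x * tor s) = (q * x).1 * ((tor s).1 * M₁ * (tor (-s)).1) *
          ((q * x)⁻¹).1 := by
        simp only [Ncj, hM₁, ← mul_val, ← tor_inv, _root_.mul_inv_rev, mul_assoc]
      rw [this, ← Matrix.mulVec_mulVec, ← Matrix.mulVec_mulVec]
      conv_lhs => rw [← Finset.univ_sum_single (((tor s).1 * M₁ * (tor (-s)).1) *ᵥ y)]
      rw [Matrix.mulVec_sum]
      refine Finset.sum_congr rfl fun i _ => ?_
      rw [← Finset.sum_smul, ← Matrix.mulVec_smul, ← Pi.single_smul, smul_eq_mul, mul_one]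
      refine congrArg _ (congrArg _ ?_)
      show ∑ j : Fin (n + 1), ((tor (n := n) s).1 * M₁ * (tor (n := n) (-s)).1 : CMat (n + 1)) i j * y j = _
      refine Finset.sum_congr rfl fun j _ => ?_
      simp only [tor, Matrix.mul_diagonal, Matrix.diagonal_mul]
    have h0 := hker _ (hW s hzB w hw)
    rw [hvec, map_sum] at h0
    show P.eval z = 0
    rw [show (0 : ℂ) = z ^ n * 0 by simp, ← h0, Finset.mul_sum]
    simp only [P, Polynomial.eval_finsetSum]
    refine Finset.sum_congr rfl fun i _ => ?_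
    rw [map_sum, Finset.mul_sum]
    refine Finset.sum_congr rfl fun j _ => ?_
    rw [map_smul, smul_eq_mul, Polynomial.eval_mul, Polynomial.eval_C, Polynomial.eval_pow,
      Polynomial.eval_X, ← hzs, ← Complex.exp_nat_mul, ← Complex.exp_nat_mul]
    have := j.isLt
    have he : Complex.exp (((n + (i : ℕ) - j : ℕ) : ℂ) * (2 * s)) =
        Complex.exp ((n : ℂ) * (2 * s)) * Complex.exp (s * bal i) * Complex.exp (-s * bal j) := by
      rw [← Complex.exp_add, ← Complex.exp_add, Nat.cast_sub (by omega)]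
      refine congrArg _ ?_
      simp only [bal]
      push_cast
      ring
    rw [he]
    simp only [e]
    ring
  have hcoeff := congrArg (fun p : Polynomial ℂ => p.coeff (2 * n)) hP0
  simp only [P, Polynomial.finsetSum_coeff, Polynomial.coeff_C_mul_X_pow,
    Polynomial.coeff_zero] at hcoeff
  rw [Finset.sum_eq_single (Fin.last n), Finset.sum_eq_single 0] at hcoeff
  · rw [if_pos (by simp; omega)] at hcoeff
    refine hφ ?_
    rw [map_smul, smul_eq_mul]
    rcases mul_eq_zero.1 hcoeff with h | h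
    · rcases mul_eq_zero.1 h with h | h
      · exact absurd h htop
      · rw [h, zero_mul]
    · rw [show φ _ = 0 from h, mul_zero]
  · intro j _ hj
    rw [if_neg]
    have := Fin.val_ne_of_ne hj
    simp only [Fin.val_last, Fin.val_zero] at this ⊢
    omega
  · simp
  · intro i _ hi
    refine Finset.sum_eq_zero fun j _ => ?_
    rw [if_neg]
    have := Fin.val_ne_of_ne hi
    have := i.isLt
    have := j.isLt
    simp only [Fin.val_last] at *
    omega
  · simp

set_option maxHeartbeats 1000000 in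
/-- A proper subspace is moved by a conjugate arbitrarily near a given one. -/
lemma move_subspace {Z₁ q : SL (n + 1) ℂ} (hZ₁ : Up Z₁) (hq : Up q)
    {W : Submodule ℂ (Fin (n + 1) → ℂ)} (hb : W ≠ ⊥) (ht : W ≠ ⊤)
    {V : Set (SL (n + 1) ℂ)} (hV : V ∈ 𝓝 q) :
    ∃ q' ∈ V, Up q' ∧ ∃ w ∈ W, Ncj Z₁ q' *ᵥ w ∉ W := by
  classical
  by_contra hcon
  push Not at hcon
  have hc : Continuous fun p : SL (n + 1) ℂ × ℂ => q * p.1 * tor p.2 :=
    (continuous_const.mul continuous_fst).mul (continuous_tor.comp continuous_snd)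
  have hpre : (fun p : SL (n + 1) ℂ × ℂ => q * p.1 * tor p.2) ⁻¹' V ∈ 𝓝 ((1 : SL (n + 1) ℂ), (0 : ℂ)) :=
    hc.continuousAt.preimage_mem_nhds (by simpa [tor_zero] using hV)
  obtain ⟨A, hA, B, hB, hAB⟩ := mem_nhds_prod_iff.1 hpre
  have key : ∀ x ∈ A, Up x → ∀ w ∈ W,
      (((q * x)⁻¹).1 *ᵥ w) 0 • ((q * x).1 *ᵥ Pi.single (Fin.last n) 1) ∈ W :=
    fun x hx hxu w hw => top_weight hZ₁ hB
      (fun s hs => hcon _ (hAB (Set.mk_mem_prod hx hs)) ((hq.mul hxu).mul (tor_up s))) hw
  have hcl : IsClosed (W : Set (Fin (n + 1) → ℂ)) := W.closed_of_finiteDimensional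
  -- a translate moving the last vector out of `W`
  obtain ⟨x₁, hx₁A, hx₁u, hx₁⟩ : ∃ x₁, A ∈ 𝓝 x₁ ∧ Up x₁ ∧
      (q * x₁).1 *ᵥ Pi.single (Fin.last n) 1 ∉ W := by
    by_cases h : q.1 *ᵥ Pi.single (Fin.last n) 1 ∈ W
    · obtain ⟨j, hj⟩ : ∃ j, q.1 *ᵥ Pi.single j 1 ∉ W := by
        by_contra h'
        push Not at h'
        refine ht (Submodule.eq_top_iff'.2 fun u => ?_)
        have hu : u = q.1 *ᵥ ((q⁻¹).1 *ᵥ u) := by
          rw [Matrix.mulVec_mulVec, ← mul_val, mul_inv_cancel, one_val, Matrix.one_mulVec]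
        rw [hu, ← Finset.univ_sum_single ((q⁻¹).1 *ᵥ u), Matrix.mulVec_sum]
        refine W.sum_mem fun j _ => ?_
        have := W.smul_mem (((q⁻¹).1 *ᵥ u) j) (h' j)
        rwa [← Matrix.mulVec_smul, ← Pi.single_smul, smul_eq_mul, mul_one] at this
      have hne : j ≠ Fin.last n := fun e => hj (e ▸ h)
      have hev : ∀ᶠ a in 𝓝[≠] (0 : ℂ), tv hne a ∈ interior A :=
        nhdsWithin_le_nhds ((continuous_tv hne).continuousAt.preimage_mem_nhds
          (by rw [tv_zero]; exact interior_mem_nhds.2 hA))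
      obtain ⟨a, ha, ha0⟩ := (hev.and self_mem_nhdsWithin).exists
      refine ⟨tv hne a, mem_interior_iff_mem_nhds.1 ha,
        tv_up hne (Fin.lt_last_iff_ne_last.2 hne) a, fun hmem => hj ?_⟩
      rw [mul_val, ← Matrix.mulVec_mulVec, tv_mulVec, Matrix.mulVec_add, Pi.single_eq_same,
        mul_one] at hmem
      have h2 := W.sub_mem hmem h
      rw [add_sub_cancel_left, ← mul_one a, ← smul_eq_mul, Pi.single_smul,
        Matrix.mulVec_smul] at h2
      have h3 := W.smul_mem a⁻¹ h2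
      rw [smul_smul, inv_mul_cancel₀ (show a ≠ 0 from ha0), one_smul] at h3
      exact h3
    · exact ⟨1, hA, Up.one, by simpa using h⟩
  obtain ⟨w, hw, hw0⟩ := Submodule.exists_mem_ne_zero_of_ne_bot hb
  set y := ((q * x₁)⁻¹).1 *ᵥ w with hy
  have hy0 : y ≠ 0 := fun e => hw0 <| by
    have e' : w = (q * x₁).1 *ᵥ y := by
      rw [hy, Matrix.mulVec_mulVec, ← mul_val, mul_inv_cancel, one_val, Matrix.one_mulVec]
    rw [e', e, Matrix.mulVec_zero]
  -- a further translate making the top coordinate nonzero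
  obtain ⟨x, hxA, hxu, hx0, hx⟩ : ∃ x, x ∈ A ∧ Up x ∧ (((q * x)⁻¹).1 *ᵥ w) 0 ≠ 0 ∧
      (q * x).1 *ᵥ Pi.single (Fin.last n) 1 ∉ W := by
    by_cases h : y 0 = 0
    · obtain ⟨k, hk⟩ := Function.ne_iff.1 hy0
      have hk0 : (0 : Fin (n + 1)) ≠ k := fun e => hk (e ▸ h)
      have hc1 : Continuous fun b => x₁ * tv hk0 b := continuous_const.mul (continuous_tv hk0)
      have hc2 : Continuous fun b => (q * (x₁ * tv hk0 b)).1 *ᵥ Pi.single (Fin.last n) 1 :=
        (continuous_val.comp (continuous_const.mul hc1)).matrix_mulVec continuous_const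
      have hev : ∀ᶠ b in 𝓝[≠] (0 : ℂ), x₁ * tv hk0 b ∈ A ∧
          (q * (x₁ * tv hk0 b)).1 *ᵥ Pi.single (Fin.last n) 1 ∈ (W : Set (Fin (n + 1) → ℂ))ᶜ :=
        nhdsWithin_le_nhds (Filter.inter_mem
          ((hc1.continuousAt (x := (0 : ℂ))).preimage_mem_nhds
            (by rw [tv_zero, mul_one]; exact hx₁A))
          ((hc2.continuousAt (x := (0 : ℂ))).preimage_mem_nhds
            (hcl.isOpen_compl.mem_nhds (by rw [tv_zero, mul_one]; exact hx₁))))
      obtain ⟨b, ⟨hb1, hb2⟩, hb0⟩ := (hev.and self_mem_nhdsWithin).exists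
      refine ⟨_, hb1, hx₁u.mul (tv_up hk0 (Fin.pos_iff_ne_zero.2 hk0.symm) b), ?_, hb2⟩
      rw [← mul_assoc, mul_inv_rev (q * x₁), tv_inv, mul_val, ← Matrix.mulVec_mulVec, ← hy,
        tv_mulVec, Pi.add_apply, h, zero_add, Pi.single_eq_same]
      exact mul_ne_zero (neg_ne_zero.2 hb0) hk
    · exact ⟨x₁, mem_of_mem_nhds hx₁A, hx₁u, h, hx₁⟩
  have := W.smul_mem ((((q * x)⁻¹).1 *ᵥ w) 0)⁻¹ (key x hxA hxu w hw)
  rw [smul_smul, inv_mul_cancel₀ hx0, one_smul] at this
  exact hx this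

/-- Two cyclic elements of the big cell generate the matrix algebra after a triangular
conjugation, arbitrarily near a given one. -/
lemma gen_pair_conj {Z Z₁ q₀ : SL (n + 1) ℂ} (hZ : Up Z) (hZ₁ : Up Z₁) (hq₀ : Up q₀)
    (hM : Cyclic (wl (n + 1) * Z).1) (hM₁ : Cyclic (wl (n + 1) * Z₁).1)
    {V : Set (SL (n + 1) ℂ)} (hV : V ∈ 𝓝 q₀) :
    ∃ q ∈ V, Up q ∧ Algebra.adjoin ℂ
      ({(wl (n + 1) * Z).1, (q * (wl (n + 1) * Z₁) * q⁻¹).1} :
        Set (Matrix (Fin (n + 1)) (Fin (n + 1)) ℂ)) = ⊤ := by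
  classical
  have hopen : ∀ W : Submodule ℂ (Fin (n + 1) → ℂ),
      IsOpen {q | ∃ w ∈ W, Ncj Z₁ q *ᵥ w ∉ W} := fun W => by
    rw [show {q | ∃ w ∈ W, Ncj Z₁ q *ᵥ w ∉ W} =
      ⋃ w ∈ W, (fun q => Ncj Z₁ q *ᵥ w) ⁻¹' (W : Set (Fin (n + 1) → ℂ))ᶜ by ext; simp]
    exact isOpen_biUnion fun w _ => (W.closed_of_finiteDimensional.isOpen_compl).preimage
      ((continuous_Ncj Z₁).matrix_mulVec continuous_const)
  have hind : ∀ (T : Finset (Submodule ℂ (Fin (n + 1) → ℂ))), ∀ V ∈ 𝓝 q₀, ∃ q ∈ interior V, Up q ∧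
      ∀ W ∈ T, W ≠ ⊥ → W ≠ ⊤ → ∃ w ∈ W, Ncj Z₁ q *ᵥ w ∉ W := by
    intro T
    induction T using Finset.induction_on with
    | empty => exact fun V hV => ⟨q₀, mem_interior_iff_mem_nhds.2 hV, hq₀, by simp⟩
    | insert W T _ ih =>
      intro V hV
      obtain ⟨q, hq, hqu, hgood⟩ := ih V hV
      by_cases hW : W = ⊥ ∨ W = ⊤
      · refine ⟨q, hq, hqu, fun W' hW' h1 h2 => ?_⟩
        rcases Finset.mem_insert.1 hW' with rfl | h
        · exact absurd hW (by tauto)
        · exact hgood W' h h1 h2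
      · push Not at hW
        have hev : ∀ᶠ x in 𝓝 q, x ∈ interior V ∧
            ∀ W' ∈ T, W' ≠ ⊥ → W' ≠ ⊤ → ∃ w ∈ W', Ncj Z₁ x *ᵥ w ∉ W' := by
          refine (isOpen_interior.eventually_mem hq).and ((Finset.eventually_all T).2 fun W' hW' => ?_)
          by_cases hp : W' ≠ ⊥ ∧ W' ≠ ⊤
          · exact ((hopen W').eventually_mem (hgood W' hW' hp.1 hp.2)).mono fun x hx _ _ => hx
          · exact Eventually.of_forall fun x h1 h2 => absurd ⟨h1, h2⟩ hp
        obtain ⟨x, hx, hxu, hmove⟩ := move_subspace hZ₁ hqu hW.1 hW.2 hev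
        refine ⟨x, hx.1, hxu, fun W' hW' h1 h2 => ?_⟩
        rcases Finset.mem_insert.1 hW' with rfl | h
        · exact hmove
        · exact hx.2 W' h h1 h2
  obtain ⟨q, hq, hqu, hgood⟩ := hind (finite_invariant hM).toFinset V hV
  refine ⟨q, interior_subset hq, hqu, burnside (Nat.succ_pos n) _ fun W hW => ?_⟩
  by_contra h
  push Not at h
  obtain ⟨w, hw, hwW⟩ := hgood W ((finite_invariant hM).mem_toFinset.2
    fun u hu => hW _ (Algebra.subset_adjoin (by simp)) u hu) h.1 h.2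
  exact hwW (hW _ (Algebra.subset_adjoin (by simp [Ncj])) w hw)

end Vale.Agent.P002.Frames
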