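import Mathlib

/-! Functions that are polynomial in affine coordinates and Laurent in unit coordinates, and the
Zariski density of integral points of affine space times a torus. -/

namespace Vale.Agent.P002.Frames

variable {ι κ : Type*} [Fintype ι] [Fintype κ]

/-- Affine space times a torus. -/
abbrev Pt (ι κ : Type*) : Type _ := (ι → ℂ) × (κ → ℂˣ)

/-- The coordinate functions and their admissible inverses. -/
def coordFn : ι ⊕ κ ⊕ κ → Pt ι κ → ℂ
  | Sum.inl i, z => z.1 i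
  | Sum.inr (Sum.inl k), z => z.2 k
  | Sum.inr (Sum.inr k), z => ((z.2 k)⁻¹ : ℂˣ)

/-- Laurent functions with coefficients in `R`. -/
def LI (R : Subring ℂ) (ι κ : Type*) : Subring (Pt ι κ → ℂ) :=
  Subring.closure (Set.range (fun c : R => fun _ => (c : ℂ)) ∪ Set.range coordFn)

variable {R : Subring ℂ}

/-- Evaluation. -/
def evLI (z : Pt ι κ) : LI R ι κ →+* ℂ := (Pi.evalRingHom _ z).comp (LI R ι κ).subtype

omit [Fintype ι] [Fintype κ] in
lemma evLI_apply (z : Pt ι κ) (f : LI R ι κ) : evLI z f = f.1 z := rfl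

/-- A constant in `LI`. -/
def constLI (c : R) : LI R ι κ := ⟨fun _ => (c : ℂ), Subring.subset_closure (Or.inl ⟨c, rfl⟩)⟩

/-- An affine coordinate. -/
def coordLI (i : ι) : LI R ι κ :=
  ⟨coordFn (Sum.inl i), Subring.subset_closure (Or.inr ⟨_, rfl⟩)⟩

/-- A unit coordinate. -/
def unitLI (k : κ) : (LI R ι κ)ˣ where
  val := ⟨coordFn (Sum.inr (Sum.inl k)), Subring.subset_closure (Or.inr ⟨_, rfl⟩)⟩
  inv := ⟨coordFn (Sum.inr (Sum.inr k)), Subring.subset_closure (Or.inr ⟨_, rfl⟩)⟩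
  val_inv := Subtype.ext <| funext fun z => by simp [coordFn]
  inv_val := Subtype.ext <| funext fun z => by simp [coordFn]

omit [Fintype ι] [Fintype κ] in
@[simp] lemma evLI_coord (z : Pt ι κ) (i : ι) : evLI (R := R) z (coordLI i) = z.1 i := rfl

omit [Fintype ι] [Fintype κ] in
@[simp] lemma evLI_unit (z : Pt ι κ) (k : κ) :
    Units.map (evLI (R := R) z : LI R ι κ →* ℂ) (unitLI k) = z.2 k := Units.ext rfl

/-- Points with coordinates in `R` and unit coordinates units of `R`. -/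
def IntPt (R : Subring ℂ) (z : Pt ι κ) : Prop :=
  (∀ i, z.1 i ∈ R) ∧ ∀ k, ((z.2 k : ℂˣ) : ℂ) ∈ R ∧ (((z.2 k)⁻¹ : ℂˣ) : ℂ) ∈ R

omit [Fintype ι] [Fintype κ] in
lemma evLI_mem {z : Pt ι κ} (hz : IntPt R z) (f : LI R ι κ) : evLI z f ∈ R := by
  obtain ⟨f, hf⟩ := f
  show f z ∈ R
  induction hf using Subring.closure_induction with
  | mem g hg =>
    rcases hg with ⟨c, rfl⟩ | ⟨q, rfl⟩
    · exact c.2
    · rcases q with i | k | k
      exacts [hz.1 i, (hz.2 k).1, (hz.2 k).2]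
  | zero => exact R.zero_mem
  | one => exact R.one_mem
  | add a b _ _ ha hb => exact R.add_mem ha hb
  | neg a _ ha => exact R.neg_mem ha
  | mul a b _ _ ha hb => exact R.mul_mem ha hb

/-- All complex Laurent functions. -/
abbrev LP (ι κ : Type*) : Subring (Pt ι κ → ℂ) := LI ⊤ ι κ

omit [Fintype ι] [Fintype κ] in
lemma LI_le_LP : LI R ι κ ≤ LP ι κ :=
  Subring.closure_mono (Set.union_subset_union_left _ (by
    rintro _ ⟨c, rfl⟩; exact ⟨⟨c, trivial⟩, rfl⟩))

/-- The point as a vector. -/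
def vec (z : Pt ι κ) : ι ⊕ κ → ℂ := Sum.elim z.1 fun k => z.2 k

omit [Fintype ι] in
lemma clear_denom {f : Pt ι κ → ℂ} (hf : f ∈ LP ι κ) :
    ∃ (N : ℕ) (P : MvPolynomial (ι ⊕ κ) ℂ),
      ∀ z, f z * (∏ k, ((z.2 k : ℂˣ) : ℂ)) ^ N = MvPolynomial.eval (vec z) P := by
  classical
  induction hf using Subring.closure_induction with
  | mem g hg =>
    rcases hg with ⟨c, rfl⟩ | ⟨q, rfl⟩
    · exact ⟨0, MvPolynomial.C (c : ℂ), fun z => by simp⟩
    · rcases q with i | k | k
      · exact ⟨0, MvPolynomial.X (Sum.inl i), fun z => by simp [coordFn, vec]⟩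
      · exact ⟨0, MvPolynomial.X (Sum.inr k), fun z => by simp [coordFn, vec]⟩
      · refine ⟨1, ∏ l ∈ Finset.univ.erase k, MvPolynomial.X (Sum.inr l), fun z => ?_⟩
        rw [pow_one, ← Finset.mul_prod_erase _ _ (Finset.mem_univ k), ← mul_assoc]
        simp [coordFn, vec]
  | zero => exact ⟨0, 0, fun z => by simp⟩
  | one => exact ⟨0, 1, fun z => by simp⟩
  | add a b _ _ ha hb =>
    obtain ⟨N, P, hP⟩ := ha
    obtain ⟨M, Q, hQ⟩ := hb
    refine ⟨N + M, P * (∏ k, MvPolynomial.X (Sum.inr k)) ^ M +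
      Q * (∏ k, MvPolynomial.X (Sum.inr k)) ^ N, fun z => ?_⟩
    simp only [map_add, map_mul, map_pow, map_prod, MvPolynomial.eval_X, Pi.add_apply]
    show _ = MvPolynomial.eval (vec z) P * (∏ k, ((z.2 k : ℂˣ) : ℂ)) ^ M +
      MvPolynomial.eval (vec z) Q * (∏ k, ((z.2 k : ℂˣ) : ℂ)) ^ N
    rw [← hP z, ← hQ z, pow_add]
    ring
  | neg a _ ha =>
    obtain ⟨N, P, hP⟩ := ha
    exact ⟨N, -P, fun z => by simp [← hP z]⟩
  | mul a b _ _ ha hb =>
    obtain ⟨N, P, hP⟩ := ha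
    obtain ⟨M, Q, hQ⟩ := hb
    refine ⟨N + M, P * Q, fun z => ?_⟩
    rw [map_mul, ← hP z, ← hQ z, pow_add, Pi.mul_apply]
    ring

omit [Fintype ι] in
/-- A Laurent function vanishing on a product of infinite sets vanishes everywhere. -/
lemma eq_zero_of_sets {f : Pt ι κ → ℂ} (hf : f ∈ LP ι κ) {S : Set ℂ} (hS : S.Infinite)
    {U : Set ℂˣ} (hU : U.Infinite)
    (h : ∀ z : Pt ι κ, (∀ i, z.1 i ∈ S) → (∀ k, z.2 k ∈ U) → f z = 0) (z : Pt ι κ) : f z = 0 := by
  obtain ⟨N, P, hP⟩ := clear_denom hf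
  have hP0 : P = 0 := by
    refine MvPolynomial.funext_set (Sum.elim (fun _ => S) fun _ => Units.val '' U) ?_ fun v hv => ?_
    · rintro (i | k)
      exacts [hS, hU.image Units.val_injective.injOn]
    · have hv' := fun q => hv q trivial
      choose u hu hu' using fun k => (hv' (Sum.inr k) : v (Sum.inr k) ∈ Units.val '' U)
      have e : vec ((fun i => v (Sum.inl i)), u) = v := by
        funext q
        rcases q with i | k
        exacts [rfl, hu' k]
      rw [map_zero, ← e, ← hP, h ((fun i => v (Sum.inl i)), u) (fun i => hv' (Sum.inl i)) hu, zero_mul]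
  have := hP z
  rw [hP0, map_zero, mul_eq_zero] at this
  exact this.resolve_right (pow_ne_zero _ (Finset.prod_ne_zero_iff.2 fun k _ => (z.2 k).ne_zero))

omit [Fintype ι] in
/-- Density: a unit of infinite order in `R` suffices. -/
lemma eq_zero_of_int {f : Pt ι κ → ℂ} (hf : f ∈ LP ι κ) {ε : ℂˣ} (hε : ¬ IsOfFinOrder ε)
    (hεR : (ε : ℂ) ∈ R) (hεR' : ((ε⁻¹ : ℂˣ) : ℂ) ∈ R)
    (h : ∀ z : Pt ι κ, IntPt R z → f z = 0) (z : Pt ι κ) : f z = 0 := by
  refine eq_zero_of_sets hf (S := Set.range fun n : ℕ => (n : ℂ))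
    (U := Set.range fun n : ℕ => ε ^ n) (Set.infinite_range_of_injective Nat.cast_injective)
    (Set.infinite_range_of_injective (injective_pow_iff_not_isOfFinOrder.2 hε))
    (fun w hS hU => h w ⟨fun i => ?_, fun k => ?_⟩) z
  · obtain ⟨n, hn⟩ := hS i; rw [← hn]; exact natCast_mem R n
  · obtain ⟨n, hn⟩ := hU k
    rw [← hn]
    dsimp only
    rw [← inv_pow, Units.val_pow_eq_pow_val, Units.val_pow_eq_pow_val]
    exact ⟨R.pow_mem hεR n, R.pow_mem hεR' n⟩

omit [Fintype ι] in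
/-- The space of parameters is irreducible. -/
lemma prime_LP {f g : Pt ι κ → ℂ} (hf : f ∈ LP ι κ) (hg : g ∈ LP ι κ) (h : ∀ z, f z * g z = 0) :
    (∀ z, f z = 0) ∨ ∀ z, g z = 0 := by
  obtain ⟨N, P, hP⟩ := clear_denom hf
  obtain ⟨M, Q, hQ⟩ := clear_denom hg
  have hne : ∀ z : Pt ι κ, (∏ k, ((z.2 k : ℂˣ) : ℂ)) ≠ 0 := fun z =>
    Finset.prod_ne_zero_iff.2 fun k _ => (z.2 k).ne_zero
  have h0 : P * Q = 0 := by
    refine MvPolynomial.funext_set (Sum.elim (fun _ => Set.univ) fun _ => {x : ℂ | x ≠ 0}) ?_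
      fun v hv => ?_
    · rintro (i | k)
      exacts [Set.infinite_univ, (Set.finite_singleton (0 : ℂ)).infinite_compl]
    · have hk : ∀ k, v (Sum.inr k) ≠ 0 := fun k => hv (Sum.inr k) trivial
      let z : Pt ι κ := (fun i => v (Sum.inl i), fun k => Units.mk0 _ (hk k))
      have e : vec z = v := by funext q; rcases q with i | k <;> rfl
      rw [map_zero, ← e, map_mul, ← hP, ← hQ, mul_mul_mul_comm, h z, zero_mul]
  rcases mul_eq_zero.1 h0 with h' | h'
  · refine Or.inl fun z => ?_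
    have := hP z
    rw [h', map_zero, mul_eq_zero] at this
    exact this.resolve_right (pow_ne_zero _ (hne z))
  · refine Or.inr fun z => ?_
    have := hQ z
    rw [h', map_zero, mul_eq_zero] at this
    exact this.resolve_right (pow_ne_zero _ (hne z))

end Vale.Agent.P002.Frames
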