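import Vale.Agent.P002.Frames.Cell

/-! Local continuity of the `LU` and Bruhat decompositions. -/

open Matrix Filter Topology

namespace Vale.Agent.P002.Frames

variable {n : ℕ}

attribute [local instance] Matrix.linftyOpNormedAddCommGroup Matrix.linftyOpNormedSpace
  Matrix.linftyOpNormedRing Matrix.linftyOpNormedAlgebra

/-- The topology on `SL_n(ℂ)`. -/
noncomputable instance slTop : TopologicalSpace (SL n ℂ) :=
  TopologicalSpace.induced Subtype.val inferInstance

lemma continuous_val : Continuous fun A : SL n ℂ => A.1 := continuous_induced_dom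

instance slMul : ContinuousMul (SL n ℂ) :=
  ⟨continuous_induced_rng.2 ((continuous_val.comp continuous_fst).matrix_mul
    (continuous_val.comp continuous_snd))⟩

instance slInv : ContinuousInv (SL n ℂ) :=
  ⟨continuous_induced_rng.2 continuous_val.matrix_adjugate⟩

lemma continuous_cw : Continuous (cw : SL n ℂ → SL n ℂ) :=
  (continuous_const.mul continuous_id).mul continuous_const

lemma continuous_cw' : Continuous (cw' : SL n ℂ → SL n ℂ) :=
  (continuous_const.mul continuous_id).mul continuous_const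

/-- The diagonal element attached to an upper triangular one. -/
def diagPart {K : Type*} [CommRing K] {A : SL n K} (hA : Up A) : SL n K :=
  ⟨diagonal fun i => A.1 i i, by
    rw [det_diagonal, ← det_of_isUpperTriangular (fun a b h => hA a b h)]
    exact A.2⟩

lemma diagPart_up {K : Type*} [CommRing K] {A : SL n K} (hA : Up A) : Up (diagPart hA) :=
  fun i j h => by simp [diagPart, h.ne']

lemma diagPart_lo {K : Type*} [CommRing K] {A : SL n K} (hA : Up A) : Lo (diagPart hA) :=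
  fun i j h => by simp [diagPart, h.ne]

lemma diagPart_inv_uni {K : Type*} [CommRing K] {A : SL n K} (hA : Up A) :
    Uni (A * (diagPart hA)⁻¹) := by
  intro i
  rw [hA.mul_diag (diagPart_up hA).inv]
  have := (diagPart_up hA).inv_diag i
  simpa [diagPart] using this

lemma continuous_diagPart :
    Continuous fun A : {A : SL n ℂ // Up A} => diagPart A.2 := by
  refine continuous_induced_rng.2 ?_
  exact (continuous_pi fun i => ((continuous_apply i).comp ((continuous_apply i).comp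
    (continuous_val.comp continuous_subtype_val)))).matrix_diagonal

/-- Strictly lower triangular matrices. -/
def SLow (n : ℕ) : Submodule ℂ (Matrix (Fin n) (Fin n) ℂ) where
  carrier := {M | ∀ i j : Fin n, i ≤ j → M i j = 0}
  add_mem' ha hb i j h := by simp [ha i j h, hb i j h]
  zero_mem' _ _ _ := rfl
  smul_mem' c M hM i j h := by simp [hM i j h]

/-- Upper triangular matrices. -/
def SUp (n : ℕ) : Submodule ℂ (Matrix (Fin n) (Fin n) ℂ) where
  carrier := {M | ∀ i j : Fin n, j < i → M i j = 0}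
  add_mem' ha hb i j h := by simp [ha i j h, hb i j h]
  zero_mem' _ _ _ := rfl
  smul_mem' c M hM i j h := by simp [hM i j h]

/-- Lower unitriangular times upper triangular decompositions persist nearby. -/
lemma lu_near {L₀ U₀ : SL n ℂ} (hL : Lo L₀) (hL1 : Uni L₀) (hU : Up U₀)
    {V : Set (SL n ℂ × SL n ℂ)} (hV : V ∈ 𝓝 (L₀, U₀)) :
    ∀ᶠ X in 𝓝 (L₀ * U₀), ∃ L U, Lo L ∧ Uni L ∧ Up U ∧ X = L * U ∧ (L, U) ∈ V := by
  let f : SLow n × SUp n → Matrix (Fin n) (Fin n) ℂ := fun q =>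
    (L₀.1 + q.1.1) * (U₀.1 + q.2.1)
  let a : SLow n × SUp n →L[ℂ] Matrix (Fin n) (Fin n) ℂ :=
    (SLow n).subtypeL.comp (ContinuousLinearMap.fst ℂ _ _)
  let b : SLow n × SUp n →L[ℂ] Matrix (Fin n) (Fin n) ℂ :=
    (SUp n).subtypeL.comp (ContinuousLinearMap.snd ℂ _ _)
  have ha : HasStrictFDerivAt (fun q : SLow n × SUp n => L₀.1 + q.1.1) a 0 :=
    (a.hasStrictFDerivAt).const_add _
  have hb : HasStrictFDerivAt (fun q : SLow n × SUp n => U₀.1 + q.2.1) b 0 :=
    (b.hasStrictFDerivAt).const_add _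
  have hf := ha.mul' hb
  set f' := (L₀.1 + (0 : SLow n × SUp n).1.1) • b +
    MulOpposite.op (U₀.1 + (0 : SLow n × SUp n).2.1) • a
  have hf'app : ∀ q, f' q = L₀.1 * q.2.1 + q.1.1 * U₀.1 := fun q => by
    simp [f', a, b]
  have hLL : (L₀⁻¹).1 * L₀.1 = 1 := by rw [← mul_val, inv_mul_cancel, one_val]
  have hUU : U₀.1 * (U₀⁻¹).1 = 1 := by rw [← mul_val, mul_inv_cancel, one_val]
  have hrange : (f' : SLow n × SUp n →ₗ[ℂ] Matrix (Fin n) (Fin n) ℂ).range = ⊤ := by
    rw [LinearMap.range_eq_top]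
    intro M
    let N : Matrix (Fin n) (Fin n) ℂ := (L₀⁻¹).1 * M * (U₀⁻¹).1
    let l : Matrix (Fin n) (Fin n) ℂ := of fun i j => if j < i then N i j else 0
    let u : Matrix (Fin n) (Fin n) ℂ := of fun i j => if j < i then 0 else N i j
    have hlu : l + u = N := by ext i j; by_cases h : j < i <;> simp [l, u, h]
    have h1 : L₀.1 * l ∈ SLow n := by
      intro i j hij
      rw [Matrix.mul_apply]
      refine Finset.sum_eq_zero fun k _ => ?_
      rcases lt_or_ge i k with h | h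
      · rw [hL _ _ h, zero_mul]
      · simp [l, not_lt.2 (h.trans hij)]
    have h2 : u * U₀.1 ∈ SUp n := by
      intro i j hij
      rw [Matrix.mul_apply]
      refine Finset.sum_eq_zero fun k _ => ?_
      rcases lt_or_ge k i with h | h
      · simp [u, h]
      · rw [hU _ _ (lt_of_lt_of_le hij h), mul_zero]
    refine ⟨(⟨L₀.1 * l, h1⟩, ⟨u * U₀.1, h2⟩), ?_⟩
    show f' _ = M
    rw [hf'app]
    calc L₀.1 * (u * U₀.1) + L₀.1 * l * U₀.1 = L₀.1 * (l + u) * U₀.1 := by noncomm_ring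
      _ = M := by
        rw [hlu]
        simp only [N]
        rw [show L₀.1 * ((L₀⁻¹).1 * M * (U₀⁻¹).1) * U₀.1 =
          (L₀.1 * (L₀⁻¹).1) * M * ((U₀⁻¹).1 * U₀.1) by noncomm_ring, ← mul_val, ← mul_val,
          mul_inv_cancel, inv_mul_cancel, one_val, one_mul, mul_one]
  have hmap := hf.map_nhds_eq_of_surj hrange
  have hmap' : map f (𝓝 0) = 𝓝 (L₀ * U₀).1 := by
    rw [show (L₀ * U₀).1 = f 0 by simp [f]]; exact hmap
  obtain ⟨W, hW, hWV⟩ : ∃ W ∈ 𝓝 (L₀.1, U₀.1), (Prod.map Subtype.val Subtype.val) ⁻¹' W ⊆ V := by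
    rw [nhds_prod_eq, nhds_induced, nhds_induced, prod_comap_comap_eq] at hV
    rw [nhds_prod_eq]
    exact mem_comap.1 hV
  have hev : ∀ᶠ q : SLow n × SUp n in 𝓝 0, (L₀.1 + q.1.1, U₀.1 + q.2.1) ∈ W := by
    have hc : Continuous fun q : SLow n × SUp n => (L₀.1 + q.1.1, U₀.1 + q.2.1) := by fun_prop
    exact hc.continuousAt.preimage_mem_nhds (by simpa using hW)
  have him := image_mem_map (m := f) hev
  rw [hmap'] at him
  refine (continuous_val.continuousAt.eventually him).mono fun X hX => ?_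
  obtain ⟨q, hq, hqX⟩ := hX
  have hLdet : (L₀.1 + q.1.1).det = 1 := by
    rw [det_of_isLowerTriangular]
    · exact Finset.prod_eq_one fun i _ => by simp [hL1 i, q.1.2 i i le_rfl]
    · intro i j h
      have h' : i < j := h
      simp [hL _ _ h', q.1.2 i j h'.le]
  have hUdet : (U₀.1 + q.2.1).det = 1 := by
    have h := congrArg Matrix.det hqX
    rw [det_mul, hLdet, one_mul] at h
    exact h.trans X.2
  refine ⟨⟨_, hLdet⟩, ⟨_, hUdet⟩, fun i j h => ?_, fun i => ?_, fun i j h => ?_,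
    Subtype.ext hqX.symm, hWV hq⟩
  · simp [hL _ _ h, q.1.2 i j h.le]
  · simp [hL1 i, q.1.2 i i le_rfl]
  · simp [hU _ _ h, q.2.2 i j h]

/-- Elements of the big cell decompose continuously nearby. -/
lemma cell_near {P₀ Z₀ : SL n ℂ} (hP : Up P₀) (hZ : Up Z₀)
    {V : Set (SL n ℂ × SL n ℂ)} (hV : V ∈ 𝓝 (P₀, Z₀)) :
    ∀ᶠ X in 𝓝 (P₀ * wl n * Z₀), ∃ P Z, Up P ∧ Up Z ∧ X = P * wl n * Z ∧ (P, Z) ∈ V := by
  set d := diagPart hP
  have hd : Up d := diagPart_up hP
  have hd' : Lo d := diagPart_lo hP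
  let L₀ := cw' (P₀ * d⁻¹)
  let U₀ := cw' d * Z₀
  have hc : Continuous fun q : SL n ℂ × SL n ℂ => (cw q.1 * d, (cw' d)⁻¹ * q.2) :=
    ((continuous_cw.comp continuous_fst).mul continuous_const).prodMk
      (continuous_const.mul continuous_snd)
  have h0 : (cw L₀ * d, (cw' d)⁻¹ * U₀) = (P₀, Z₀) := by
    simp only [L₀, U₀, cw_cw', inv_mul_cancel_right, inv_mul_cancel_left]
  have hev : (fun q : SL n ℂ × SL n ℂ => (cw q.1 * d, (cw' d)⁻¹ * q.2)) ⁻¹' V ∈ 𝓝 (L₀, U₀) := by
    refine (hc.continuousAt (x := (L₀, U₀))).preimage_mem_nhds ?_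
    rw [h0]; exact hV
  have := lu_near (L₀ := L₀) (U₀ := U₀) (hP.mul hd.inv).cw' (diagPart_inv_uni hP).cw'
    (hd'.cw'.mul hZ) hev
  have he : L₀ * U₀ = (wl n)⁻¹ * (P₀ * wl n * Z₀) := by
    simp only [L₀, U₀, cw']; group
  rw [he] at this
  refine ((continuous_const_mul ((wl n)⁻¹)).continuousAt.eventually this).mono fun X hX => ?_
  obtain ⟨L, U, h1, h2, h3, hX, hLU⟩ := hX
  refine ⟨cw L * d, (cw' d)⁻¹ * U, h1.cw.mul hd, (hd'.cw').inv.mul h3, ?_, hLU⟩
  calc X = wl n * ((wl n)⁻¹ * X) := by group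
    _ = wl n * (L * U) := by rw [hX]
    _ = _ := by simp only [cw, cw']; group

end Vale.Agent.P002.Frames
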