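import Vale.Agent.P002.Frames.Universal
import Vale.Agent.P002.Frames.Near

/-! Continuity and nonvanishing of Laurent functions, and generation as a Laurent condition. -/

open Matrix Filter Topology

namespace Vale.Agent.P002.Frames

variable {ι κ : Type*} [Fintype ι] [Fintype κ]

omit [Fintype ι] [Fintype κ] in
lemma continuous_LP {f : Pt ι κ → ℂ} (hf : f ∈ LP ι κ) : Continuous f := by
  induction hf using Subring.closure_induction with
  | mem g hg =>
    rcases hg with ⟨c, rfl⟩ | ⟨q, rfl⟩
    · exact continuous_const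
    · rcases q with i | k | k
      · exact (continuous_apply i).comp continuous_fst
      · exact Units.continuous_val.comp ((continuous_apply k).comp continuous_snd)
      · exact Units.continuous_coe_inv.comp ((continuous_apply k).comp continuous_snd)
  | zero => exact continuous_const
  | one => exact continuous_const
  | add a b _ _ ha hb => exact ha.add hb
  | neg a _ ha => exact ha.neg
  | mul a b _ _ ha hb => exact ha.mul hb

omit [Fintype ι] in
/-- A Laurent function vanishing near a point vanishes everywhere. -/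
lemma eq_zero_of_nhds {f : Pt ι κ → ℂ} (hf : f ∈ LP ι κ) {z₀ : Pt ι κ}
    (h : ∀ᶠ z in 𝓝 z₀, f z = 0) (z : Pt ι κ) : f z = 0 := by
  obtain ⟨N, P, hP⟩ := clear_denom hf
  have hP0 : P = 0 := by
    obtain ⟨A, hA, B, hB, hAB⟩ := mem_nhds_prod_iff.1 h
    rw [nhds_pi, Filter.mem_pi'] at hA hB
    obtain ⟨I, a, ha, hIa⟩ := hA
    obtain ⟨K, b, hb, hKb⟩ := hB
    have hinf : ∀ {x : ℂ} {s : Set ℂ}, s ∈ 𝓝 x → s.Infinite := fun hs =>
      infinite_of_mem_nhds _ hs
    have hu : ∀ k, (Units.val '' b k : Set ℂ) ∈ 𝓝 ((z₀.2 k : ℂˣ) : ℂ) := fun k =>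
      ((Units.isOpenEmbedding_val (R := ℂ)).map_nhds_eq (z₀.2 k)) ▸ image_mem_map (hb k)
    refine MvPolynomial.funext_set (Sum.elim a fun k => Units.val '' b k) ?_ fun v hv => ?_
    · rintro (i | k)
      exacts [hinf (ha i), hinf (hu k)]
    · have hv' := fun q => hv q trivial
      choose u hu hu' using fun k => (hv' (Sum.inr k) : v (Sum.inr k) ∈ Units.val '' b k)
      have e : vec ((fun i => v (Sum.inl i)), u) = v := by
        funext q
        rcases q with i | k
        exacts [rfl, hu' k]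
      have hz := hAB (show ((fun i => v (Sum.inl i)), u) ∈ A ×ˢ B from
        ⟨hIa fun i _ => hv' (Sum.inl i), hKb fun k _ => hu k⟩)
      simp only [Set.mem_ofPred_eq] at hz
      rw [map_zero, ← e, ← hP, hz, zero_mul]
  have := hP z
  rw [hP0, map_zero, mul_eq_zero] at this
  exact this.resolve_right (pow_ne_zero _ (Finset.prod_ne_zero_iff.2 fun k _ => (z.2 k).ne_zero))

omit [Fintype ι] in
/-- Finitely many nonzero Laurent functions have a common point of nonvanishing. -/
lemma exists_common_ne_zero {α : Type*} (s : Finset α) {f : α → Pt ι κ → ℂ}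
    (hf : ∀ a ∈ s, f a ∈ LP ι κ) (hne : ∀ a ∈ s, ∃ z, f a z ≠ 0) :
    ∃ z, ∀ a ∈ s, f a z ≠ 0 := by
  classical
  suffices ∃ z, (∏ a ∈ s, f a) z ≠ 0 by
    obtain ⟨z, hz⟩ := this
    rw [Finset.prod_apply, Finset.prod_ne_zero_iff] at hz
    exact ⟨z, hz⟩
  induction s using Finset.induction_on with
  | empty => exact ⟨((fun _ => 0), fun _ => 1), by simp⟩
  | insert a s ha ih =>
    by_contra h
    push Not at h
    rw [Finset.prod_insert ha] at h
    have hs : (∏ b ∈ s, f b) ∈ LP ι κ :=
      Subring.prod_mem _ fun b hb => hf b (Finset.mem_insert_of_mem hb)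
    rcases prime_LP (hf a (Finset.mem_insert_self a s)) hs h with h' | h'
    · obtain ⟨z, hz⟩ := hne a (Finset.mem_insert_self a s)
      exact hz (h' z)
    · obtain ⟨z, hz⟩ := ih (fun b hb => hf b (Finset.mem_insert_of_mem hb))
        fun b hb => hne b (Finset.mem_insert_of_mem hb)
      exact hz (h' z)

/-- Generation of the full matrix algebra is a Laurent condition. -/
lemma exists_gen_condition {m : ℕ} {α X : Type*} (M : α → X → Matrix (Fin m) (Fin m) ℂ)
    (S : Subring (X → ℂ)) (hM : ∀ a i j, (fun x => M a x i j) ∈ S) {x₀ : X}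
    (h : Algebra.adjoin ℂ (Set.range fun a => M a x₀) = ⊤) :
    ∃ F ∈ S, F x₀ ≠ 0 ∧ ∀ x, F x ≠ 0 → Algebra.adjoin ℂ (Set.range fun a => M a x) = ⊤ := by
  classical
  have hspan : Submodule.span ℂ (Set.range fun w : List α => (w.map fun a => M a x₀).prod) = ⊤ := by
    rw [eq_top_iff]
    intro T _
    have hT : T ∈ Subalgebra.toSubmodule (Algebra.adjoin ℂ (Set.range fun a => M a x₀)) := by
      rw [h]; trivial
    rw [Algebra.adjoin_eq_span] at hT
    refine Submodule.span_mono ?_ hT
    intro y hy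
    obtain ⟨l, hl, rfl⟩ := Submonoid.exists_list_of_mem_closure hy
    choose w hw using hl
    refine ⟨l.attach.map fun y => w y.1 y.2, ?_⟩
    simp only [List.map_map]
    congr 1
    conv_rhs => rw [← List.attach_map_subtype_val l]
    exact List.map_congr_left fun y _ => hw y.1 y.2
  obtain ⟨b, hb, hbspan, hbli⟩ := exists_linearIndependent ℂ
    (Set.range fun w : List α => (w.map fun a => M a x₀).prod)
  rw [hspan] at hbspan
  let B := Module.Basis.mk hbli (le_of_eq (by rw [Subtype.range_coe, hbspan]))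
  have : Fintype b := FiniteDimensional.fintypeBasisIndex B
  let e : b ≃ Fin m × Fin m := B.indexEquiv (Matrix.stdBasis ℂ (Fin m) (Fin m))
  choose w hw using fun y : b => hb y.2
  let Wd : Fin m × Fin m → X → Matrix (Fin m) (Fin m) ℂ := fun q x =>
    ((w (e.symm q)).map fun a => M a x).prod
  have hlist : ∀ (l : List α) i j, (fun x => (l.map fun a => M a x).prod i j) ∈ S := by
    intro l
    induction l with
    | nil =>
      intro i j
      simp only [List.map_nil, List.prod_nil, Matrix.one_apply]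
      split_ifs
      exacts [S.one_mem, S.zero_mem]
    | cons a l ih =>
      intro i j
      simp only [List.map_cons, List.prod_cons, Matrix.mul_apply]
      have e : (fun x => ∑ c, M a x i c * (l.map fun a => M a x).prod c j) =
          ∑ c, (fun x => M a x i c) * fun x => (l.map fun a => M a x).prod c j := by
        funext x; simp [Finset.sum_apply]
      rw [e]
      exact Subring.sum_mem _ fun c _ => S.mul_mem (hM a i c) (ih c j)
  let K : X → Matrix (Fin m × Fin m) (Fin m × Fin m) ℂ := fun x =>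
    Matrix.of fun p q => Wd q x p.1 p.2
  refine ⟨fun x => (K x).det, ?_, ?_, fun x hx => ?_⟩
  · have e : (fun x => (K x).det) = ∑ σ : Equiv.Perm (Fin m × Fin m),
        (fun _ => ((Equiv.Perm.sign σ : ℤ) : ℂ)) *
          ∏ q, fun x => Wd q x (σ q).1 (σ q).2 := by
      funext x
      simp [Matrix.det_apply', K, Finset.sum_apply, Finset.prod_apply]
    rw [e]
    refine Subring.sum_mem _ fun σ _ => S.mul_mem ?_ (Subring.prod_mem _ fun q _ => hlist _ _ _)
    exact (show (fun _ : X => ((Equiv.Perm.sign σ : ℤ) : ℂ)) =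
      ((Equiv.Perm.sign σ : ℤ) : X → ℂ) from rfl) ▸ intCast_mem S _
  · have hK : K x₀ = (Matrix.stdBasis ℂ (Fin m) (Fin m)).toMatrix (B.reindex e) := by
      ext p q
      simp only [K, Wd, Matrix.of_apply, hw, Module.Basis.toMatrix_apply, Module.Basis.coe_reindex,
        Function.comp_apply, B, Module.Basis.coe_mk]
      simp [Matrix.stdBasis]
    show (K x₀).det ≠ 0
    rw [hK]
    exact (Matrix.isUnit_det_of_right_inverse
      (Module.Basis.toMatrix_mul_toMatrix_flip (Matrix.stdBasis ℂ (Fin m) (Fin m))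
        (B.reindex e))).ne_zero
  · rw [eq_top_iff]
    intro T _
    let c : Fin m × Fin m → ℂ := (K x)⁻¹ *ᵥ fun p => T p.1 p.2
    have hT : T = ∑ q, c q • Wd q x := by
      ext i j
      have h1 : (K x *ᵥ c) (i, j) = T i j := by
        simp only [c, mulVec_mulVec, Matrix.mul_nonsing_inv _ (Ne.isUnit hx), one_mulVec]
      rw [← h1]
      simp [Matrix.mulVec, dotProduct, K, Matrix.sum_apply, mul_comm]
    rw [hT]
    refine Subalgebra.sum_mem _ fun q _ => Subalgebra.smul_mem _ ?_ _
    refine Subalgebra.list_prod_mem _ fun y hy => ?_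
    obtain ⟨a, -, rfl⟩ := List.mem_map.1 hy
    exact Algebra.subset_adjoin ⟨a, rfl⟩

/-- Conjugation preserves generation. -/
lemma gen_conj {m : ℕ} {c : SL m ℂ} {s t : Set (Matrix (Fin m) (Fin m) ℂ)}
    (h : Algebra.adjoin ℂ s = ⊤) (hst : ∀ y ∈ s, c.1 * y * (c⁻¹).1 ∈ t) :
    Algebra.adjoin ℂ t = ⊤ := by
  have h1 : c.1 * (c⁻¹).1 = 1 := by rw [← mul_val, mul_inv_cancel, one_val]
  have h2 : (c⁻¹).1 * c.1 = 1 := by rw [← mul_val, inv_mul_cancel, one_val]
  rw [eq_top_iff]
  intro T _
  have key : ∀ y ∈ Algebra.adjoin ℂ s, c.1 * y * (c⁻¹).1 ∈ Algebra.adjoin ℂ t := by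
    intro y hy
    induction hy using Algebra.adjoin_induction with
    | mem y hy => exact Algebra.subset_adjoin (hst y hy)
    | algebraMap a =>
      rw [← Algebra.commutes, mul_assoc, h1, mul_one]
      exact Subalgebra.algebraMap_mem _ a
    | add a b _ _ ha hb => rw [mul_add, add_mul]; exact add_mem ha hb
    | mul a b _ _ ha hb =>
      rw [show c.1 * (a * b) * (c⁻¹).1 = c.1 * a * (c⁻¹).1 * (c.1 * b * (c⁻¹).1) by
        rw [show c.1 * a * (c⁻¹).1 * (c.1 * b * (c⁻¹).1) = c.1 * a * ((c⁻¹).1 * c.1) * b * (c⁻¹).1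
          by noncomm_ring, h2, mul_one]
        noncomm_ring]
      exact mul_mem ha hb
  have := key ((c⁻¹).1 * T * c.1) (by rw [h]; trivial)
  rwa [show c.1 * ((c⁻¹).1 * T * c.1) * (c⁻¹).1 = T by
    rw [show c.1 * ((c⁻¹).1 * T * c.1) * (c⁻¹).1 = (c.1 * (c⁻¹).1) * T * (c.1 * (c⁻¹).1) by
      noncomm_ring, h1, one_mul, mul_one]] at this

end Vale.Agent.P002.Frames
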