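import Vale.Agent.P002.Frames.Generic
import Vale.Agent.P002.Frames.Inverse
import Vale.Agent.P002.Frames.Tools
import Vale.Agent.P002.Frames.Irreducible

/-! The parametrisation of representations with prescribed regular classes. -/

open Matrix Filter Topology Finset

namespace Vale.Agent.P002.Frames

variable {n g k : ℕ}

lemma charpoly_conj (c A : SL (n + 1) ℂ) : (c * A * c⁻¹).1.charpoly = A.1.charpoly := by
  rw [mul_val, Matrix.charpoly_mul_comm, ← mul_val, ← mul_assoc, inv_mul_cancel, one_mul]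

lemma val3 (A B C : SL (n + 1) ℂ) : (A * B * C).1 = A.1 * B.1 * C.1 := by
  rw [mul_val, mul_val]

lemma cyclic_conj (c : SL (n + 1) ℂ) {A : SL (n + 1) ℂ} (hA : Cyclic A.1) :
    Cyclic (c * A * c⁻¹).1 := by
  rw [mul_val, mul_val, inv_apply]
  exact hA.conj c.2

lemma conj_sl {A B : SL (n + 1) ℂ} (hA : Cyclic A.1) (hB : Cyclic B.1)
    (h : A.1.charpoly = B.1.charpoly) : ∃ κ, A = κ * B * κ⁻¹ := by
  obtain ⟨S, hS, hAS⟩ := conj_of_cyclic (Nat.succ_pos n) hA hB h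
  obtain ⟨κ, hκ⟩ : ∃ κ : SL (n + 1) ℂ, κ = ⟨S, hS⟩ := ⟨_, rfl⟩
  refine ⟨κ, Subtype.ext ?_⟩
  rw [mul_val, mul_val, inv_apply, show κ.1 = S from congrArg Subtype.val hκ]
  exact hAS

lemma super_inv {A : SL (n + 1) ℂ} (hA : Up A) (i : Fin n) (h : A.1 i.castSucc i.succ ≠ 0) :
    (A⁻¹).1 i.castSucc i.succ ≠ 0 := by
  intro h0
  have e := super_mul hA hA.inv i
  rw [mul_inv_cancel, one_val, one_apply_ne Fin.castSucc_lt_succ.ne, h0, mul_zero, zero_add] at e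
  exact mul_ne_zero h (right_ne_zero_of_mul_eq_one (hA.inv_diag i.succ)) e.symm

lemma diag_eq {A : SL (n + 1) ℂ} (hA : Up A) {μ : Fin (n + 1) → ℂ} (hμ : ∏ i, μ i = 1)
    (h : ∀ i : Fin n, A.1 i.castSucc i.castSucc = μ i.castSucc) (j : Fin (n + 1)) :
    A.1 j j = μ j := by
  refine Fin.lastCases ?_ (fun i => h i) j
  have hdet : A.1.det = 1 := A.2
  rw [det_of_isUpperTriangular (fun a b hab => hA a b hab), Fin.prod_univ_castSucc] at hdet
  rw [Fin.prod_univ_castSucc] at hμ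
  simp only [h] at hdet
  exact mul_left_cancel₀ (left_ne_zero_of_mul_eq_one hμ) (hdet.trans hμ.symm)

lemma diOf_diag (d : Fin n → ℂˣ) (i : Fin n) :
    (diOf d).1 i.castSucc i.castSucc = d i := by
  rw [diOf, upOf_diag, Fin.lastCases_castSucc]

lemma upper_charpoly {A : SL (n + 1) ℂ} (hA : Up A) {μ : Fin (n + 1) → ℂ}
    (h : ∀ j, A.1 j j = μ j) :
    A.1.charpoly = ∏ j, (Polynomial.X - Polynomial.C (μ j)) := by
  rw [Matrix.charpoly_of_isUpperTriangular A.1 fun a b hab => hA a b hab]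
  simp only [h]

/-- A puncture element with grouped eigenvalues and nonvanishing superdiagonal. -/
lemma tElt_class {μ : Fin (n + 1) → ℂ} (hμ : ∏ i, μ i = 1) (hg : Grouped μ) (lam : Fin n → ℂˣ)
    (hlam : ∀ i, (lam i : ℂ) = μ i.castSucc) (x : XP n ℂ)
    (hx : ∀ a : Fin n, (bOf x).1 a.castSucc a.succ ≠ 0) :
    Cyclic (tElt lam x).1 ∧
      (tElt lam x).1.charpoly = ∏ j, (Polynomial.X - Polynomial.C (μ j)) := by
  set a := diOf lam * (bOf x)⁻¹ with ha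
  have hau : Up a := (diOf_up lam).mul (bOf_up x).inv
  have hd : ∀ j, a.1 j j = μ j := diag_eq hau hμ fun i => by
    rw [ha, (diOf_up lam).mul_diag (bOf_up x).inv, (bOf_uni x).inv_up (bOf_up x), mul_one,
      diOf_diag, hlam]
  have hs : ∀ i : Fin n, a.1 i.castSucc i.succ ≠ 0 := fun i => by
    rw [ha, super_mul (diOf_up lam) (bOf_up x).inv, diOf_lo lam _ _ Fin.castSucc_lt_succ,
      zero_mul, add_zero, diOf_diag]
    exact mul_ne_zero (lam i).ne_zero (super_inv (bOf_up x) i (hx i))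
  have hc : Cyclic a.1 := cyclic_of_triangular hau
    (by simpa only [hd] using hg) fun i _ => hs i
  have he : tElt lam x = (Vmat n x)⁻¹ * a * ((Vmat n x)⁻¹)⁻¹ := by
    rw [tElt, ha]; group
  rw [he]
  exact ⟨cyclic_conj _ hc, (charpoly_conj _ _).trans (upper_charpoly hau hd)⟩

/-- The closing element with grouped eigenvalues. -/
lemma outF_class {μ : Fin (n + 1) → ℂ} (hμ : ∏ i, μ i = 1) (hg : Grouped μ)
    (p : Par n g k ℂ) (lam : Fin k → Fin n → ℂˣ) (lamF : Fin n → ℂˣ)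
    (hlam : ∀ i, (lamF i : ℂ) = μ i.castSucc) (hp : p.Good lam lamF)
    (hs : ∀ a : Fin n, μ a.castSucc = μ a.succ → (p.R lam).1 a.castSucc a.succ ≠ 0) :
    Cyclic (p.outF lam).1 ∧
      (p.outF lam).1.charpoly = ∏ j, (Polynomial.X - Polynomial.C (μ j)) := by
  have hu := p.R_up lam
  have hd : ∀ j, ((p.R lam)⁻¹).1 j j = μ j := diag_eq hu.inv hμ fun i => by
    rw [← hlam]
    have h1 : (p.R lam).1 i.castSucc i.castSucc * (lamF i : ℂ) = 1 := hp i
    exact mul_left_cancel₀ (left_ne_zero_of_mul_eq_one h1)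
      ((hu.inv_diag i.castSucc).trans h1.symm)
  have hc : Cyclic ((p.R lam)⁻¹).1 := cyclic_of_triangular hu.inv
    (by simpa only [hd] using hg) fun i e => super_inv hu i (hs i (by rwa [← hd, ← hd]))
  exact ⟨cyclic_conj _ hc, (charpoly_conj _ _).trans (upper_charpoly hu.inv hd)⟩

/-- Tuples of representations. -/
abbrev XS (n g k : ℕ) : Type :=
  (Fin g → SL (n + 1) ℂ × SL (n + 1) ℂ) × (Fin k → SL (n + 1) ℂ) × SL (n + 1) ℂ

/-- The relation and the classes. -/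
def InHom (T : Fin (k + 1) → SL (n + 1) ℂ) (X : XS n g k) : Prop :=
  (∀ i : Fin k, ∃ κ, X.2.1 i = κ * T i.castSucc * κ⁻¹) ∧
    (∃ κ, X.2.2 = κ * T (Fin.last k) * κ⁻¹) ∧
    (List.ofFn fun i => (X.1 i).1 * (X.1 i).2 * (X.1 i).1⁻¹ * (X.1 i).2⁻¹).prod *
      (List.ofFn X.2.1).prod * X.2.2 = 1

/-- The generators. -/
def gens (X : XS n g k) : Fin g ⊕ Fin g ⊕ Fin k ⊕ Unit → Matrix (Fin (n + 1)) (Fin (n + 1)) ℂ :=
  Sum.elim (fun i => (X.1 i).1.1) (Sum.elim (fun i => (X.1 i).2.1)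
    (Sum.elim (fun i => (X.2.1 i).1) fun _ => X.2.2.1))

/-- The first two punctures generate for suitable parameters in genus zero. -/
lemma gen_witness_zero (hk : 3 ≤ k) (lam : Fin k → Fin n → ℂˣ) (lamF : Fin n → ℂˣ)
    (p₁ : Par n 0 k ℂ) (hcyc : ∀ i, Cyclic (tElt (lam i) (p₁.X i)).1) :
    ∃ p : Par n 0 k ℂ, Algebra.adjoin ℂ
      (Set.range (gens ((p.fix lam lamF (0 + k - 1)).outs lam))) = ⊤ := by
  set j := 0 + k - 1 with hj
  let i₀ : Fin k := ⟨0, by omega⟩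
  let i₁ : Fin k := ⟨1, by omega⟩
  set Z₀ := tZ (lam i₀) (p₁.X i₀) with hZ₀
  have hj0 : (0 : ℕ) < 0 + k := by omega
  let q₀ := Z₀⁻¹ * jm (p₁.J ⟨0, hj0⟩)
  have hV : {q : SL (n + 1) ℂ | Up (Z₀ * q) → ∃ J, jm J = Z₀ * q} ∈ 𝓝 q₀ := by
    have h := jm_near (p₁.J ⟨0, hj0⟩) (V := Set.univ) univ_mem
    have ht : Tendsto (fun q => Z₀ * q) (𝓝 q₀) (𝓝 (jm (p₁.J ⟨0, hj0⟩))) := by
      have hc : Continuous fun q : SL (n + 1) ℂ => Z₀ * q := continuous_const.mul continuous_id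
      have := hc.tendsto q₀
      rwa [show Z₀ * q₀ = jm (p₁.J ⟨0, hj0⟩) by simp [q₀]] at this
    exact (ht.eventually h).mono fun q hq hu => by
      obtain ⟨J, hJ, -⟩ := hq hu
      exact ⟨J, hJ⟩
  have hc : ∀ i, Cyclic (wl (n + 1) * tZ (lam i) (p₁.X i)).1 := fun i => by
    rw [← tElt_eq]
    exact hcyc i
  obtain ⟨q, hqV, hq, hgen⟩ := gen_pair_conj (tZ_up (lam i₀) (p₁.X i₀))
    (tZ_up (lam i₁) (p₁.X i₁)) ((tZ_up _ _).inv.mul (jm_up _)) (hc i₀) (hc i₁) hV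
  obtain ⟨J, hJ⟩ := hqV ((tZ_up _ _).mul hq)
  let p₂ : Par n 0 k ℂ := { p₁ with J := Function.update p₁.J ⟨0, hj0⟩ J }
  refine ⟨p₂, gen_conj (c := p₁.gau * p₁.q0) hgen ?_⟩
  set p := p₂.fix lam lamF j
  have hX : ∀ i : Fin k, (i : ℕ) ≠ j → p.X i = p₁.X i := fun i hi =>
    Par.fix_X_of_ne p₂ lam lamF (by simpa using hi)
  have hP : ∀ l, p.PB l = 1 := fun l => dif_neg (Nat.not_lt_zero l)
  have hZ : p.ZB lam 0 = Z₀ := by
    rw [Par.ZB, dif_neg (lt_irrefl 0), dif_pos (show 0 - 0 < k by omega)]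
    show tZ (lam i₀) (p.X i₀) = _
    rw [hX i₀ (by show 0 ≠ j; omega)]
  have hf0 : p.frame lam 0 = p₁.gau * p₁.q0 := by
    rw [Par.frame, Par.qOf, if_pos (by omega)]
    rfl
  have hf1 : p.frame lam 1 = p₁.gau * p₁.q0 * q := by
    rw [Par.frame, Par.qOf, if_pos (by omega)]
    show p₁.gau * ((p.ZB lam 0 * p.q0⁻¹)⁻¹ * jm (p.JN 0) * (p.PB 1)⁻¹) = _
    rw [hP, hZ, show p.JN 0 = J by
      show (if h : 0 < 0 + k then p₂.J ⟨0, h⟩ else _) = J
      rw [dif_pos hj0]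
      show Function.update p₁.J ⟨0, hj0⟩ J ⟨0, hj0⟩ = J
      exact Function.update_self .., hJ]
    show p₁.gau * ((Z₀ * p₁.q0⁻¹)⁻¹ * (Z₀ * q) * 1⁻¹) = _
    group
  rintro y (rfl | rfl)
  · refine ⟨Sum.inr (Sum.inr (Sum.inl i₀)), ?_⟩
    show (p.outC lam i₀).1 = _
    rw [Par.outC, show 0 + (i₀ : ℕ) = 0 from rfl, hX i₀ (by show 0 ≠ j; omega), hf0, tElt_eq,
      mul_val (p₁.gau * p₁.q0 * _), mul_val (p₁.gau * p₁.q0)]
  · refine ⟨Sum.inr (Sum.inr (Sum.inl i₁)), ?_⟩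
    show (p.outC lam i₁).1 = _
    rw [Par.outC, show 0 + (i₁ : ℕ) = 1 from rfl, hX i₁ (by show 1 ≠ j; omega), hf1, tElt_eq]
    have e : p₁.gau * p₁.q0 * q * (wl (n + 1) * tZ (lam i₁) (p₁.X i₁)) *
        (p₁.gau * p₁.q0 * q)⁻¹ = p₁.gau * p₁.q0 *
          (q * (wl (n + 1) * tZ (lam i₁) (p₁.X i₁)) * q⁻¹) * (p₁.gau * p₁.q0)⁻¹ := by group
    exact (congrArg Subtype.val e).trans
      (val3 (p₁.gau * p₁.q0) (q * (wl (n + 1) * tZ (lam i₁) (p₁.X i₁)) * q⁻¹)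
        (p₁.gau * p₁.q0)⁻¹)

/-- The first handle generates for suitable parameters in positive genus. -/
lemma gen_witness_pos (hg : 0 < g) (hN : 2 ≤ g + k) (lam : Fin k → Fin n → ℂˣ)
    (lamF : Fin n → ℂˣ) (p₁ : Par n g k ℂ) :
    ∃ p : Par n g k ℂ, Algebra.adjoin ℂ
      (Set.range (gens ((p.fix lam lamF (g + k - 1)).outs lam))) = ⊤ := by
  set j := g + k - 1 with hj
  let i₀ : Fin g := ⟨0, hg⟩
  obtain ⟨PA, ZA, PB, ZB, hPA, hZA, hPB, hZB, hgen⟩ := gen_pair_cell (n := n)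
  let ι := Fin 4 × Fin (n + 1) × Fin (n + 1)
  let κ := Fin 4 × Fin n
  let E : Pt ι κ → Fin 4 → SL (n + 1) ℂ := fun w a =>
    upOf (fun l => w.2 (a, l)) fun c e => w.1 (a, c, e)
  let pr : Pt ι κ → Bool → SL (n + 1) ℂ := fun w b =>
    if b then E w 2 * wl (n + 1) * E w 3 else E w 0 * wl (n + 1) * E w 1
  have hpr : ∀ (b : Bool) i l, (fun w => (pr w b).1 i l) ∈ LP ι κ := by
    have hE : ∀ a i l, (fun w => (E w a).1 i l) ∈ LP ι κ := by
      intro a i l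
      let U : SL (n + 1) (LP ι κ) := upOf (fun c => unitLI (a, c)) fun c e => coordLI (a, c, e)
      have e : (fun w => (E w a).1 i l) = (U.1 i l).1 := funext fun w => by
        show (upOf (fun c => w.2 (a, c)) fun c e => w.1 (a, c, e)).1 i l = evLI w (U.1 i l)
        rw [← mp_apply (evLI w) U, mp_upOf]
        simp only [evLI_coord, evLI_unit]
      rw [e]
      exact (U.1 i l).2
    have hmul : ∀ {A B : Pt ι κ → SL (n + 1) ℂ}, (∀ i l, (fun w => (A w).1 i l) ∈ LP ι κ) →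
        (∀ i l, (fun w => (B w).1 i l) ∈ LP ι κ) →
        ∀ i l, (fun w => (A w * B w).1 i l) ∈ LP ι κ := by
      intro A B hA hB i l
      have e : (fun w => (A w * B w).1 i l) =
          ∑ c, (fun w => (A w).1 i c) * fun w => (B w).1 c l := by
        funext w; simp [Matrix.mul_apply, Finset.sum_apply]
      rw [e]
      exact Subring.sum_mem _ fun c _ => Subring.mul_mem _ (hA i c) (hB c l)
    have hwl : ∀ i l, (fun _ : Pt ι κ => (wl (K := ℂ) (n + 1)).1 i l) ∈ LP ι κ := fun i l =>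
      (constLI (R := (⊤ : Subring ℂ)) ⟨(wl (K := ℂ) (n + 1)).1 i l, trivial⟩).2
    intro b i l
    cases b
    · simpa [pr] using hmul (hmul (hE 0) hwl) (hE 1) i l
    · simpa [pr] using hmul (hmul (hE 2) hwl) (hE 3) i l
  have hsurj : ∀ P Z P' Z' : SL (n + 1) ℂ, Up P → Up Z → Up P' → Up Z' →
      ∃ w, pr w false = P * wl (n + 1) * Z ∧ pr w true = P' * wl (n + 1) * Z' := by
    intro P Z P' Z' hP hZ hP' hZ'
    obtain ⟨d0, u0, e0⟩ := exists_upOf hP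
    obtain ⟨d1, u1, e1⟩ := exists_upOf hZ
    obtain ⟨d2, u2, e2⟩ := exists_upOf hP'
    obtain ⟨d3, u3, e3⟩ := exists_upOf hZ'
    refine ⟨(fun q => ![u0, u1, u2, u3] q.1 q.2.1 q.2.2, fun q => ![d0, d1, d2, d3] q.1 q.2),
      ?_, ?_⟩
    · simp [pr, E, e0, e1]
    · simp [pr, E, e2, e3]
  obtain ⟨wg, hwa, hwb⟩ := hsurj PA ZA PB ZB hPA hZA hPB hZB
  obtain ⟨F, hF, hFg, hFgen⟩ := exists_gen_condition (fun b w => (pr w b).1) (LP ι κ) hpr
    (x₀ := wg) (by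
      rw [eq_top_iff, ← hgen]
      refine Algebra.adjoin_mono ?_
      rintro y (rfl | rfl)
      · exact ⟨false, congrArg Subtype.val hwa⟩
      · exact ⟨true, congrArg Subtype.val hwb⟩)
  obtain ⟨w₀, hwA, hwB⟩ := hsurj (p₁.H i₀).pA (p₁.H i₀).zA (p₁.H i₀).pB (p₁.H i₀).zB
    (p₁.H i₀).pA_up (p₁.H i₀).zA_up (p₁.H i₀).pB_up (p₁.H i₀).zB_up
  have hev : ∀ᶠ w in 𝓝 w₀, ∃ h : HPar n ℂ, h.A = pr w false ∧ h.B = pr w true := by
    have hc : ∀ b, Continuous fun w => pr w b := fun b =>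
      continuous_induced_rng.2 (continuous_matrix fun i l => continuous_LP (hpr b i l))
    have h := handle_near (p₁.H i₀) (V := Set.univ) univ_mem
    rw [show (p₁.H i₀).A = pr w₀ false from hwA.symm,
      show (p₁.H i₀).B = pr w₀ true from hwB.symm] at h
    exact (((hc false).prodMk (hc true)).continuousAt.eventually h).mono
      fun w ⟨h, h1, h2, _⟩ => ⟨h, h1, h2⟩
  obtain ⟨w, ⟨h, hA, hB⟩, hFw⟩ : ∃ w, (∃ h : HPar n ℂ, h.A = pr w false ∧ h.B = pr w true) ∧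
      F w ≠ 0 := by
    by_contra hne
    push Not at hne
    exact hFg (eq_zero_of_nhds hF (hev.mono fun w hw => hne w hw) wg)
  let p₂ : Par n g k ℂ := { p₁ with H := Function.update p₁.H i₀ h }
  refine ⟨p₂, gen_conj (c := p₁.gau * p₁.q0) (hFgen w hFw) ?_⟩
  set p := p₂.fix lam lamF j
  have hH : p.H i₀ = h := by
    simp only [p, Par.fix, Par.setRow, if_neg (show (i₀ : ℕ) ≠ j by show 0 ≠ j; omega)]
    show Function.update p₁.H i₀ h i₀ = h
    exact Function.update_self ..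
  have hf0 : p.frame lam 0 = p₁.gau * p₁.q0 := by
    rw [Par.frame, Par.qOf, if_pos (by omega)]
    rfl
  rintro y ⟨b, rfl⟩
  cases b
  · refine ⟨Sum.inl i₀, ?_⟩
    show (p.frame lam 0 * (p.H i₀).A * (p.frame lam 0)⁻¹).1 = _
    rw [hH, hA, hf0, mul_val, mul_val]
  · refine ⟨Sum.inr (Sum.inl i₀), ?_⟩
    show (p.frame lam 0 * (p.H i₀).B * (p.frame lam 0)⁻¹).1 = _
    rw [hH, hB, hf0, mul_val, mul_val]

lemma gen_witness (hχ : 3 ≤ 2 * g + k) (lam : Fin k → Fin n → ℂˣ) (lamF : Fin n → ℂˣ)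
    (p₁ : Par n g k ℂ) (hcyc : ∀ i, Cyclic (tElt (lam i) (p₁.X i)).1) :
    ∃ p : Par n g k ℂ, Algebra.adjoin ℂ
      (Set.range (gens ((p.fix lam lamF (g + k - 1)).outs lam))) = ⊤ := by
  rcases Nat.eq_zero_or_pos g with rfl | hg
  · exact gen_witness_zero (by omega) lam lamF p₁ hcyc
  · exact gen_witness_pos hg (by omega) lam lamF p₁

variable {R : Subring ℂ} (μ : Fin (k + 1) → Fin (n + 1) → Rˣ)

/-- The eigenvalues used for the punctures. -/
def lamOf : Fin k → Fin n → Rˣ := fun i l => μ i.castSucc l.castSucc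

/-- The eigenvalues used for the last puncture. -/
def lamLast : Fin n → Rˣ := fun l => μ (Fin.last k) l.castSucc

/-- The parametrisation. -/
noncomputable def Phi (z : Z n g k) : XS n g k :=
  (fixAt (lamOf μ) (lamLast μ) (g + k - 1) z).outs (cuLam (lamOf μ))

lemma gens_LP (a : Fin g ⊕ Fin g ⊕ Fin k ⊕ Unit) (i j : Fin (n + 1)) :
    (fun z : Z n g k => gens (Phi μ z) a i j) ∈ LI R (AIx n g) (UIx n g k) := by
  rcases a with b | b | b | b
  · exact outA_LI (lamOf μ) (lamLast μ) _ b i j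
  · exact outB_LI (lamOf μ) (lamLast μ) _ b i j
  · exact outC_LI (lamOf μ) (lamLast μ) _ b i j
  · exact outF_LI (lamOf μ) (lamLast μ) _ i j

/-- The parametrisation has generic points of the right kind and covers a neighbourhood. -/
theorem core (hχ : 3 ≤ 2 * g + k) (hgr : ∀ i, Grouped fun l => (cu (μ i l) : ℂ))
    (hprod : ∀ i, ∏ l, (cu (μ i l) : ℂ) = 1)
    (hR : ∀ a : Fin n, (cu (μ (Fin.last k) a.castSucc) : ℂ) = cu (μ (Fin.last k) a.succ) →
      ∃ p : Par n g k ℂ, p.Good (cuLam (lamOf μ)) (fun l => cu (lamLast μ l)) ∧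
        (p.R (cuLam (lamOf μ))).1 a.castSucc a.succ ≠ 0)
    {T : Fin (k + 1) → SL (n + 1) ℂ} (hT : ∀ i, Cyclic (T i).1)
    (hTc : ∀ i, (T i).1.charpoly = ∏ l, (Polynomial.X - Polynomial.C (cu (μ i l) : ℂ))) :
    ∃ (G : Z n g k → ℂ) (z₀ : Z n g k), G ∈ LP (AIx n g) (UIx n g k) ∧ G z₀ ≠ 0 ∧
      (∀ z, G z ≠ 0 → InHom T (Phi μ z) ∧
        Algebra.adjoin ℂ (Set.range (gens (Phi μ z))) = ⊤) ∧
      ∀ᶠ X in 𝓝 (Phi μ z₀), InHom T X → ∃ z, Phi μ z = X := by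
  classical
  have hN : 2 ≤ g + k := by omega
  set j := g + k - 1 with hj
  set lam := cuLam (lamOf μ) with hlam
  set lamF : Fin n → ℂˣ := fun l => cu (lamLast μ l) with hlamF
  have hfx : ∀ z : Z n g k, fixAt (lamOf μ) (lamLast μ) j z = (parAt z).fix lam lamF j := fun _ => rfl
  have hgood : ∀ z, (fixAt (g := g) (lamOf μ) (lamLast μ) j z).Good lam lamF :=
    fun z => (parAt z).fix_good lam hN lamF j (by omega)
  have hlift : ∀ p : Par n g k ℂ, p.Good lam lamF →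
      ∃ z, fixAt (lamOf μ) (lamLast μ) j z = p := fun p hp => by
    obtain ⟨z, hz⟩ := parAt_surj p
    exact ⟨z, by rw [hfx, hz, p.fix_self lam hN lamF j (by omega) hp]⟩
  -- genericity functions
  let Idx := (Fin k × Fin n) ⊕ {a : Fin n // (cu (μ (Fin.last k) a.castSucc) : ℂ) =
    cu (μ (Fin.last k) a.succ)}
  let f : Idx → Z n g k → ℂ := Sum.elim
    (fun q z => (bOf ((fixAt (lamOf μ) (lamLast μ) j z).X q.1)).1 q.2.castSucc q.2.succ)
    (fun a z => ((fixAt (lamOf μ) (lamLast μ) j z).R lam).1 a.1.castSucc a.1.succ)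
  have hfLP : ∀ q, f q ∈ LP (AIx n g) (UIx n g k) := by
    rintro (q | a)
    · exact LI_le_LP (bOf_LI (lamOf μ) (lamLast μ) j q.1 q.2.castSucc q.2.succ)
    · exact LI_le_LP (R_LI (lamOf μ) (lamLast μ) j a.1.castSucc a.1.succ)
  have hfne : ∀ q, ∃ z, f q z ≠ 0 := by
    rintro (q | a)
    · obtain ⟨p, hp, hs⟩ := Par.exists_good_super_X hN lam lamF q.1
      obtain ⟨z, hz⟩ := hlift p hp
      exact ⟨z, by show (bOf _).1 _ _ ≠ 0; rw [hz]; exact hs q.2⟩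
    · obtain ⟨p, hp, hs⟩ := hR a.1 a.2
      obtain ⟨z, hz⟩ := hlift p hp
      exact ⟨z, by show (Par.R _ lam).1 _ _ ≠ 0; rw [hz]; exact hs⟩
  let G : Z n g k → ℂ := ∏ q, f q
  have hG : G ∈ LP (AIx n g) (UIx n g k) := Subring.prod_mem _ fun q _ => hfLP q
  have hGne : ∀ z, G z ≠ 0 ↔ ∀ q, f q z ≠ 0 := fun z => by
    simp [G, Finset.prod_apply, Finset.prod_ne_zero_iff]
  -- the classes
  have hclC : ∀ p : Par n g k ℂ, ∀ i : Fin k, (∀ a : Fin n, (bOf (p.X i)).1 a.castSucc a.succ ≠ 0) →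
      Cyclic (tElt (lam i) (p.X i)).1 ∧ ∃ κ, p.outC lam i = κ * T i.castSucc * κ⁻¹ := by
    intro p i hs
    obtain ⟨hc, hp⟩ := tElt_class (hprod i.castSucc) (hgr i.castSucc) (lam i) (fun _ => rfl)
      (p.X i) hs
    obtain ⟨κ, hκ⟩ := conj_sl hc (hT i.castSucc) (hp.trans (hTc i.castSucc).symm)
    refine ⟨hc, p.frame lam (g + i) * κ, ?_⟩
    rw [Par.outC, hκ]
    group
  have hin : ∀ z, G z ≠ 0 → InHom T (Phi μ z) := by
    intro z hz
    rw [hGne] at hz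
    refine ⟨fun i => (hclC _ i fun a => hz (Sum.inl (i, a))).2, ?_,
      (fixAt (lamOf μ) (lamLast μ) j z).relation lam hN⟩
    obtain ⟨hc, hp⟩ := outF_class (hprod (Fin.last k)) (hgr (Fin.last k))
      (fixAt (lamOf μ) (lamLast μ) j z) lam lamF (fun _ => rfl) (hgood z)
      (fun a e => hz (Sum.inr ⟨a, e⟩))
    exact conj_sl hc (hT _) (hp.trans (hTc _).symm)
  obtain ⟨z₁, hz₁⟩ := exists_common_ne_zero Finset.univ (f := f) (fun q _ => hfLP q)
    (fun q _ => hfne q)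
  -- a generating point
  have hirr : ∃ z₂ : Z n g k, Algebra.adjoin ℂ (Set.range (gens (Phi μ z₂))) = ⊤ := by
    suffices ∃ p : Par n g k ℂ, Algebra.adjoin ℂ
        (Set.range (gens ((p.fix lam lamF j).outs lam))) = ⊤ by
      obtain ⟨p, hp⟩ := this
      obtain ⟨z, rfl⟩ := parAt_surj p
      exact ⟨z, hp⟩
    exact gen_witness hχ lam lamF (fixAt (lamOf μ) (lamLast μ) j z₁)
      fun i => (hclC _ i fun a => hz₁ (Sum.inl (i, a)) (Finset.mem_univ _)).1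
  obtain ⟨z₂, hz₂⟩ := hirr
  obtain ⟨F, hF, hFne, hFgen⟩ := exists_gen_condition (fun a z => gens (Phi μ z) a)
    (LP (AIx n g) (UIx n g k)) (fun a i l => LI_le_LP (gens_LP μ a i l)) hz₂
  obtain ⟨z₀, hz₀⟩ := exists_common_ne_zero Finset.univ (f := fun b : Bool => if b then F else G)
    (fun b _ => by cases b <;> assumption)
    (fun b _ => by
      cases b
      · exact ⟨z₁, (hGne z₁).2 fun q => hz₁ q (Finset.mem_univ q)⟩
      · exact ⟨z₂, hFne⟩)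
  have hG0 : G z₀ ≠ 0 := hz₀ false (Finset.mem_univ _)
  refine ⟨G * F, z₀, Subring.mul_mem _ hG hF,
    mul_ne_zero hG0 (hz₀ true (Finset.mem_univ _)),
    fun z hz => ⟨hin z (left_ne_zero_of_mul hz), hFgen z (right_ne_zero_of_mul hz)⟩, ?_⟩
  obtain ⟨hC0, hF0, -⟩ := hin z₀ hG0
  filter_upwards [cover hN (fixAt (lamOf μ) (lamLast μ) j z₀) lam lamF (hgood z₀)] with X hX hXT
  obtain ⟨p, hp, hpX⟩ := hX
    (fun i => by
      obtain ⟨a, ha⟩ := hXT.1 i
      obtain ⟨b, hb⟩ := hC0 i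
      refine ⟨a * b⁻¹, ?_⟩
      rw [ha, show (fixAt (lamOf μ) (lamLast μ) j z₀).outC lam i = _ from hb]
      group)
    (by
      obtain ⟨a, ha⟩ := hXT.2.1
      obtain ⟨b, hb⟩ := hF0
      refine ⟨a * b⁻¹, ?_⟩
      rw [ha, show (fixAt (lamOf μ) (lamLast μ) j z₀).outF lam = _ from hb]
      group)
    hXT.2.2
  obtain ⟨z, hz⟩ := hlift p hp
  exact ⟨z, by rw [← hpX, ← hz]; rfl⟩

end Vale.Agent.P002.Frames
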