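import Vale.Agent.P002.Frames.Param

/-! Everything defined from the parameters commutes with ring homomorphisms. -/

open Matrix Finset

namespace Vale.Agent.P002.Frames

variable {n g k : ℕ} {K L : Type*} [CommRing K] [CommRing L] (f : K →+* L)

lemma mpX_setRow (x : XP n K) (y : Fin n → Kˣ) :
    mpX f (fun (a : Fin n) (b : Fin n) => if (a : ℕ) = 0 then y b else x a b) =
      fun (a : Fin n) (b : Fin n) =>
        if (a : ℕ) = 0 then Units.map (f : K →* L) (y b) else mpX f x a b := by
  funext a b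
  simp only [mpX]
  split_ifs <;> rfl

namespace Par

variable (p : Par n g k K) (lam : Fin k → Fin n → Kˣ)

lemma mp_PB (j : ℕ) : mp f (p.PB j) = (mpP f p).PB j := by
  unfold PB; split_ifs with h
  · exact HPar.mp_P f _
  · exact map_one _

lemma mp_ZB (j : ℕ) : mp f (p.ZB lam j) = (mpP f p).ZB (mpLam f lam) j := by
  unfold ZB; split_ifs with h h'
  · exact HPar.mp_Z f _
  · exact mp_tZ f _ _
  · exact map_one _

lemma mp_JN (j : ℕ) : mpJ f (p.JN j) = (mpP f p).JN j := by
  unfold JN; split_ifs with h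
  · rfl
  · refine Prod.ext (funext fun i => map_one _) (funext fun a => funext fun b => map_one _)

lemma mp_q0 : mp f p.q0 = (mpP f p).q0 := mp_upOf f _ _

lemma mp_gau : mp f p.gau = (mpP f p).gau := mp_loOf f _

lemma mp_qOf (j : ℕ) : mp f (p.qOf lam j) = (mpP f p).qOf (mpLam f lam) j := by
  unfold qOf
  split_ifs with h
  · rw [(mp_st f p.JN j).2.2]; simp only [mp_PB, mp_ZB, mp_JN, mp_q0]
  · rw [mp_qL]; simp only [mp_PB, mp_ZB, mp_JN, mp_q0]; rfl

lemma mp_R : mp f (p.R lam) = (mpP f p).R (mpLam f lam) := by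
  unfold R; rw [mp_RL]; simp only [mp_PB, mp_ZB, mp_JN, mp_q0]; rfl

lemma mp_frame (j : ℕ) : mp f (p.frame lam j) = (mpP f p).frame (mpLam f lam) j := by
  unfold frame; rw [map_mul, mp_gau, mp_qOf]

lemma mp_outA (i : Fin g) : mp f (p.outA lam i) = (mpP f p).outA (mpLam f lam) i := by
  unfold outA; rw [map_mul, map_mul, map_inv, mp_frame, HPar.mp_A]; rfl

lemma mp_outB (i : Fin g) : mp f (p.outB lam i) = (mpP f p).outB (mpLam f lam) i := by
  unfold outB; rw [map_mul, map_mul, map_inv, mp_frame, HPar.mp_B]; rfl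

lemma mp_outC (i : Fin k) : mp f (p.outC lam i) = (mpP f p).outC (mpLam f lam) i := by
  unfold outC; rw [map_mul, map_mul, map_inv, mp_frame, mp_tElt]; rfl

lemma mp_outF : mp f (p.outF lam) = (mpP f p).outF (mpLam f lam) := by
  unfold outF; rw [map_mul, map_mul, map_inv, map_inv, mp_gau, mp_R]

lemma mp_setRow (j : ℕ) (y : Fin n → Kˣ) :
    mpP f (p.setRow j y) = (mpP f p).setRow j fun b => Units.map (f : K →* L) (y b) := by
  simp only [mpP, setRow, Par.mk.injEq, true_and, and_true]
  constructor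
  · funext i
    by_cases e : (i : ℕ) = j
    · simp only [if_pos e, mpH, mpJ, mpX_setRow]
    · simp only [if_neg e]
  · funext i
    by_cases e : g + (i : ℕ) = j
    · simp only [if_pos e, mpX_setRow]
    · simp only [if_neg e]

lemma mp_fix (lamF : Fin n → Kˣ) (j : ℕ) :
    mpP f (p.fix lam lamF j) =
      (mpP f p).fix (mpLam f lam) (fun i => Units.map (f : K →* L) (lamF i)) j := by
  have e1 : mpP f (p.setRow j fun _ => 1) = (mpP f p).setRow j fun _ => 1 := by
    rw [mp_setRow]; congr 1; funext b; exact map_one _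
  unfold fix solveRow
  rw [mp_setRow]
  congr 1
  funext i
  rw [map_inv, map_mul]
  congr 2
  refine Units.ext ?_
  rw [Units.coe_map, IsUnit.unit_spec, IsUnit.unit_spec, ← e1, ← mp_R]
  exact (mp_apply f _ _ _).symm

end Par

end Vale.Agent.P002.Frames
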