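import Vale.Agent.P002.Frames.Chain

/-! Parameters for punctured surfaces and the representations they define. -/

open Matrix Finset

namespace Vale.Agent.P002.Frames

variable {n g k : ℕ} {K L : Type*} [CommRing K] [CommRing L] (f : K →+* L)

/-- Parameters for genus `g` with `k + 1` punctures. -/
structure Par (n g k : ℕ) (K : Type*) [CommRing K] where
  /-- gauge -/
  gu : Fin (n + 1) → Fin (n + 1) → K
  /-- diagonal of the first conjugator -/
  qd : Fin n → Kˣ
  /-- entries of the first conjugator -/
  qu : Fin (n + 1) → Fin (n + 1) → K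
  /-- handles -/
  H : Fin g → HPar n K
  /-- puncture charts -/
  X : Fin k → XP n K
  /-- joints -/
  J : Fin (g + k) → Jt n K
  /-- closing joint -/
  t : Fin n → Kˣ

/-- Map parameters. -/
def mpP (p : Par n g k K) : Par n g k L :=
  ⟨fun i j => f (p.gu i j), fun i => Units.map (f : K →* L) (p.qd i), fun i j => f (p.qu i j),
    fun i => mpH f (p.H i), fun i => mpX f (p.X i), fun i => mpJ f (p.J i),
    fun i => Units.map (f : K →* L) (p.t i)⟩

/-- Map eigenvalues. -/
def mpLam {ι : Type*} (lam : ι → Fin n → Kˣ) : ι → Fin n → Lˣ :=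
  fun j i => Units.map (f : K →* L) (lam j i)

namespace Par

variable (p : Par n g k K) (lam : Fin k → Fin n → Kˣ)

/-- Left factors of the blocks. -/
noncomputable def PB (j : ℕ) : SL (n + 1) K := if h : j < g then (p.H ⟨j, h⟩).P else 1

/-- Right factors of the blocks. -/
noncomputable def ZB (j : ℕ) : SL (n + 1) K :=
  if h : j < g then (p.H ⟨j, h⟩).Z else
    if h' : j - g < k then tZ (lam ⟨j - g, h'⟩) (p.X ⟨j - g, h'⟩) else 1

/-- The joints. -/
def JN (j : ℕ) : Jt n K := if h : j < g + k then p.J ⟨j, h⟩ else (fun _ => 1, fun _ _ => 1)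

/-- The first conjugator. -/
def q0 : SL (n + 1) K := upOf p.qd p.qu

/-- The gauge. -/
def gau : SL (n + 1) K := loOf p.gu

/-- The conjugator of a block. -/
noncomputable def qOf (j : ℕ) : SL (n + 1) K :=
  if j < g + k - 1 then (st p.PB (p.ZB lam) p.q0 p.JN j).2.2
  else qL p.PB (p.ZB lam) p.q0 p.JN (g + k - 2) p.t

/-- The product of all blocks. -/
noncomputable def R : SL (n + 1) K := RL p.PB (p.ZB lam) p.q0 p.JN (g + k - 2) p.t

/-- Conjugation into the final coordinates. -/
noncomputable def frame (j : ℕ) : SL (n + 1) K := p.gau * p.qOf lam j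

/-- The handle matrices. -/
noncomputable def outA (i : Fin g) : SL (n + 1) K :=
  p.frame lam i * (p.H i).A * (p.frame lam i)⁻¹

/-- The handle matrices. -/
noncomputable def outB (i : Fin g) : SL (n + 1) K :=
  p.frame lam i * (p.H i).B * (p.frame lam i)⁻¹

/-- The puncture matrices except the last. -/
noncomputable def outC (i : Fin k) : SL (n + 1) K :=
  p.frame lam (g + i) * tElt (lam i) (p.X i) * (p.frame lam (g + i))⁻¹

/-- The last puncture matrix. -/
noncomputable def outF : SL (n + 1) K := p.gau * (p.R lam)⁻¹ * p.gau⁻¹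

lemma PB_up (j : ℕ) : Up (p.PB j) := by
  unfold PB; split_ifs
  exacts [HPar.P_up _, Up.one]

lemma ZB_up (j : ℕ) : Up (p.ZB lam j) := by
  unfold ZB; split_ifs
  exacts [HPar.Z_up _, tZ_up _ _, Up.one]

lemma q0_up : Up p.q0 := upOf_up _ _

lemma R_up : Up (p.R lam) := RL_up _ p.PB_up (p.ZB_up lam) p.q0_up _ _

lemma relation (hN : 2 ≤ g + k) :
    (List.ofFn fun i => p.outA lam i * p.outB lam i * (p.outA lam i)⁻¹ * (p.outB lam i)⁻¹).prod *
      (List.ofFn fun i => p.outC lam i).prod * p.outF lam = 1 := by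
  set F : ℕ → SL (n + 1) K := fun j =>
    p.frame lam j * (p.PB j * wl (n + 1) * p.ZB lam j) * (p.frame lam j)⁻¹ with hF
  have h1 : (fun i : Fin g => p.outA lam i * p.outB lam i * (p.outA lam i)⁻¹ *
      (p.outB lam i)⁻¹) = fun i : Fin g => F i := by
    funext i
    simp only [F, outA, outB, PB, ZB, dif_pos i.isLt, Fin.eta, ← HPar.comm_eq]
    group
  have h2 : (fun i : Fin k => p.outC lam i) = fun i : Fin k => F (g + i) := by
    funext i
    simp only [F, outC, PB, ZB, show ¬ (g + (i : ℕ)) < g by omega, dif_neg, not_false_iff,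
      Nat.add_sub_cancel_left, dif_pos i.isLt, Fin.eta, one_mul, tElt_eq]
  have h3 : List.ofFn (fun i : Fin g => F i) ++ List.ofFn (fun i : Fin k => F (g + i)) =
      (List.range (g + k)).map F := by
    refine List.ext_getElem (by simp) fun j hj hj' => ?_
    simp only [List.getElem_map, List.getElem_range]
    rw [List.getElem_append]
    split_ifs with h
    · simp
    · simp only [List.length_ofFn, not_lt] at h
      simp [Nat.add_sub_cancel' h]
  rw [h1, h2, ← List.prod_append, h3]
  obtain ⟨m, hm⟩ : ∃ m, g + k = m + 2 := ⟨g + k - 2, by omega⟩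
  have hconj : ((List.range (g + k)).map F).prod =
      p.gau * p.R lam * p.gau⁻¹ := by
    have hc : ∀ (G : ℕ → SL (n + 1) K) (l : List ℕ),
        (l.map fun j => p.gau * G j * p.gau⁻¹).prod = p.gau * (l.map G).prod * p.gau⁻¹ := by
      intro G l
      induction l with
      | nil => simp
      | cons a l ih => simp only [List.map_cons, List.prod_cons, ih]; group
    have hR := prod_closed p.PB (p.ZB lam) p.q0 p.JN m p.t
    rw [R, show g + k - 2 = m by omega, ← hR, hm, List.range_succ, List.map_append,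
      List.prod_append, List.map_cons, List.map_nil, List.prod_cons, List.prod_nil, mul_one]
    have e1 : (List.range (m + 1)).map F = (List.range (m + 1)).map
        fun j => p.gau * elt p.PB (p.ZB lam) p.q0 p.JN j * p.gau⁻¹ := by
      refine List.map_congr_left fun j hj => ?_
      rw [List.mem_range] at hj
      simp only [F, frame, qOf, if_pos (show j < g + k - 1 by omega), elt]
      group
    have e2 : F (m + 1) = p.gau * eltL p.PB (p.ZB lam) p.q0 p.JN m p.t * p.gau⁻¹ := by
      simp only [F, frame, qOf, if_neg (show ¬ m + 1 < g + k - 1 by omega), eltL,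
        show g + k - 2 = m by omega]
      group
    rw [e1, hc, e2]
    group
  rw [hconj, outF]
  group

/-- The list of the eigenvalue conditions on the product. -/
def Good (lamF : Fin n → Kˣ) : Prop :=
  ∀ i : Fin n, dg (p.R lam) i.castSucc * lamF i = 1

/-- Replace the outer row of the chart of block `j`. -/
def setRow (j : ℕ) (y : Fin n → Kˣ) : Par n g k K :=
  { p with
    H := fun i => if (i : ℕ) = j then
        { p.H i with j3 := ((p.H i).j3.1, fun a b => if (a : ℕ) = 0 then y b else (p.H i).j3.2 a b) }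
      else p.H i
    X := fun i => if g + (i : ℕ) = j then fun a b => if (a : ℕ) = 0 then y b else p.X i a b
      else p.X i }

/-- The outer row of the chart of block `j`. -/
def row (j : ℕ) (b : Fin n) : Kˣ :=
  if h : j < g then (p.H ⟨j, h⟩).j3.2 ⟨0, b.pos⟩ b
  else if h' : j - g < k then p.X ⟨j - g, h'⟩ ⟨0, b.pos⟩ b else 1

end Par

lemma dia_setRow : ∀ {n : ℕ} (x : XP n K) (y : Fin n → Kˣ) (i : Fin n),
    dia n (fun a b => if (a : ℕ) = 0 then y b else x a b) i =
      dia n (fun a b => if (a : ℕ) = 0 then 1 else x a b) i * y i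
  | 0, _, _, i => i.elim0
  | n + 1, x, y, i => by simp [dia]

namespace HPar

/-- The same handle with another outer row in the third chart. -/
def withRow (h : HPar n K) (y : Fin n → Kˣ) : HPar n K :=
  { h with j3 := (h.j3.1, fun a b => if (a : ℕ) = 0 then y b else h.j3.2 a b) }

lemma dg_jm_eq (X Y : Jt n K) (e : X.1 = Y.1) (i : Fin (n + 1)) : dg (jm X) i = dg (jm Y) i := by
  show (jm X).1 i i = (jm Y).1 i i
  rw [jm_diag, jm_diag, e]

lemma dg_pA_eq (h : HPar n K) (y y' : Fin n → Kˣ) (i : Fin (n + 1)) :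
    dg (h.withRow y).pA i = dg (h.withRow y').pA i := by
  have hu : ∀ z, Up (om⁻¹ * (betaOf (h.withRow z).j2.2)⁻¹ * jm (h.withRow z).j3 * om *
      (h.withRow z).zB) := fun z =>
    (((om_up.inv).mul (betaOf_up _).inv).mul (jm_up _)).mul om_up |>.mul (h.withRow z).zB_up
  have e : ∀ z, dg (om⁻¹ * (betaOf (h.withRow z).j2.2)⁻¹ * jm (h.withRow z).j3 * om *
      (h.withRow z).zB) i = dg om⁻¹ i * dg (betaOf h.j2.2)⁻¹ i * dg (diOf h.j3.1) i * dg om i *
        dg h.zB i := by
    intro z
    rw [dg_mul ((((om_up.inv).mul (betaOf_up _).inv).mul (jm_up _)).mul om_up)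
        (h.withRow z).zB_up,
      dg_mul (((om_up.inv).mul (betaOf_up _).inv).mul (jm_up _)) om_up,
      dg_mul ((om_up.inv).mul (betaOf_up _).inv) (jm_up _),
      dg_mul om_up.inv (betaOf_up _).inv]
    rw [show dg (jm (h.withRow z).j3) i = dg (diOf h.j3.1) i from jm_diag _ i]
    rfl
  have h1 := dg_inv_mul (hu y) i
  have h2 := dg_inv_mul (hu y') i
  rw [e y] at h1
  rw [e y'] at h2
  simp only [pA]
  exact (IsUnit.of_mul_eq_one _ h1).mul_left_cancel (h1.trans h2.symm)

lemma bc_withRow (h : HPar n K) (y : Fin n → Kˣ) (i : Fin n) :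
    dg (h.withRow y).P i.castSucc * dg (h.withRow y).Z i.castSucc =
      dg (h.withRow fun _ => 1).P i.castSucc * dg (h.withRow fun _ => 1).Z i.castSucc * y i := by
  have e : ∀ z, dg (h.withRow z).P i.castSucc * dg (h.withRow z).Z i.castSucc =
      dg (h.withRow fun _ => 1).pA i.castSucc * dg (cw (diOf h.j1.1)) i.castSucc *
        dg (cw (diOf h.j2.1)) i.castSucc * dg (cw (diOf h.j3.1)) i.castSucc *
        dg (betaOf (h.withRow z).j3.2) i.castSucc * dg om i.castSucc * dg h.pB⁻¹ i.castSucc := by
    intro z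
    have u := (h.withRow z).pA_up
    have hb : ∀ x : XP n K, dg (bOf x) i.castSucc = 1 := fun x => bOf_uni x _
    simp only [P, Z]
    rw [dg_mul (((((u.mul (diOf_lo _).cw).mul (bOf_up _)).mul (diOf_lo _).cw).mul (bOf_up _)).mul
        (diOf_lo _).cw) (bOf_up _),
      dg_mul ((((u.mul (diOf_lo _).cw).mul (bOf_up _)).mul (diOf_lo _).cw).mul (bOf_up _))
        (diOf_lo _).cw,
      dg_mul (((u.mul (diOf_lo _).cw).mul (bOf_up _)).mul (diOf_lo _).cw) (bOf_up _),
      dg_mul ((u.mul (diOf_lo _).cw).mul (bOf_up _)) (diOf_lo _).cw,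
      dg_mul (u.mul (diOf_lo _).cw) (bOf_up _), dg_mul u (diOf_lo _).cw,
      dg_mul ((betaOf_up _).mul om_up) (h.withRow z).pB_up.inv, dg_mul (betaOf_up _) om_up,
      hb, hb, hb, dg_pA_eq h z (fun _ => 1)]
    simp only [withRow, pB, zA]
    ring
  rw [e, e]
  have hb : ∀ z : Fin n → Kˣ, dg (betaOf (h.withRow z).j3.2) i.castSucc =
      (dia n (fun a b => if (a : ℕ) = 0 then z b else h.j3.2 a b) i : K) := fun z => betaOf_diag _ i
  rw [hb, hb, dia_setRow, Units.val_mul]
  ring

end HPar

namespace Par

variable (p : Par n g k K) (lam : Fin k → Fin n → Kˣ)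

lemma bc_setRow (j j' : ℕ) (hj : j < g + k) (y : Fin n → Kˣ) (i : Fin n) :
    bc (p.setRow j y).PB ((p.setRow j y).ZB lam) j' i.castSucc =
      bc (p.setRow j fun _ => 1).PB ((p.setRow j fun _ => 1).ZB lam) j' i.castSucc *
        if j' = j then (y i : K) else 1 := by
  simp only [bc, PB, ZB]
  by_cases h : j' < g
  · simp only [dif_pos h, setRow]
    by_cases e : j' = j
    · simp only [if_pos e]
      exact HPar.bc_withRow (p.H ⟨j', h⟩) y i
    · simp only [if_neg e, mul_one]
  · simp only [dif_neg h]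
    by_cases h' : j' - g < k
    · simp only [dif_pos h', setRow]
      by_cases e : j' = j
      · simp only [show g + (j' - g) = j by omega, if_true, if_pos e, tZ_diag]
        rw [dia_setRow, Units.val_mul]
        ring
      · simp only [show ¬ g + (j' - g) = j by omega, if_false, if_neg e, mul_one]
    · simp only [dif_neg h']
      rw [if_neg (by omega), mul_one]

lemma R_setRow (hN : 2 ≤ g + k) (j : ℕ) (hj : j < g + k) (y : Fin n → Kˣ) (i : Fin n) :
    dg ((p.setRow j y).R lam) i.castSucc =
      dg ((p.setRow j fun _ => 1).R lam) i.castSucc * y i := by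
  simp only [R]
  rw [RL_diag _ (p.setRow j y).PB_up ((p.setRow j y).ZB_up lam) (p.setRow j y).q0_up,
    RL_diag _ (p.setRow j _).PB_up ((p.setRow j _).ZB_up lam) (p.setRow j _).q0_up]
  have e : ∏ j' ∈ range (g + k - 2 + 2), bc (p.setRow j y).PB ((p.setRow j y).ZB lam) j' i.castSucc =
      (∏ j' ∈ range (g + k - 2 + 2),
        bc (p.setRow j fun _ => 1).PB ((p.setRow j fun _ => 1).ZB lam) j' i.castSucc) * y i := by
    rw [prod_congr rfl fun j' _ => bc_setRow p lam j j' hj y i, prod_mul_distrib,
      prod_ite_eq' (range (g + k - 2 + 2)) j fun _ => (y i : K), if_pos (mem_range.2 (by omega))]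
  rw [e]
  show _ * (∏ j' ∈ range (g + k - 2), jc ((p.setRow j fun _ => 1).JN j') i.castSucc) *
    lc p.t i.castSucc = _ * _ * lc p.t i.castSucc * _
  ring

/-- The outer row making the product have prescribed diagonal. -/
noncomputable def solveRow (lamF : Fin n → Kˣ) (j : ℕ) : Fin n → Kˣ := fun i =>
  ((IsUnit.of_mul_eq_one _ (((p.setRow j fun _ => 1).R_up lam).inv_diag i.castSucc)).unit *
    lamF i)⁻¹

/-- Parameters meeting the closing condition. -/
noncomputable def fix (lamF : Fin n → Kˣ) (j : ℕ) : Par n g k K :=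
  p.setRow j (p.solveRow lam lamF j)

lemma fix_good (hN : 2 ≤ g + k) (lamF : Fin n → Kˣ) (j : ℕ) (hj : j < g + k) :
    (p.fix lam lamF j).Good lam lamF := by
  intro i
  rw [fix, R_setRow p lam hN j hj, solveRow, _root_.mul_inv_rev, Units.val_mul]
  set u := (IsUnit.of_mul_eq_one _ (((p.setRow j fun _ => 1).R_up lam).inv_diag i.castSucc)).unit
  have hu : (u : K) = dg ((p.setRow j fun _ => 1).R lam) i.castSucc := IsUnit.unit_spec _
  rw [← hu]
  calc _ = (u : K) * ((u⁻¹ : Kˣ) : K) * ((((lamF i)⁻¹ : Kˣ) : K) * (lamF i : K)) := by ring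
    _ = 1 := by rw [Units.mul_inv, Units.inv_mul, one_mul]

lemma setRow_row (j : ℕ) : p.setRow j (p.row j) = p := by
  obtain ⟨gu, qd, qu, H, X, J, t⟩ := p
  simp only [setRow, Par.mk.injEq, true_and, and_true]
  constructor
  · funext i
    by_cases e : (i : ℕ) = j
    · subst e
      simp only [row, if_true, dif_pos i.isLt, Fin.eta]
      obtain ⟨d, u, j1, j2, j3⟩ := H i
      simp only [HPar.mk.injEq, true_and]
      refine Prod.ext rfl ?_
      funext a b
      by_cases h : (a : ℕ) = 0
      · simp only [if_pos h]; rw [show a = ⟨0, b.pos⟩ from Fin.ext h]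
      · simp only [if_neg h]
    · simp only [if_neg e]
  · funext i
    by_cases e : g + (i : ℕ) = j
    · subst e
      simp only [row, if_true, dif_neg (show ¬ g + (i : ℕ) < g by omega), Nat.add_sub_cancel_left,
        dif_pos i.isLt, Fin.eta]
      funext a b
      by_cases h : (a : ℕ) = 0
      · simp only [if_pos h]; rw [show a = ⟨0, b.pos⟩ from Fin.ext h]
      · simp only [if_neg h]
    · simp only [if_neg e]

lemma setRow_setRow (j : ℕ) (y y' : Fin n → Kˣ) :
    (p.setRow j y).setRow j y' = p.setRow j y' := by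
  simp only [setRow, Par.mk.injEq, true_and, and_true]
  constructor
  · funext i
    by_cases e : (i : ℕ) = j
    · simp only [if_pos e, HPar.mk.injEq, true_and]
      refine Prod.ext rfl ?_
      funext a b
      by_cases h : (a : ℕ) = 0 <;> simp [h]
    · simp only [if_neg e]
  · funext i
    by_cases e : g + (i : ℕ) = j
    · simp only [if_pos e]
      funext a b
      by_cases h : (a : ℕ) = 0 <;> simp [h]
    · simp only [if_neg e]

lemma fix_self (hN : 2 ≤ g + k) (lamF : Fin n → Kˣ) (j : ℕ) (hj : j < g + k)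
    (h : p.Good lam lamF) : p.fix lam lamF j = p := by
  have e : p.solveRow lam lamF j = p.row j := by
    funext i
    have h1 := h i
    rw [← setRow_row p j, R_setRow p lam hN j hj] at h1
    refine inv_eq_of_mul_eq_one_right (Units.ext ?_)
    rw [Units.val_mul, Units.val_mul, IsUnit.unit_spec, Units.val_one]
    calc _ = dg ((p.setRow j fun _ => 1).R lam) i.castSucc * (p.row j i : K) * (lamF i : K) :=
          mul_right_comm _ _ _
      _ = 1 := h1
  rw [fix, e, setRow_row]

end Par

end Vale.Agent.P002.Frames
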