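import Vale.Agent.P002.Frames.Assembly

/-! Moving a boundary class to the last place by a Hurwitz move. -/

open Matrix Filter Topology

namespace Vale.Agent.P002.Frames

open Vale.Agent.P002.Surface (Mat mul_adj adj_mul det_adj)
open Vale.Agent.P002.Twisted (IntMat)

variable {r g k : ℕ}

section

variable {K L : Type*} [CommRing K] [CommRing L]

/-- Move the `i`-th matrix to the end. -/
def toEnd (i : Fin (k + 1)) (c : Fin (k + 1) → Matrix (Fin r) (Fin r) K) :
    Fin (k + 1) → Matrix (Fin r) (Fin r) K :=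
  Fin.snoc (fun l => if i.succAbove l < i then c (i.succAbove l)
    else c i * c (i.succAbove l) * (c i).adjugate) (c i)

/-- Move the last matrix to the `i`-th place. -/
def fromEnd (i : Fin (k + 1)) (d : Fin (k + 1) → Matrix (Fin r) (Fin r) K) :
    Fin (k + 1) → Matrix (Fin r) (Fin r) K :=
  i.insertNth (d (Fin.last k)) fun l => if i.succAbove l < i then d l.castSucc
    else (d (Fin.last k)).adjugate * d l.castSucc * d (Fin.last k)

lemma map_fromEnd (f : K →+* L) (i : Fin (k + 1)) (d : Fin (k + 1) → Matrix (Fin r) (Fin r) K)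
    (a : Fin (k + 1)) :
    (fromEnd i d a).map f = fromEnd i (fun a => (d a).map f) a := by
  have e : ∀ M : Matrix (Fin r) (Fin r) K, M.map f = f.mapMatrix M := fun _ => rfl
  refine i.succAboveCases ?_ (fun l => ?_) a
  · simp [fromEnd]
  · simp only [fromEnd, Fin.insertNth_apply_succAbove]
    split_ifs
    · rfl
    · simp only [e, map_mul, RingHom.map_adjugate]

lemma fromEnd_toEnd (i : Fin (k + 1)) (c : Fin (k + 1) → Matrix (Fin r) (Fin r) K)
    (h : (c i).det = 1) : fromEnd i (toEnd i c) = c := by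
  have h1 : (c i).adjugate * c i = 1 := by rw [Matrix.adjugate_mul, h, one_smul]
  funext a
  refine i.succAboveCases ?_ (fun l => ?_) a
  · simp [fromEnd, toEnd]
  · simp only [fromEnd, toEnd, Fin.insertNth_apply_succAbove, Fin.snoc_castSucc, Fin.snoc_last]
    split_ifs with e
    · rfl
    · rw [show (c i).adjugate * (c i * c (i.succAbove l) * (c i).adjugate) * c i =
        ((c i).adjugate * c i) * c (i.succAbove l) * ((c i).adjugate * c i) by noncomm_ring,
        h1, one_mul, mul_one]

lemma toEnd_fromEnd (i : Fin (k + 1)) (d : Fin (k + 1) → Matrix (Fin r) (Fin r) K)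
    (h : (d (Fin.last k)).det = 1) : toEnd i (fromEnd i d) = d := by
  have h1 : d (Fin.last k) * (d (Fin.last k)).adjugate = 1 := by
    rw [Matrix.mul_adjugate, h, one_smul]
  funext a
  refine Fin.lastCases ?_ (fun l => ?_) a
  · simp [fromEnd, toEnd]
  · simp only [fromEnd, toEnd, Fin.snoc_castSucc, Fin.insertNth_apply_succAbove,
      Fin.insertNth_apply_same]
    split_ifs with e
    · rfl
    · rw [show d (Fin.last k) * ((d (Fin.last k)).adjugate * d l.castSucc * d (Fin.last k)) *
        (d (Fin.last k)).adjugate = (d (Fin.last k) * (d (Fin.last k)).adjugate) * d l.castSucc *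
          (d (Fin.last k) * (d (Fin.last k)).adjugate) by noncomm_ring, h1, one_mul, mul_one]

end

lemma prod_move {M : Type*} [Monoid M] : ∀ {k : ℕ} (i : Fin (k + 1)) (c : Fin (k + 1) → M) (b : M),
    c i * b = 1 → b * c i = 1 →
      (List.ofFn c).prod = (List.ofFn fun l : Fin k =>
        if i.succAbove l < i then c (i.succAbove l) else c i * c (i.succAbove l) * b).prod * c i
  | 0, i, c, b, _, _ => by
    obtain rfl : i = 0 := Fin.eq_zero i
    simp
  | k + 1, i, c, b, h1, h2 => by
    revert h1 h2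
    refine Fin.cases ?_ (fun i => ?_) i
    · intro h1 h2
      have hc : ∀ l : List M, (l.map fun y => c 0 * y * b).prod * c 0 = c 0 * l.prod := by
        intro l
        induction l with
        | nil => simp
        | cons a l ih =>
          simp only [List.map_cons, List.prod_cons, mul_assoc] at ih ⊢
          rw [ih, ← mul_assoc b, h2, one_mul]
      rw [List.ofFn_succ, List.prod_cons, ← hc, List.map_ofFn]
      simp [Function.comp_def]
    · intro h1 h2
      rw [List.ofFn_succ, List.prod_cons, prod_move i (fun l => c l.succ) b h1 h2,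
        List.ofFn_succ, List.prod_cons]
      simp only [Fin.succ_succAbove_zero, Fin.succ_pos, if_true, Fin.succ_succAbove_succ,
        Fin.succ_lt_succ_iff, mul_assoc]

lemma toEnd_prod (i : Fin (k + 1)) (c : Fin (k + 1) → Mat r) (h : (c i).det = 1) :
    (List.ofFn (toEnd i c)).prod = (List.ofFn c).prod := by
  rw [prod_move i c (c i).adjugate (mul_adj h) (adj_mul h), toEnd, ofFn_snoc_prod]

/-- The classes after moving class `i` to the end. -/
def classEnd (i : Fin (k + 1)) (J : Fin (k + 1) → Mat r) : Fin (k + 1) → Mat r :=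
  Fin.snoc (fun l => J (i.succAbove l)) (J i)

/-- The move on tuples. -/
def mvEnd (i : Fin (k + 1)) (x : MT g (k + 1) r) : MT g (k + 1) r := (x.1, toEnd i x.2)

/-- The inverse move on tuples. -/
def mvBack (i : Fin (k + 1)) (x : MT g (k + 1) r) : MT g (k + 1) r := (x.1, fromEnd i x.2)

lemma conj_adj {a κ J : Mat r} : a * (κ * J * κ.adjugate) * a.adjugate =
    a * κ * J * (a * κ).adjugate := by
  simp only [adjugate_mul_distrib, mul_assoc]

variable {J : Fin (k + 1) → Mat r} {i : Fin (k + 1)}

lemma det_class {s : ℕ} {J : Fin s → Mat r} (hJ : ∀ l, (J l).det = 1) {x : MT g s r}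
    (hx : x ∈ HomM g J) (l : Fin s) : (x.2 l).det = 1 := by
  obtain ⟨κ, hκ, e⟩ := hx.2.1 l
  rw [e, det_mul, det_mul, det_adj hκ, hκ, hJ l, one_mul, one_mul]

lemma mvEnd_mem (hJ : ∀ l, (J l).det = 1) {x : MT g (k + 1) r} (hx : x ∈ HomM g J) :
    mvEnd i x ∈ HomM g (classEnd i J) := by
  refine ⟨hx.1, fun a => ?_, ?_⟩
  · refine Fin.lastCases ?_ (fun l => ?_) a
    · simpa [mvEnd, toEnd, classEnd] using hx.2.1 i
    · obtain ⟨κ, hκ, e⟩ := hx.2.1 (i.succAbove l)
      simp only [mvEnd, toEnd, classEnd, Fin.snoc_castSucc]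
      split_ifs
      · exact ⟨κ, hκ, e⟩
      · exact ⟨x.2 i * κ, by rw [det_mul, det_class hJ hx, hκ, one_mul], by rw [e, conj_adj]⟩
  · show _ * (List.ofFn (toEnd i x.2)).prod = 1
    rw [toEnd_prod i x.2 (det_class hJ hx i)]
    exact hx.2.2

lemma det_classEnd (hJ : ∀ l, (J l).det = 1) (l : Fin (k + 1)) : (classEnd i J l).det = 1 := by
  refine Fin.lastCases ?_ (fun a => ?_) l <;> simp [classEnd, hJ]

lemma mvBack_mem (hJ : ∀ l, (J l).det = 1) {y : MT g (k + 1) r}
    (hy : y ∈ HomM g (classEnd i J)) :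
    mvBack i y ∈ HomM g J ∧ mvEnd i (mvBack i y) = y := by
  have hd := det_class (det_classEnd hJ) hy
  have he : toEnd i (fromEnd i y.2) = y.2 := toEnd_fromEnd i y.2 (hd _)
  refine ⟨⟨hy.1, fun a => ?_, ?_⟩, Prod.ext rfl he⟩
  · refine i.succAboveCases ?_ (fun l => ?_) a
    · simpa [mvBack, fromEnd, classEnd] using hy.2.1 (Fin.last k)
    · obtain ⟨κ, hκ, e⟩ := hy.2.1 l.castSucc
      simp only [classEnd, Fin.snoc_castSucc] at e
      simp only [mvBack, fromEnd, Fin.insertNth_apply_succAbove]
      split_ifs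
      · exact ⟨κ, hκ, e⟩
      · refine ⟨(y.2 (Fin.last k)).adjugate * κ,
          by rw [det_mul, det_adj (hd _), hκ, one_mul], ?_⟩
        rw [e, ← conj_adj, General.adj_adj' (hd _)]
  · show _ * (List.ofFn (fromEnd i y.2)).prod = 1
    rw [← toEnd_prod i (fromEnd i y.2) (by simpa [fromEnd] using hd (Fin.last k)), he]
    exact hy.2.2

lemma adjugate_mem {S : Subalgebra ℂ (Mat r)} {A : Mat r} (hA : A ∈ S) (h : A.det = 1) :
    A.adjugate ∈ S := by
  have hc := Matrix.aeval_self_charpoly A
  rw [← Polynomial.X_mul_divX_add A.charpoly, map_add, map_mul, Polynomial.aeval_X,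
    Polynomial.aeval_C, Algebra.algebraMap_eq_smul_one] at hc
  set c := A.charpoly.coeff 0
  set B := Polynomial.aeval A A.charpoly.divX
  have hB : B ∈ S := by
    refine Algebra.adjoin_le ?_ (Polynomial.aeval_mem_adjoin_singleton ℂ A)
    rintro y rfl
    exact hA
  have hc0 : c ≠ 0 := by
    intro h0
    have := Matrix.det_eq_sign_charpoly_coeff A
    rw [h, show A.charpoly.coeff 0 = c from rfl, h0, mul_zero] at this
    exact one_ne_zero this
  have e : A.adjugate = (-c⁻¹) • B := by
    have h2 : A.adjugate * (A * B + c • 1) = 0 := by rw [hc, mul_zero]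
    rw [mul_add, ← mul_assoc, adj_mul h, one_mul, Matrix.mul_smul, mul_one] at h2
    rw [eq_neg_of_add_eq_zero_left h2, smul_neg, smul_smul]
    field_simp
    simp
  rw [e]
  exact S.smul_mem hB _

lemma algOf_mvBack {y : MT g (k + 1) r} (h1 : (y.2 (Fin.last k)).det = 1) (h : algOf y = ⊤) :
    algOf (mvBack i y) = ⊤ := by
  rw [eq_top_iff, ← h]
  refine Algebra.adjoin_le ?_
  set S := algOf (mvBack i y)
  have hmem : ∀ a, fromEnd i y.2 a ∈ S := fun a => Algebra.subset_adjoin (Or.inr ⟨a, rfl⟩)
  have hlast : y.2 (Fin.last k) ∈ S := by simpa [fromEnd] using hmem i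
  rintro M ((⟨a, rfl⟩ | ⟨a, rfl⟩) | ⟨a, rfl⟩)
  · exact Algebra.subset_adjoin (Or.inl (Or.inl ⟨a, rfl⟩))
  · exact Algebra.subset_adjoin (Or.inl (Or.inr ⟨a, rfl⟩))
  · show y.2 a ∈ S
    rw [← toEnd_fromEnd i y.2 h1]
    refine Fin.lastCases ?_ (fun l => ?_) a
    · simpa [toEnd] using hmem i
    · simp only [toEnd, Fin.snoc_castSucc]
      split_ifs
      · exact hmem _
      · exact mul_mem (mul_mem (hmem _) (hmem _))
          (adjugate_mem (hmem _) (by simpa [fromEnd] using h1))

/-- The substitution expressing the inverse move. -/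
noncomputable def subst (i : Fin (k + 1)) : MC g (k + 1) r → MvPolynomial (MC g (k + 1) r) ℂ :=
  Sum.elim (fun q => MvPolynomial.X (Sum.inl q)) fun q =>
    fromEnd i (fun a => Matrix.of fun b c =>
      (MvPolynomial.X (Sum.inr (a, b, c)) : MvPolynomial (MC g (k + 1) r) ℂ)) q.1 q.2.1 q.2.2

lemma eval_subst (f : MvPolynomial (MC g (k + 1) r) ℂ) (y : MT g (k + 1) r) :
    MvPolynomial.eval (ent y) (MvPolynomial.bind₁ (subst i) f) =
      MvPolynomial.eval (ent (mvBack i y)) f := by
  have h : ∀ q, MvPolynomial.eval (ent y) (subst i q) = ent (mvBack i y) q := by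
    rintro (q | ⟨a, b, c⟩)
    · simp [subst, ent, mvBack]
    · refine (congrFun (congrFun (map_fromEnd (MvPolynomial.eval (ent y)) i
        (fun a => Matrix.of fun b c =>
          (MvPolynomial.X (Sum.inr (a, b, c)) : MvPolynomial (MC g (k + 1) r) ℂ)) a) b) c).trans ?_
      show _ = fromEnd i y.2 a b c
      congr 3
      funext a'
      ext b' c'
      simp [ent]
  change MvPolynomial.eval₂Hom (RingHom.id ℂ) (ent y) (MvPolynomial.bind₁ (subst i) f) = _
  rw [MvPolynomial.eval₂Hom_bind₁]
  congr 1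
  exact congrArg (MvPolynomial.eval₂Hom (RingHom.id ℂ)) (funext h)

lemma continuous_mvEnd : Continuous (mvEnd (g := g) (r := r) i) := by
  refine continuous_fst.prodMk (continuous_pi fun a => ?_)
  have hp : ∀ a, Continuous fun x : MT g (k + 1) r => x.2 a :=
    fun a => (continuous_apply a).comp continuous_snd
  refine Fin.lastCases ?_ (fun l => ?_) a
  · simpa [toEnd] using hp i
  · simp only [toEnd, Fin.snoc_castSucc]
    split_ifs
    · exact hp _
    · exact ((hp i).matrix_mul (hp _)).matrix_mul (hp i).matrix_adjugate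

lemma ent_int {L : IntermediateField ℚ ℂ} {y : MT g (k + 1) r}
    (h : ∀ q, ent y q ∈ L ∧ IsIntegral ℤ (ent y q)) (q : MC g (k + 1) r) :
    ent (mvBack i y) q ∈ L ∧ IsIntegral ℤ (ent (mvBack i y) q) := by
  let R : Subring ℂ := L.toSubring ⊓ (integralClosure ℤ ℂ).toSubring
  have hy : ∀ a, IntMat R (y.2 a) := fun a b c => h (Sum.inr (a, b, c))
  have hm : ∀ a, IntMat R (fromEnd i y.2 a) := by
    intro a
    refine i.succAboveCases ?_ (fun l => ?_) a
    · simpa [fromEnd] using hy _
    · simp only [fromEnd, Fin.insertNth_apply_succAbove]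
      split_ifs
      · exact hy _
      · exact ((hy _).adjugate.mul (hy _)).mul (hy _)
  rcases q with q | ⟨a, b, c⟩
  · exact h (Sum.inl q)
  · exact hm a b c

/-- Density transfers along a Hurwitz move. -/
lemma Concl.move (i : Fin (k + 1)) (hJ : ∀ l, (J l).det = 1) (h : Concl g (classEnd i J)) :
    Concl g J := by
  obtain ⟨L, hL, p, hp, hpA, U, hUo, hpU, hdens, hprime⟩ := h
  obtain ⟨hpb, hpe⟩ := mvBack_mem hJ hp
  have hback : ∀ {x : MT g (k + 1) r}, x ∈ HomM g J → mvBack i (mvEnd i x) = x := fun hx =>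
    Prod.ext rfl (fromEnd_toEnd i _ (det_class hJ hx i))
  refine ⟨L, hL, mvBack i p, hpb, algOf_mvBack (det_class (det_classEnd hJ) hp _) hpA,
    mvEnd i ⁻¹' U, hUo.preimage continuous_mvEnd, by rw [Set.mem_preimage, hpe]; exact hpU,
    fun x hx f hf => ?_, fun f₁ f₂ h12 => ?_⟩
  · have := hdens (mvEnd i x) ⟨hx.1, mvEnd_mem hJ hx.2⟩ (MvPolynomial.bind₁ (subst i) f)
      fun y hy hyA hyi => by
        rw [eval_subst]
        exact hf _ (mvBack_mem hJ hy).1 (algOf_mvBack (det_class (det_classEnd hJ) hy _) hyA)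
          (ent_int hyi)
    rwa [eval_subst, hback hx.2] at this
  · rcases hprime (MvPolynomial.bind₁ (subst i) f₁) (MvPolynomial.bind₁ (subst i) f₂)
      (fun y hy => by
        rw [← map_mul, eval_subst]
        obtain ⟨h1, h2⟩ := mvBack_mem hJ hy.2
        exact h12 _ ⟨by rw [Set.mem_preimage, h2]; exact hy.1, h1⟩) with h | h
    · exact Or.inl fun x hx => by
        have := h (mvEnd i x) ⟨hx.1, mvEnd_mem hJ hx.2⟩
        rwa [eval_subst, hback hx.2] at this
    · exact Or.inr fun x hx => by
        have := h (mvEnd i x) ⟨hx.1, mvEnd_mem hJ hx.2⟩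
        rwa [eval_subst, hback hx.2] at this

end Vale.Agent.P002.Frames
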