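import Vale.Agent.P002.Frames.Natural
import Vale.Agent.P002.Frames.Laurent

/-! The parameters as an affine space times a torus, and the universal parameter. -/

open Matrix Finset

namespace Vale.Agent.P002.Frames

variable {n g k : ℕ}

/-- Affine coordinates. -/
abbrev AIx (n g : ℕ) : Type :=
  (Fin (n + 1) × Fin (n + 1)) ⊕ (Fin (n + 1) × Fin (n + 1)) ⊕
    (Fin g × Fin (n + 1) × Fin (n + 1))

/-- Unit coordinates of a joint. -/
abbrev JIx (n : ℕ) : Type := Fin n ⊕ (Fin n × Fin n)

/-- Unit coordinates. -/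
abbrev UIx (n g k : ℕ) : Type :=
  Fin n ⊕ Fin n ⊕ (Fin g × (Fin n ⊕ (Fin 3 × JIx n))) ⊕ (Fin k × Fin n × Fin n) ⊕
    (Fin (g + k) × JIx n)

section

variable {K L : Type*} [CommRing K] [CommRing L]

/-- A joint from its coordinates. -/
def jtOf (u : JIx n → Kˣ) : Jt n K := (fun i => u (Sum.inl i), fun a b => u (Sum.inr (a, b)))

/-- The coordinates of a joint. -/
def jtVars (J : Jt n K) : JIx n → Kˣ := Sum.elim J.1 fun q => J.2 q.1 q.2

/-- Parameters from coordinates. -/
def ofVars (a : AIx n g → K) (u : UIx n g k → Kˣ) : Par n g k K where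
  gu i j := a (Sum.inl (i, j))
  qd i := u (Sum.inl i)
  qu i j := a (Sum.inr (Sum.inl (i, j)))
  t i := u (Sum.inr (Sum.inl i))
  H i :=
    { d := fun l => u (Sum.inr (Sum.inr (Sum.inl (i, Sum.inl l))))
      u := fun c e => a (Sum.inr (Sum.inr (i, c, e)))
      j1 := jtOf fun q => u (Sum.inr (Sum.inr (Sum.inl (i, Sum.inr (0, q)))))
      j2 := jtOf fun q => u (Sum.inr (Sum.inr (Sum.inl (i, Sum.inr (1, q)))))
      j3 := jtOf fun q => u (Sum.inr (Sum.inr (Sum.inl (i, Sum.inr (2, q))))) }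
  X i c e := u (Sum.inr (Sum.inr (Sum.inr (Sum.inl (i, c, e)))))
  J i := jtOf fun q => u (Sum.inr (Sum.inr (Sum.inr (Sum.inr (i, q)))))

lemma ofVars_surj (p : Par n g k K) : ∃ a u, ofVars a u = p := by
  refine ⟨Sum.elim (fun q => p.gu q.1 q.2) (Sum.elim (fun q => p.qu q.1 q.2)
      fun q => (p.H q.1).u q.2.1 q.2.2),
    Sum.elim p.qd (Sum.elim p.t (Sum.elim
      (fun q => Sum.elim (p.H q.1).d
        (fun e => jtVars (![(p.H q.1).j1, (p.H q.1).j2, (p.H q.1).j3] e.1) e.2) q.2)
      (Sum.elim (fun q => p.X q.1 q.2.1 q.2.2) fun q => jtVars (p.J q.1) q.2))), rfl⟩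

lemma mp_ofVars (f : K →+* L) (a : AIx n g → K) (u : UIx n g k → Kˣ) :
    mpP f (ofVars a u) = ofVars (fun i => f (a i)) fun i => Units.map (f : K →* L) (u i) := rfl

end

/-- The parameter space. -/
abbrev Z (n g k : ℕ) : Type := Pt (AIx n g) (UIx n g k)

/-- The parameter at a point. -/
def parAt (z : Z n g k) : Par n g k ℂ := ofVars z.1 z.2

lemma parAt_surj (p : Par n g k ℂ) : ∃ z, parAt z = p := by
  obtain ⟨a, u, h⟩ := ofVars_surj p
  exact ⟨(a, u), h⟩

variable {R : Subring ℂ}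

/-- The universal parameter. -/
def univPar (R : Subring ℂ) : Par n g k (LI R (AIx n g) (UIx n g k)) :=
  ofVars coordLI unitLI

lemma ev_univPar (z : Z n g k) : mpP (evLI z) (univPar R) = parAt z := by
  rw [univPar, mp_ofVars]
  simp only [evLI_coord, evLI_unit]
  rfl

/-- Constants. -/
def constHom (R : Subring ℂ) (ι κ : Type*) : R →+* LI R ι κ where
  toFun := constLI
  map_one' := rfl
  map_zero' := rfl
  map_add' _ _ := rfl
  map_mul' _ _ := rfl

/-- Constant units. -/
def constUnit {ι κ : Type*} (c : Rˣ) : (LI R ι κ)ˣ := Units.map (constHom R ι κ : R →* LI R ι κ) c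

/-- A unit of `R` as a complex unit. -/
def cu (c : Rˣ) : ℂˣ := Units.map (R.subtype : R →* ℂ) c

lemma ev_constUnit {ι κ : Type*} (z : Pt ι κ) (c : Rˣ) :
    Units.map (evLI (R := R) z : LI R ι κ →* ℂ) (constUnit c) = cu c := Units.ext rfl

variable (lam : Fin k → Fin n → Rˣ) (lamF : Fin n → Rˣ) (j : ℕ)

/-- The fixed parameter at a point. -/
noncomputable def fixAt (z : Z n g k) : Par n g k ℂ :=
  (parAt z).fix (fun i l => cu (lam i l)) (fun l => cu (lamF l)) j

/-- The universal fixed parameter. -/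
noncomputable def univFix : Par n g k (LI R (AIx n g) (UIx n g k)) :=
  (univPar R).fix (fun i l => constUnit (lam i l)) (fun l => constUnit (lamF l)) j

/-- The eigenvalues as constants. -/
abbrev cLam : Fin k → Fin n → (LI R (AIx n g) (UIx n g k))ˣ := fun i l => constUnit (lam i l)

/-- The eigenvalues as complex numbers. -/
abbrev cuLam : Fin k → Fin n → ℂˣ := fun i l => cu (lam i l)

lemma ev_univFix (z : Z n g k) : mpP (evLI z) (univFix lam lamF j) = fixAt lam lamF j z := by
  rw [univFix, Par.mp_fix, ev_univPar, fixAt]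
  rfl

lemma ev_cLam (z : Z n g k) : mpLam (evLI (R := R) z) (cLam (g := g) lam) = cuLam lam := by
  funext i l; exact ev_constUnit z _

/-- Functions given by a Laurent function with coefficients in `R`. -/
def IsLI (R : Subring ℂ) (F : Z n g k → ℂ) : Prop := F ∈ LI R (AIx n g) (UIx n g k)

lemma isLI_of_ev {m : ℕ} (M : SL m (LI R (AIx n g) (UIx n g k))) {F : Z n g k → SL m ℂ}
    (h : ∀ z, mp (evLI z) M = F z) (a b : Fin m) : IsLI R fun z : Z n g k => (F z).1 a b := by
  have e : (fun z => (F z).1 a b) = (M.1 a b).1 := funext fun z => by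
    rw [← h z, mp_apply]; rfl
  rw [e]
  exact (M.1 a b).2

lemma outA_LI (i : Fin g) (a b : Fin (n + 1)) :
    IsLI R fun z : Z n g k => ((fixAt lam lamF j z).outA (cuLam lam) i).1 a b :=
  isLI_of_ev ((univFix lam lamF j).outA (cLam lam) i)
    (fun z => by rw [Par.mp_outA, ev_univFix, ev_cLam]) a b

lemma outB_LI (i : Fin g) (a b : Fin (n + 1)) :
    IsLI R fun z : Z n g k => ((fixAt lam lamF j z).outB (cuLam lam) i).1 a b :=
  isLI_of_ev ((univFix lam lamF j).outB (cLam lam) i)
    (fun z => by rw [Par.mp_outB, ev_univFix, ev_cLam]) a b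

lemma outC_LI (i : Fin k) (a b : Fin (n + 1)) :
    IsLI R fun z : Z n g k => ((fixAt lam lamF j z).outC (cuLam lam) i).1 a b :=
  isLI_of_ev ((univFix lam lamF j).outC (cLam lam) i)
    (fun z => by rw [Par.mp_outC, ev_univFix, ev_cLam]) a b

lemma outF_LI (a b : Fin (n + 1)) :
    IsLI R fun z : Z n g k => ((fixAt lam lamF j z).outF (cuLam lam)).1 a b :=
  isLI_of_ev ((univFix lam lamF j).outF (cLam lam))
    (fun z => by rw [Par.mp_outF, ev_univFix, ev_cLam]) a b

lemma R_LI (a b : Fin (n + 1)) :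
    IsLI R fun z : Z n g k => ((fixAt lam lamF j z).R (cuLam lam)).1 a b :=
  isLI_of_ev ((univFix lam lamF j).R (cLam lam))
    (fun z => by rw [Par.mp_R, ev_univFix, ev_cLam]) a b

lemma bOf_LI (i : Fin k) (a b : Fin (n + 1)) :
    IsLI R fun z : Z n g k => (bOf ((fixAt lam lamF j z).X i)).1 a b :=
  isLI_of_ev (bOf ((univFix lam lamF j).X i))
    (fun z => by rw [(mp_chart _ _).1, ← ev_univFix]; rfl) a b

end Vale.Agent.P002.Frames
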